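import Vale.Agent.Lib.P040S.Sweep

/-!
Alive pairs: the inversions between the real order and the balanced virtual order, and their
evolution under the events of the sweep.
-/

namespace Vale.Agent.P040S

open Finset

namespace Sweep

variable (S : Sweep)

theorem cnt_rv {τ x : ℕ} (hx : x < S.m) :
    S.cnt (τ + S.N) x + S.cnt τ x + 1 = ((range S.m).filter fun z => S.lb z = S.lb x).card := by
  have hx' := S.rv τ x hx
  have key : ∀ z, z < S.m → (S.rk (τ + S.N) z < S.rk (τ + S.N) x ↔ S.rk τ x < S.rk τ z) := by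
    intro z hz
    have := S.rv τ z hz
    omega
  set A := (range S.m).filter fun z => S.lb z = S.lb x ∧ S.rk (τ + S.N) z < S.rk (τ + S.N) x with hA
  set B := (range S.m).filter fun z => S.lb z = S.lb x ∧ S.rk τ z < S.rk τ x with hB
  have h1 : (range S.m).filter (fun z => S.lb z = S.lb x) = insert x (A ∪ B) := by
    ext z
    simp only [hA, hB, Finset.mem_filter, Finset.mem_range, Finset.mem_insert, Finset.mem_union]
    constructor
    · rintro ⟨h1, h2⟩
      by_cases hz : z = x
      · exact Or.inl hz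
      · right
        have h3 : S.rk τ z ≠ S.rk τ x := fun h => hz (S.rk_inj _ _ _ h1 hx h)
        rcases lt_or_gt_of_ne h3 with h4 | h4
        · exact Or.inr ⟨h1, h2, h4⟩
        · exact Or.inl ⟨h1, h2, (key z h1).2 h4⟩
    · rintro (rfl | ⟨h1, h2, _⟩ | ⟨h1, h2, _⟩)
      · exact ⟨hx, rfl⟩
      · exact ⟨h1, h2⟩
      · exact ⟨h1, h2⟩
  have hd : Disjoint A B := by
    rw [Finset.disjoint_left]
    intro z h2 h3
    simp only [hA, hB, Finset.mem_filter, Finset.mem_range] at h2 h3
    have := (key z h2.1).1 h2.2.2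
    omega
  have hn : x ∉ A ∪ B := by
    simp [hA, hB]
  rw [h1, Finset.card_insert_of_notMem hn, Finset.card_union_of_disjoint hd]
  rfl

theorem V_rv {τ x : ℕ} (hx : x < S.m) : S.V (τ + S.N) x + S.V τ x = 2 * S.k := by
  have h1 := S.cnt_rv (τ := τ) hx
  have h3 := S.card_A
  have h4 := S.card_C
  unfold V
  cases h : S.lb x
  · rw [h, h4] at h1
    simp only [Bool.false_eq_true, if_false]
    omega
  · rw [h, h3] at h1
    simp only [if_true]
    omega

/-- An alive pair at time `τ`: real order `e, s` but virtual order `s, e`. -/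
def Al (τ : ℕ) (p : ℕ × ℕ) : Prop :=
  p.1 < S.m ∧ p.2 < S.m ∧ S.rk τ p.2 < S.rk τ p.1 ∧ S.V τ p.1 < S.V τ p.2

theorem Al_lb {τ : ℕ} {p : ℕ × ℕ} (h : S.Al τ p) : S.lb p.1 ≠ S.lb p.2 := by
  intro hl
  have := S.V_lt_V h.2.1 hl.symm h.2.2.1
  have := h.2.2.2
  omega

/-- The evolution of alive pairs. -/
def T (τ : ℕ) (p : ℕ × ℕ) : ℕ × ℕ :=
  if S.lb (S.ex τ) = S.lb (S.ey τ) then
    if p.1 = S.ex τ ∧ S.V τ p.2 = S.V τ (S.ex τ) + 1 then (S.ey τ, p.2)
    else if p.2 = S.ey τ ∧ S.V τ p.1 = S.V τ (S.ex τ) + 1 then (p.1, S.ex τ)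
    else p
  else p

/-- An event that creates an alive pair. -/
def Birth (τ : ℕ) : Prop :=
  S.lb (S.ex τ) ≠ S.lb (S.ey τ) ∧ S.V τ (S.ex τ) < S.V τ (S.ey τ)

/-- The alive pair `p` is affected by event `τ`. -/
def Touch (τ : ℕ) (p : ℕ × ℕ) : Prop :=
  p = (S.ey τ, S.ex τ) ∨ S.T τ p ≠ p

theorem T_mixed {τ : ℕ} (hl : S.lb (S.ex τ) ≠ S.lb (S.ey τ)) (p : ℕ × ℕ) : S.T τ p = p := by
  simp [T, hl]

/-- Injectivity in rank. -/
theorem rk_ne {τ a b : ℕ} (ha : a < S.m) (hb : b < S.m) (h : a ≠ b) : S.rk τ a ≠ S.rk τ b :=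
  fun h2 => h (S.rk_inj _ _ _ ha hb h2)

theorem V_ne {τ a b : ℕ} (ha : a < S.m) (hb : b < S.m) (h : a ≠ b) : S.V τ a ≠ S.V τ b :=
  fun h2 => h (S.V_inj ha hb h2)

/-- An alive pair stays alive unless the event is its death. -/
theorem T_alive {τ s e : ℕ} (h : S.Al τ (s, e)) (hd : (s, e) ≠ (S.ey τ, S.ex τ)) :
    S.Al (τ + 1) (S.T τ (s, e)) := by
  have hlb := S.Al_lb h
  simp only at hlb
  obtain ⟨hs, he, hr, hv⟩ := h
  simp only at hs he hr hv
  have hx := S.ex_lt τ
  have hy := S.ey_lt τ
  have a := S.adj τ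
  by_cases hl : S.lb (S.ex τ) = S.lb (S.ey τ)
  · obtain ⟨Vy, Vx', Vy', Vo⟩ := S.V_succ_same hl
    simp only [T, hl, if_true]
    by_cases h1 : s = S.ex τ ∧ S.V τ e = S.V τ (S.ex τ) + 1
    · rw [if_pos h1]
      obtain ⟨rfl, h1⟩ := h1
      have e1 : e ≠ S.ex τ := by
        rintro rfl
        exact hlb rfl
      have e2 : e ≠ S.ey τ := by
        rintro rfl
        exact hlb hl
      refine ⟨hy, he, ?_, ?_⟩
      · simp only
        rw [S.st_y, S.st_o τ e e1 e2]
        exact hr
      · simp only
        rw [Vy', Vo e he e1 e2]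
        omega
    · rw [if_neg h1]
      by_cases h2 : e = S.ey τ ∧ S.V τ s = S.V τ (S.ex τ) + 1
      · rw [if_pos h2]
        obtain ⟨rfl, h2⟩ := h2
        have s1 : s ≠ S.ey τ := by
          rintro rfl
          exact hlb rfl
        have s2 : s ≠ S.ex τ := by
          rintro rfl
          exact hlb hl
        refine ⟨hs, hx, ?_, ?_⟩
        · simp only
          rw [S.st_x, S.st_o τ s s2 s1]
          exact hr
        · simp only
          rw [Vx', Vo s hs s2 s1]
          omega
      · rw [if_neg h2]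
        refine ⟨hs, he, ?_, ?_⟩
        · simp only
          by_cases s1 : s = S.ex τ
          · subst s1
            have e1 : e ≠ S.ex τ := by
              rintro rfl
              exact hlb rfl
            have e2 : e ≠ S.ey τ := by
              rintro rfl
              exact hlb hl
            rw [S.st_x, S.st_o τ e e1 e2]
            omega
          · by_cases s2 : s = S.ey τ
            · subst s2
              have e1 : e ≠ S.ex τ := by
                rintro rfl
                exact hlb hl.symm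
              have e2 : e ≠ S.ey τ := by
                rintro rfl
                exact hlb rfl
              rw [S.st_y, S.st_o τ e e1 e2]
              have := S.rk_ne (τ := τ) he hx e1
              omega
            · rw [S.st_o τ s s1 s2]
              by_cases e1 : e = S.ex τ
              · subst e1
                rw [S.st_x]
                have := S.rk_ne (τ := τ) hs hy s2
                omega
              · by_cases e2 : e = S.ey τ
                · subst e2
                  rw [S.st_y]
                  omega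
                · rw [S.st_o τ e e1 e2]
                  exact hr
        · simp only
          by_cases s1 : s = S.ex τ
          · subst s1
            have e1 : e ≠ S.ex τ := by
              rintro rfl
              exact hlb rfl
            have e2 : e ≠ S.ey τ := by
              rintro rfl
              exact hlb hl
            rw [Vx', Vo e he e1 e2]
            have i1 := S.V_ne (τ := τ) he hy e2
            have : S.V τ e ≠ S.V τ (S.ex τ) + 1 := fun h => h1 ⟨rfl, h⟩
            omega
          · by_cases s2 : s = S.ey τ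
            · subst s2
              have e1 : e ≠ S.ex τ := by
                rintro rfl
                exact hlb hl.symm
              have e2 : e ≠ S.ey τ := by
                rintro rfl
                exact hlb rfl
              rw [Vy', Vo e he e1 e2]
              omega
            · rw [Vo s hs s1 s2]
              by_cases e1 : e = S.ex τ
              · subst e1
                rw [Vx']
                omega
              · by_cases e2 : e = S.ey τ
                · subst e2
                  rw [Vy']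
                  have i1 := S.V_ne (τ := τ) hs hx s1
                  have : S.V τ s ≠ S.V τ (S.ex τ) + 1 := fun h => h2 ⟨rfl, h⟩
                  omega
                · rw [Vo e he e1 e2]
                  exact hv
  · rw [S.T_mixed hl]
    refine ⟨hs, he, ?_, ?_⟩
    · simp only
      refine (S.rk_step_lt he hs ?_).2 hr
      intro h3
      rcases Sym2.eq_iff.1 h3 with ⟨h4, h5⟩ | ⟨h4, h5⟩
      · subst h4 h5
        exact hd rfl
      · subst h4 h5
        omega
    · simp only
      rw [S.V_succ_mixed hl hs, S.V_succ_mixed hl he]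
      exact hv

/-- An alive pair is either new or comes from an alive pair. -/
theorem T_pre {τ s e : ℕ} (h : S.Al (τ + 1) (s, e)) :
    (S.Birth τ ∧ (s, e) = (S.ex τ, S.ey τ)) ∨ ∃ p, S.Al τ p ∧ S.T τ p = (s, e) := by
  have hlb := S.Al_lb h
  simp only at hlb
  obtain ⟨hs, he, hr, hv⟩ := h
  simp only at hs he hr hv
  have hx := S.ex_lt τ
  have hy := S.ey_lt τ
  have a := S.adj τ
  by_cases hl : S.lb (S.ex τ) = S.lb (S.ey τ)
  · obtain ⟨Vy, Vx', Vy', Vo⟩ := S.V_succ_same hl
    right
    by_cases h1 : s = S.ey τ ∧ S.V (τ + 1) e = S.V τ (S.ex τ) + 1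
    · obtain ⟨rfl, h1⟩ := h1
      have e1 : e ≠ S.ex τ := by
        rintro rfl
        exact hlb hl.symm
      have e2 : e ≠ S.ey τ := by
        rintro rfl
        exact hlb rfl
      rw [Vo e he e1 e2] at h1
      rw [S.st_y, S.st_o τ e e1 e2] at hr
      refine ⟨(S.ex τ, e), ⟨hx, he, hr, ?_⟩, ?_⟩
      · simp only
        omega
      · simp [T, hl, h1]
    · by_cases h2 : e = S.ex τ ∧ S.V (τ + 1) s = S.V τ (S.ex τ) + 1
      · obtain ⟨rfl, h2⟩ := h2
        have s1 : s ≠ S.ex τ := by
          rintro rfl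
          exact hlb rfl
        have s2 : s ≠ S.ey τ := by
          rintro rfl
          exact hlb hl.symm
        rw [Vo s hs s1 s2] at h2
        rw [S.st_x, S.st_o τ s s1 s2] at hr
        refine ⟨(s, S.ey τ), ⟨hs, hy, hr, ?_⟩, ?_⟩
        · simp only
          omega
        · simp [T, hl, h2, s1]
      · refine ⟨(s, e), ⟨hs, he, ?_, ?_⟩, ?_⟩
        · simp only
          by_cases s1 : s = S.ex τ
          · subst s1
            have e1 : e ≠ S.ex τ := by
              rintro rfl
              exact hlb rfl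
            have e2 : e ≠ S.ey τ := by
              rintro rfl
              exact hlb hl
            rw [S.st_x, S.st_o τ e e1 e2] at hr
            have := S.rk_ne (τ := τ) he hx e1
            omega
          · by_cases s2 : s = S.ey τ
            · subst s2
              have e1 : e ≠ S.ex τ := by
                rintro rfl
                exact hlb hl.symm
              have e2 : e ≠ S.ey τ := by
                rintro rfl
                exact hlb rfl
              rw [S.st_y, S.st_o τ e e1 e2] at hr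
              omega
            · rw [S.st_o τ s s1 s2] at hr
              by_cases e1 : e = S.ex τ
              · subst e1
                rw [S.st_x] at hr
                omega
              · by_cases e2 : e = S.ey τ
                · subst e2
                  rw [S.st_y] at hr
                  have := S.rk_ne (τ := τ) hs hy s2
                  omega
                · rw [S.st_o τ e e1 e2] at hr
                  exact hr
        · simp only
          by_cases s1 : s = S.ex τ
          · subst s1
            have e1 : e ≠ S.ex τ := by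
              rintro rfl
              exact hlb rfl
            have e2 : e ≠ S.ey τ := by
              rintro rfl
              exact hlb hl
            rw [Vx', Vo e he e1 e2] at hv
            omega
          · by_cases s2 : s = S.ey τ
            · subst s2
              have e1 : e ≠ S.ex τ := by
                rintro rfl
                exact hlb hl.symm
              have e2 : e ≠ S.ey τ := by
                rintro rfl
                exact hlb rfl
              rw [Vy'] at hv
              have h3 : S.V (τ + 1) e ≠ S.V τ (S.ex τ) + 1 := fun h => h1 ⟨rfl, h⟩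
              rw [Vo e he e1 e2] at hv h3
              have i1 := S.V_ne (τ := τ) he hy e2
              omega
            · have s3 := Vo s hs s1 s2
              by_cases e1 : e = S.ex τ
              · subst e1
                rw [Vx', s3] at hv
                have h3 : S.V (τ + 1) s ≠ S.V τ (S.ex τ) + 1 := fun h => h2 ⟨rfl, h⟩
                rw [s3] at h3
                have i1 := S.V_ne (τ := τ) hs hx s1
                omega
              · by_cases e2 : e = S.ey τ
                · subst e2
                  rw [Vy', s3] at hv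
                  omega
                · rw [Vo e he e1 e2, s3] at hv
                  exact hv
        · -- the pair does not move
          simp only [T, hl, if_true]
          rw [if_neg, if_neg]
          · rintro ⟨rfl, h4⟩
            by_cases s1 : s = S.ex τ
            · subst s1
              exact hlb hl
            · have s2 : s ≠ S.ey τ := by
                rintro rfl
                exact hlb rfl
              rw [S.V_succ_same hl |>.2.2.1] at hv
              rw [Vo s hs s1 s2] at hv
              omega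
          · rintro ⟨rfl, h4⟩
            have e1 : e ≠ S.ex τ := by
              rintro rfl
              exact hlb rfl
            have e2 : e ≠ S.ey τ := by
              rintro rfl
              exact hlb hl
            rw [Vx', Vo e he e1 e2] at hv
            omega
  · have Vs := S.V_succ_mixed hl hs
    have Ve := S.V_succ_mixed hl he
    rw [Vs, Ve] at hv
    by_cases h0 : (s, e) = (S.ex τ, S.ey τ)
    · left
      obtain ⟨rfl, rfl⟩ := Prod.mk.inj h0
      exact ⟨⟨hl, hv⟩, rfl⟩
    · right
      refine ⟨(s, e), ⟨hs, he, ?_, hv⟩, S.T_mixed hl _⟩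
      simp only
      refine (S.rk_step_lt he hs ?_).1 hr
      intro h3
      rcases Sym2.eq_iff.1 h3 with ⟨h4, h5⟩ | ⟨h4, h5⟩
      · subst h4 h5
        rw [S.st_x, S.st_y] at hr
        omega
      · subst h4 h5
        exact h0 rfl

/-- The three possible effects of an event on a pair. -/
theorem T_cases (τ s e : ℕ) : S.T τ (s, e) = (s, e) ∨
    (S.lb (S.ex τ) = S.lb (S.ey τ) ∧ s = S.ex τ ∧ S.V τ e = S.V τ (S.ex τ) + 1 ∧
      S.T τ (s, e) = (S.ey τ, e)) ∨
    (S.lb (S.ex τ) = S.lb (S.ey τ) ∧ e = S.ey τ ∧ S.V τ s = S.V τ (S.ex τ) + 1 ∧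
      S.T τ (s, e) = (s, S.ex τ)) := by
  by_cases hl : S.lb (S.ex τ) = S.lb (S.ey τ)
  · by_cases h1 : s = S.ex τ ∧ S.V τ e = S.V τ (S.ex τ) + 1
    · right; left
      exact ⟨hl, h1.1, h1.2, by simp only [T, hl, if_true]; rw [if_pos h1]⟩
    · by_cases h2 : e = S.ey τ ∧ S.V τ s = S.V τ (S.ex τ) + 1
      · right; right
        exact ⟨hl, h2.1, h2.2, by simp only [T, hl, if_true]; rw [if_neg h1, if_pos h2]⟩
      · left
        simp only [T, hl, if_true]
        rw [if_neg h1, if_neg h2]
  · left
    exact S.T_mixed hl _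

/-- Alive pairs are not merged. -/
theorem T_inj {τ : ℕ} {p q : ℕ × ℕ} (hp : S.Al τ p) (hq : S.Al τ q) (h : S.T τ p = S.T τ q) :
    p = q := by
  obtain ⟨s, e⟩ := p
  obtain ⟨a, c⟩ := q
  have lb1 := S.Al_lb hp
  have lb2 := S.Al_lb hq
  obtain ⟨hs, he, hr, hv⟩ := hp
  obtain ⟨ha, hc, hr', hv'⟩ := hq
  simp only at hs he hr hv ha hc hr' hv' lb1 lb2
  rcases S.T_cases τ s e with h1 | ⟨hl, h2, h3, h1⟩ | ⟨hl, h2, h3, h1⟩ <;>
    rcases S.T_cases τ a c with h4 | ⟨hl', h5, h6, h4⟩ | ⟨hl', h5, h6, h4⟩ <;>
    rw [h1, h4] at h <;> simp only [Prod.mk.injEq] at h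
  · rw [h.1, h.2]
  · have Vy := (S.V_succ_same hl').1
    obtain ⟨e1, e2⟩ := h
    subst e1 e2
    omega
  · obtain ⟨e1, e2⟩ := h
    subst e1 e2
    omega
  · have Vy := (S.V_succ_same hl).1
    obtain ⟨e1, e2⟩ := h
    subst e1 e2
    omega
  · rw [h2, h5, h.2]
  · obtain ⟨e1, e2⟩ := h
    subst e1 e2
    rw [h2] at lb1
    exact absurd rfl lb1
  · obtain ⟨e1, e2⟩ := h
    subst e1 e2
    omega
  · obtain ⟨e1, e2⟩ := h
    subst e1 e2
    rw [h5] at lb2
    exact absurd rfl lb2
  · rw [h.1, h2, h5]

/-- At most one alive pair is affected by an event. -/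
theorem touch_unique {τ : ℕ} {p q : ℕ × ℕ} (hp : S.Al τ p) (hq : S.Al τ q)
    (tp : S.Touch τ p) (tq : S.Touch τ q) : p = q := by
  have a := S.adj τ
  by_cases hl : S.lb (S.ex τ) = S.lb (S.ey τ)
  · have lb1 := S.Al_lb hp
    have lb2 := S.Al_lb hq
    have key : ∀ {r : ℕ × ℕ}, S.Al τ r → S.Touch τ r →
        (r.1 = S.ex τ ∧ S.V τ r.2 = S.V τ (S.ex τ) + 1) ∨
        (r.2 = S.ey τ ∧ S.V τ r.1 = S.V τ (S.ex τ) + 1) := by
      intro r hr tr
      rcases tr with tr | tr
      · have := S.Al_lb hr
        rw [tr] at this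
        exact absurd hl.symm this
      · simp only [T, hl, if_true] at tr
        by_cases h1 : r.1 = S.ex τ ∧ S.V τ r.2 = S.V τ (S.ex τ) + 1
        · exact Or.inl h1
        · by_cases h2 : r.2 = S.ey τ ∧ S.V τ r.1 = S.V τ (S.ex τ) + 1
          · exact Or.inr h2
          · rw [if_neg h1, if_neg h2] at tr
            exact absurd rfl tr
    obtain ⟨s, e⟩ := p
    obtain ⟨a', c⟩ := q
    obtain ⟨hs, he, hr, hv⟩ := hp
    obtain ⟨ha, hc, hr', hv'⟩ := hq
    simp only at hs he hr hv ha hc hr' hv' lb1 lb2
    rcases key ⟨hs, he, hr, hv⟩ tp with ⟨h1, h2⟩ | ⟨h1, h2⟩ <;>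
      rcases key ⟨ha, hc, hr', hv'⟩ tq with ⟨h3, h4⟩ | ⟨h3, h4⟩ <;>
      simp only at h1 h2 h3 h4
    · have : e = c := S.V_inj (τ := τ) he hc (by omega)
      rw [h1, h3, this]
    · have : e = a' := S.V_inj (τ := τ) he ha (by omega)
      subst this h1 h3
      omega
    · have : s = c := S.V_inj (τ := τ) hs hc (by omega)
      subst this h1 h3
      omega
    · have : s = a' := S.V_inj (τ := τ) hs ha (by omega)
      rw [h1, h3, this]
  · have key : ∀ {r : ℕ × ℕ}, S.Touch τ r → r = (S.ey τ, S.ex τ) := by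
      intro r tr
      rcases tr with tr | tr
      · exact tr
      · exact absurd (S.T_mixed hl r) tr
    rw [key tp, key tq]

/-- Each event that is no birth affects an alive pair. -/
theorem exists_touch {τ : ℕ} (hb : ¬ S.Birth τ) : ∃ p, S.Al τ p ∧ S.Touch τ p := by
  have a := S.adj τ
  have hx := S.ex_lt τ
  have hy := S.ey_lt τ
  have hne := S.ex_ne_ey τ
  by_cases hl : S.lb (S.ex τ) = S.lb (S.ey τ)
  · obtain ⟨Vy, _, _, _⟩ := S.V_succ_same hl
    have hlt := S.V_lt (τ := τ) hy
    obtain ⟨P, hP, hPV⟩ := S.V_surj τ (v := S.V τ (S.ex τ) + 1) (by omega)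
    have P1 : P ≠ S.ex τ := by
      rintro rfl
      omega
    have P2 : P ≠ S.ey τ := by
      rintro rfl
      omega
    have i1 := S.rk_ne (τ := τ) hP hx P1
    have i2 := S.rk_ne (τ := τ) hP hy P2
    by_cases hr : S.rk τ P < S.rk τ (S.ex τ)
    · refine ⟨(S.ex τ, P), ⟨hx, hP, hr, ?_⟩, Or.inr ?_⟩
      · simp only
        omega
      · simp only [T, hl, if_true, true_and, hPV, if_true, ne_eq, Prod.mk.injEq, not_and]
        intro h
        exact absurd h.symm hne
    · refine ⟨(P, S.ey τ), ⟨hP, hy, by simp only; omega, ?_⟩, Or.inr ?_⟩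
      · simp only
        omega
      · simp only [T, hl, if_true, P1, false_and, if_false, true_and, hPV, ne_eq,
          Prod.mk.injEq]
        exact hne
  · have hv : S.V τ (S.ey τ) < S.V τ (S.ex τ) := by
      have : ¬ S.V τ (S.ex τ) < S.V τ (S.ey τ) := fun h => hb ⟨hl, h⟩
      have := S.V_ne (τ := τ) hx hy hne
      omega
    exact ⟨(S.ey τ, S.ex τ), ⟨hy, hx, by simp only; omega, hv⟩, Or.inl rfl⟩

theorem birth_no_touch {τ : ℕ} {p : ℕ × ℕ} (hb : S.Birth τ) (hp : S.Al τ p) : ¬ S.Touch τ p := by
  rintro (h | h)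
  · subst h
    have := hp.2.2.2
    have := hb.2
    simp only at *
    omega
  · exact h (S.T_mixed hb.1 p)

theorem birth_alive {τ : ℕ} (hb : S.Birth τ) : S.Al (τ + 1) (S.ex τ, S.ey τ) := by
  have a := S.adj τ
  refine ⟨S.ex_lt τ, S.ey_lt τ, ?_, ?_⟩
  · simp only
    rw [S.st_x, S.st_y]
    omega
  · simp only
    rw [S.V_succ_mixed hb.1 (S.ex_lt τ), S.V_succ_mixed hb.1 (S.ey_lt τ)]
    exact hb.2

/-- The dying pair is not alive after its event. -/
theorem death_not_alive {τ : ℕ} : ¬ S.Al (τ + 1) (S.ey τ, S.ex τ) := by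
  rintro ⟨_, _, h, _⟩
  simp only at h
  rw [S.st_x, S.st_y] at h
  have := S.adj τ
  omega

theorem T_death {τ : ℕ} (h : S.Al τ (S.ey τ, S.ex τ)) :
    S.T τ (S.ey τ, S.ex τ) = (S.ey τ, S.ex τ) := by
  have := S.Al_lb h
  simp only at this
  exact S.T_mixed (Ne.symm this) _

/-! ### Reversal -/

theorem Al_rv {τ s e : ℕ} : S.Al (τ + S.N) (e, s) ↔ S.Al τ (s, e) := by
  constructor
  · rintro ⟨h1, h2, h3, h4⟩
    simp only at h1 h2 h3 h4
    have r1 := S.rv τ s h2
    have r2 := S.rv τ e h1
    have v1 := S.V_rv (τ := τ) h2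
    have v2 := S.V_rv (τ := τ) h1
    exact ⟨h2, h1, by simp only; omega, by simp only; omega⟩
  · rintro ⟨h1, h2, h3, h4⟩
    simp only at h1 h2 h3 h4
    have r1 := S.rv τ s h1
    have r2 := S.rv τ e h2
    have v1 := S.V_rv (τ := τ) h1
    have v2 := S.V_rv (τ := τ) h2
    exact ⟨h2, h1, by simp only; omega, by simp only; omega⟩

theorem Birth_rv {τ : ℕ} : S.Birth (τ + S.N) ↔ S.Birth τ := by
  have v1 := S.V_rv (τ := τ) (S.ex_lt τ)
  have v2 := S.V_rv (τ := τ) (S.ey_lt τ)
  unfold Birth
  rw [S.rv_x, S.rv_y]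
  constructor
  · rintro ⟨h1, h2⟩
    exact ⟨Ne.symm h1, by omega⟩
  · rintro ⟨h1, h2⟩
    exact ⟨Ne.symm h1, by omega⟩

theorem T_rv {τ s e : ℕ} (hs : s < S.m) (he : e < S.m) :
    S.T (τ + S.N) (e, s) = ((S.T τ (s, e)).2, (S.T τ (s, e)).1) := by
  have vs := S.V_rv (τ := τ) hs
  have ve := S.V_rv (τ := τ) he
  have vx := S.V_rv (τ := τ) (S.ex_lt τ)
  have vy := S.V_rv (τ := τ) (S.ey_lt τ)
  by_cases hl : S.lb (S.ex τ) = S.lb (S.ey τ)
  · obtain ⟨Vy, _, _, _⟩ := S.V_succ_same hl
    simp only [T, S.rv_x, S.rv_y, hl, if_true]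
    by_cases h1 : s = S.ex τ ∧ S.V τ e = S.V τ (S.ex τ) + 1
    · rw [if_pos h1]
      obtain ⟨rfl, h1⟩ := h1
      have h3 : ¬ (e = S.ey τ ∧ S.V (τ + S.N) (S.ex τ) = S.V (τ + S.N) (S.ey τ) + 1) := by
        rintro ⟨rfl, _⟩
        omega
      have h4 : S.V (τ + S.N) e = S.V (τ + S.N) (S.ey τ) + 1 := by omega
      simp [h3, h4]
    · rw [if_neg h1]
      by_cases h2 : e = S.ey τ ∧ S.V τ s = S.V τ (S.ex τ) + 1
      · rw [if_pos h2]
        obtain ⟨rfl, h2⟩ := h2
        have h4 : S.V (τ + S.N) s = S.V (τ + S.N) (S.ey τ) + 1 := by omega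
        simp [h4]
      · rw [if_neg h2]
        have h3 : ¬ (e = S.ey τ ∧ S.V (τ + S.N) s = S.V (τ + S.N) (S.ey τ) + 1) := by
          rintro ⟨rfl, h4⟩
          exact h2 ⟨rfl, by omega⟩
        have h4 : ¬ (s = S.ex τ ∧ S.V (τ + S.N) e = S.V (τ + S.N) (S.ey τ) + 1) := by
          rintro ⟨rfl, h5⟩
          exact h1 ⟨rfl, by omega⟩
        simp only [h3, h4, if_false]
  · have hl' : ¬ S.lb (S.ey τ) = S.lb (S.ex τ) := fun h => hl h.symm
    simp [T, S.rv_x, S.rv_y, hl, hl']

theorem Touch_rv {τ s e : ℕ} (hs : s < S.m) (he : e < S.m) :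
    S.Touch (τ + S.N) (e, s) ↔ S.Touch τ (s, e) := by
  unfold Touch
  rw [S.T_rv hs he, S.rv_x, S.rv_y]
  simp only [ne_eq, Prod.ext_iff]
  constructor
  · rintro (⟨h1, h2⟩ | h)
    · exact Or.inl ⟨h2, h1⟩
    · right
      intro h2
      exact h ⟨h2.2, h2.1⟩
  · rintro (⟨h1, h2⟩ | h)
    · exact Or.inl ⟨h2, h1⟩
    · right
      intro h2
      exact h ⟨h2.2, h2.1⟩

end Sweep

end Vale.Agent.P040S
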