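import Mathlib

/-!
Cyclic sign patterns with at most two sign changes and the fan of majorities: the counting
lemmas behind the bound on pairs of sides of a convex polygon with pairs of points.
-/

namespace Vale.Agent.P040S

open Finset

/-- No alternating subsequence of length four. -/
def NoAlt (M : ℕ) (σ : ℕ → Bool) : Prop :=
  ∀ a b c d, a < b → b < c → c < d → d < M → ¬ (σ a = σ c ∧ σ b = σ d ∧ σ a ≠ σ b)

/-- Interval parameters of a sign pattern. -/
structure IsParam (M : ℕ) (σ : ℕ → Bool) (p q : ℕ) : Prop where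
  h1 : 1 ≤ p
  h2 : p ≤ q
  h3 : q ≤ M
  h4 : ∀ i, i < M → (σ i ≠ σ 0 ↔ p ≤ i ∧ i < q)

theorem exists_param {M : ℕ} (hM : 0 < M) {σ : ℕ → Bool} (h : NoAlt M σ) :
    ∃ p q, IsParam M σ p q := by
  classical
  set S := (range M).filter fun i => σ i ≠ σ 0 with hS
  by_cases hne : S.Nonempty
  · refine ⟨S.min' hne, S.max' hne + 1, ?_, ?_, ?_, ?_⟩
    · have h1 := Finset.mem_filter.1 (Finset.min'_mem S hne)
      rcases Nat.eq_zero_or_pos (S.min' hne) with h2 | h2
      · rw [h2] at h1
        exact absurd rfl h1.2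
      · exact h2
    · have := Finset.min'_le_max' S hne
      omega
    · have h1 := Finset.mem_range.1 (Finset.mem_filter.1 (Finset.max'_mem S hne)).1
      omega
    · intro i hi
      constructor
      · intro h1
        have h2 : i ∈ S := Finset.mem_filter.2 ⟨Finset.mem_range.2 hi, h1⟩
        have h3 := Finset.min'_le S i h2
        have h4 := Finset.le_max' S i h2
        omega
      · rintro ⟨h1, h2⟩ h3
        have h3' : σ i = σ 0 := by simpa using h3
        have m1 := Finset.mem_filter.1 (Finset.min'_mem S hne)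
        have m2 := Finset.mem_filter.1 (Finset.max'_mem S hne)
        have m3 := Finset.mem_range.1 m2.1
        have n1 : S.min' hne ≠ i := by
          intro h5
          rw [h5] at m1
          exact m1.2 h3'
        have n2 : S.max' hne ≠ i := by
          intro h5
          rw [h5] at m2
          exact m2.2 h3'
        have n3 : S.min' hne ≠ 0 := by
          intro h5
          rw [h5] at m1
          exact m1.2 rfl
        refine h 0 (S.min' hne) i (S.max' hne) (by omega) (by omega) (by omega) m3 ⟨h3'.symm, ?_, ?_⟩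
        · have h6 := m1.2
          have h7 := m2.2
          cases h8 : σ (S.min' hne) <;> cases h9 : σ (S.max' hne) <;> cases h10 : σ 0 <;> simp_all
        · exact fun h6 => m1.2 h6.symm
  · refine ⟨1, 1, le_rfl, le_rfl, by omega, ?_⟩
    intro i hi
    constructor
    · intro h1
      exact absurd ⟨i, Finset.mem_filter.2 ⟨Finset.mem_range.2 hi, h1⟩⟩ hne
    · rintro ⟨h1, h2⟩
      omega

/-- Majority of the values at `0`, `j`, `j + 1`. -/
def Hb (σ : ℕ → Bool) (j : ℕ) : Bool :=
  (σ 0 && σ j) || (σ 0 && σ (j + 1)) || (σ j && σ (j + 1))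

theorem Hb_param {M p q : ℕ} {σ : ℕ → Bool} (h : IsParam M σ p q) {j : ℕ} (hj : j + 1 < M) :
    Hb σ j ≠ σ 0 ↔ p ≤ j ∧ j + 1 < q := by
  have h1 := h.h4 j (by omega)
  have h2 := h.h4 (j + 1) hj
  have h3 : (σ j ≠ σ 0 ∧ σ (j + 1) ≠ σ 0) ↔ (p ≤ j ∧ j + 1 < q) := by
    rw [h1, h2]
    omega
  rw [← h3]
  unfold Hb
  cases σ 0 <;> cases σ j <;> cases σ (j + 1) <;> simp

/-- Number of fan positions where the majorities differ. -/
def countL (M : ℕ) (σ τ : ℕ → Bool) : ℕ := ((Ico 1 (M - 1)).filter fun j => Hb σ j ≠ Hb τ j).card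

/-- Number of positions where the patterns differ. -/
def countF (M : ℕ) (σ τ : ℕ → Bool) : ℕ := ((range M).filter fun i => σ i ≠ τ i).card

theorem card_xor (S A B : Finset ℕ) (hA : A ⊆ S) (hB : B ⊆ S) :
    (S.filter fun x => ¬ (x ∈ A ↔ x ∈ B)).card + 2 * (A ∩ B).card = A.card + B.card := by
  have h1 : S.filter (fun x => ¬ (x ∈ A ↔ x ∈ B)) = (A \ B) ∪ (B \ A) := by
    ext x
    simp only [Finset.mem_filter, Finset.mem_union, Finset.mem_sdiff]
    constructor
    · rintro ⟨_, h⟩
      by_cases hx : x ∈ A <;> by_cases hy : x ∈ B <;> simp_all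
    · rintro (⟨h1, h2⟩ | ⟨h1, h2⟩)
      · exact ⟨hA h1, by simp [h1, h2]⟩
      · exact ⟨hB h1, by simp [h1, h2]⟩
  have h2 : Disjoint (A \ B) (B \ A) := by
    rw [Finset.disjoint_left]
    intro x hx hy
    exact (Finset.mem_sdiff.1 hx).2 (Finset.mem_sdiff.1 hy).1
  rw [h1, Finset.card_union_of_disjoint h2]
  have h3 := Finset.card_sdiff_add_card_inter A B
  have h4 := Finset.card_sdiff_add_card_inter B A
  rw [Finset.inter_comm] at h4
  omega

section Param

variable {M p q p' q' : ℕ} {σ τ : ℕ → Bool}

/-- Positions where exactly one of the two intervals of the fan holds. -/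
def XE (M p q p' q' : ℕ) : ℕ :=
  ((Ico 1 (M - 1)).filter fun j => ¬ ((p ≤ j ∧ j + 1 < q) ↔ (p' ≤ j ∧ j + 1 < q'))).card

/-- Positions where exactly one of the two intervals holds. -/
def XR (M p q p' q' : ℕ) : ℕ :=
  ((range M).filter fun i => ¬ ((p ≤ i ∧ i < q) ↔ (p' ≤ i ∧ i < q'))).card

theorem XE_eq (h1 : 1 ≤ p) (h3 : q ≤ M) (h1' : 1 ≤ p') (h3' : q' ≤ M) :
    XE M p q p' q' + 2 * (min (q - 1) (q' - 1) - max p p') = (q - 1 - p) + (q' - 1 - p') := by
  have h := card_xor (Ico 1 (M - 1)) (Ico p (q - 1)) (Ico p' (q' - 1))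
    (Finset.Ico_subset_Ico h1 (by omega)) (Finset.Ico_subset_Ico h1' (by omega))
  rw [Finset.Ico_inter_Ico, Nat.card_Ico, Nat.card_Ico, Nat.card_Ico] at h
  rw [← h]
  congr 2
  unfold XE
  apply congrArg
  apply Finset.filter_congr
  intro j _
  simp only [Finset.mem_Ico]
  omega

theorem XR_eq (h1 : 1 ≤ p) (h3 : q ≤ M) (h1' : 1 ≤ p') (h3' : q' ≤ M) :
    XR M p q p' q' + 2 * (min q q' - max p p') = (q - p) + (q' - p') := by
  have h := card_xor (range M) (Ico p q) (Ico p' q')
    (fun x hx => Finset.mem_range.2 (by have := Finset.mem_Ico.1 hx; omega))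
    (fun x hx => Finset.mem_range.2 (by have := Finset.mem_Ico.1 hx; omega))
  rw [Finset.Ico_inter_Ico, Nat.card_Ico, Nat.card_Ico, Nat.card_Ico] at h
  rw [← h]
  congr 2
  unfold XR
  apply congrArg
  apply Finset.filter_congr
  intro j _
  simp only [Finset.mem_Ico]

theorem counts_eq (hσ : IsParam M σ p q) (hτ : IsParam M τ p' q') (h0 : σ 0 = τ 0) :
    countL M σ τ = XE M p q p' q' ∧ countF M σ τ = XR M p q p' q' := by
  constructor
  · unfold countL XE
    apply congrArg
    apply Finset.filter_congr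
    intro j hj
    have hj' := Finset.mem_Ico.1 hj
    have e1 := Hb_param hσ (j := j) (by omega)
    have e2 := Hb_param hτ (j := j) (by omega)
    rw [← e1, ← e2, h0]
    cases Hb σ j <;> cases Hb τ j <;> cases τ 0 <;> simp
  · unfold countF XR
    apply congrArg
    apply Finset.filter_congr
    intro i hi
    have hi' := Finset.mem_range.1 hi
    have e1 := hσ.h4 i hi'
    have e2 := hτ.h4 i hi'
    rw [← e1, ← e2, h0]
    cases σ i <;> cases τ i <;> cases τ 0 <;> simp

theorem counts_ne (hM : 2 ≤ M) (hσ : IsParam M σ p q) (hτ : IsParam M τ p' q') (h0 : σ 0 ≠ τ 0) :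
    countL M σ τ + XE M p q p' q' = M - 2 ∧ countF M σ τ + XR M p q p' q' = M := by
  constructor
  · have h1 := Finset.card_filter_add_card_filter_not (s := Ico 1 (M - 1))
      (fun j => ((p ≤ j ∧ j + 1 < q) ↔ (p' ≤ j ∧ j + 1 < q')))
    rw [Nat.card_Ico] at h1
    have h2 : countL M σ τ = ((Ico 1 (M - 1)).filter
        fun j => ((p ≤ j ∧ j + 1 < q) ↔ (p' ≤ j ∧ j + 1 < q'))).card := by
      unfold countL
      apply congrArg
      apply Finset.filter_congr
      intro j hj
      have hj' := Finset.mem_Ico.1 hj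
      have e1 := Hb_param hσ (j := j) (by omega)
      have e2 := Hb_param hτ (j := j) (by omega)
      rw [← e1, ← e2]
      revert h0
      cases Hb σ j <;> cases Hb τ j <;> cases τ 0 <;> cases σ 0 <;> simp
    rw [h2]
    unfold XE
    omega
  · have h1 := Finset.card_filter_add_card_filter_not (s := range M)
      (fun i => ((p ≤ i ∧ i < q) ↔ (p' ≤ i ∧ i < q')))
    rw [Finset.card_range] at h1
    have h2 : countF M σ τ = ((range M).filter
        fun i => ((p ≤ i ∧ i < q) ↔ (p' ≤ i ∧ i < q'))).card := by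
      unfold countF
      apply congrArg
      apply Finset.filter_congr
      intro i hi
      have hi' := Finset.mem_range.1 hi
      have e1 := hσ.h4 i hi'
      have e2 := hτ.h4 i hi'
      rw [← e1, ← e2]
      revert h0
      cases σ i <;> cases τ i <;> cases τ 0 <;> cases σ 0 <;> simp
    rw [h2]
    unfold XR
    omega

end Param

/-- The fan of majorities is one-Lipschitz. -/
theorem lip {M : ℕ} (hM : 3 ≤ M) {σ τ : ℕ → Bool} (hσ : NoAlt M σ) (hτ : NoAlt M τ) :
    countL M σ τ ≤ countF M σ τ := by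
  obtain ⟨p, q, hp⟩ := exists_param (by omega) hσ
  obtain ⟨p', q', hp'⟩ := exists_param (by omega) hτ
  have e1 := XE_eq hp.h1 hp.h3 hp'.h1 hp'.h3
  have e2 := XR_eq hp.h1 hp.h3 hp'.h1 hp'.h3
  have a1 := hp.h2
  have a2 := hp'.h2
  by_cases h0 : σ 0 = τ 0
  · obtain ⟨e3, e4⟩ := counts_eq hp hp' h0
    rw [e3, e4]
    omega
  · obtain ⟨e3, e4⟩ := counts_ne (by omega) hp hp' h0
    omega

/-- The constant true pattern. -/
def Tp : ℕ → Bool := fun _ => true

theorem noAlt_Tp (M : ℕ) : NoAlt M Tp := by
  intro a b c d _ _ _ _ h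
  exact h.2.2 rfl

theorem param_Tp {M : ℕ} (hM : 1 ≤ M) : IsParam M Tp 1 1 := by
  refine ⟨le_rfl, le_rfl, hM, ?_⟩
  intro i _
  simp only [Tp, ne_eq, not_true_eq_false, false_iff, not_and, not_lt]
  omega

/-- Sharper bound against the constant pattern. -/
theorem lip_top {M : ℕ} (hM : 3 ≤ M) {σ : ℕ → Bool} (hσ : NoAlt M σ) :
    countL M σ Tp + (if 0 < countF M σ Tp then 1 else 0) ≤ countF M σ Tp := by
  obtain ⟨p, q, hp⟩ := exists_param (by omega) hσ
  have hp' := param_Tp (M := M) (by omega)
  have e1 := XE_eq hp.h1 hp.h3 hp'.h1 hp'.h3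
  have e2 := XR_eq hp.h1 hp.h3 hp'.h1 hp'.h3
  have a1 := hp.h2
  by_cases h0 : σ 0 = Tp 0
  · obtain ⟨e3, e4⟩ := counts_eq hp hp' h0
    rw [e3, e4]
    split_ifs <;> omega
  · obtain ⟨e3, e4⟩ := counts_ne (by omega) hp hp' h0
    split_ifs <;> omega

/-- Negated pattern. -/
def neg (σ : ℕ → Bool) : ℕ → Bool := fun i => !σ i

theorem noAlt_neg {M : ℕ} {σ : ℕ → Bool} (h : NoAlt M σ) : NoAlt M (neg σ) := by
  intro a b c d h1 h2 h3 h4 h5
  refine h a b c d h1 h2 h3 h4 ⟨?_, ?_, ?_⟩
  · simpa [neg] using h5.1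
  · simpa [neg] using h5.2.1
  · simpa [neg] using h5.2.2

theorem Hb_neg (σ : ℕ → Bool) (j : ℕ) : Hb (neg σ) j = !Hb σ j := by
  unfold Hb neg
  cases σ 0 <;> cases σ j <;> cases σ (j + 1) <;> rfl

theorem countL_neg (M : ℕ) (σ τ : ℕ → Bool) : countL M (neg σ) (neg τ) = countL M σ τ := by
  unfold countL
  apply congrArg
  apply Finset.filter_congr
  intro j _
  rw [Hb_neg, Hb_neg]
  cases Hb σ j <;> cases Hb τ j <;> simp

theorem countF_neg (M : ℕ) (σ τ : ℕ → Bool) : countF M (neg σ) (neg τ) = countF M σ τ := by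
  unfold countF
  apply congrArg
  apply Finset.filter_congr
  intro j _
  simp only [neg]
  cases σ j <;> cases τ j <;> simp

/-- The case that at each position at least one of the patterns is true. -/
theorem plus_case {M : ℕ} (hM : 3 ≤ M) {σ τ : ℕ → Bool} (hσ : NoAlt M σ) (hτ : NoAlt M τ)
    (h : ∀ i, i < M → σ i = true ∨ τ i = true) :
    countF M σ τ = countF M σ Tp + countF M τ Tp ∧
    countL M σ τ + (if 0 < countF M σ Tp then 1 else 0) + (if 0 < countF M τ Tp then 1 else 0) ≤
      countF M σ τ := by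
  classical
  have h1 : countF M σ τ = countF M σ Tp + countF M τ Tp := by
    unfold countF
    have hd : Disjoint ((range M).filter fun i => σ i ≠ Tp i) ((range M).filter fun i => τ i ≠ Tp i) := by
      rw [Finset.disjoint_left]
      intro i hi hj
      have hi' := Finset.mem_filter.1 hi
      have hj' := Finset.mem_filter.1 hj
      rcases h i (Finset.mem_range.1 hi'.1) with h4 | h4
      · exact hi'.2 h4
      · exact hj'.2 h4
    rw [← Finset.card_union_of_disjoint hd]
    apply congrArg
    ext i
    rw [Finset.mem_union, Finset.mem_filter, Finset.mem_filter, Finset.mem_filter, Finset.mem_range]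
    simp only [Tp]
    constructor
    · rintro ⟨h2, h3⟩
      rcases h i h2 with h4 | h4
      · right
        refine ⟨h2, ?_⟩
        rw [h4] at h3
        exact fun h5 => h3 h5.symm
      · left
        refine ⟨h2, ?_⟩
        rw [h4] at h3
        exact h3
    · rintro (⟨h2, h3⟩ | ⟨h2, h3⟩)
      · refine ⟨h2, ?_⟩
        rcases h i h2 with h4 | h4
        · exact absurd h4 h3
        · rw [h4]
          exact h3
      · refine ⟨h2, ?_⟩
        rcases h i h2 with h4 | h4
        · rw [h4]
          exact fun h5 => h3 h5.symm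
        · exact absurd h4 h3
  refine ⟨h1, ?_⟩
  have h2 : countL M σ τ ≤ countL M σ Tp + countL M τ Tp := by
    unfold countL
    refine (Finset.card_le_card ?_).trans (Finset.card_union_le _ _)
    intro j hj
    simp only [Finset.mem_filter, Finset.mem_union] at hj ⊢
    by_cases h3 : Hb σ j ≠ Hb Tp j
    · exact Or.inl ⟨hj.1, h3⟩
    · right
      refine ⟨hj.1, fun h4 => hj.2 ?_⟩
      rw [not_not] at h3
      rw [h3, h4]
  have h3 := lip_top hM hσ
  have h4 := lip_top hM hτ
  omega

/-- The main counting lemma. -/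
theorem bool_main {M : ℕ} (hM : 3 ≤ M) {σ τ : ℕ → Bool} (hσ : NoAlt M σ) (hτ : NoAlt M τ)
    (G : Finset ℕ) (hGF : ∀ i ∈ G, i < M ∧ σ i ≠ τ i) (κ : ℕ → Bool)
    (hκ : ∀ i ∈ G, ∀ i' ∈ G, i ≠ i' → κ i ≠ κ i')
    (hT : ∀ i ∈ G, (σ i ≠ κ i → ∀ h, h < M → σ h = true ∨ τ h = true) ∧
      (σ i = κ i → ∀ h, h < M → σ h = false ∨ τ h = false)) :
    countL M σ τ + G.card ≤ countF M σ τ := by
  classical
  have hneg : (∀ h, h < M → σ h = false ∨ τ h = false) →
      (∀ h, h < M → neg σ h = true ∨ neg τ h = true) := by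
    intro h l hl
    rcases h l hl with h1 | h1
    · left
      simp [neg, h1]
    · right
      simp [neg, h1]
  have hposF : ∀ {i : ℕ} {ρ ρ' : ℕ → Bool}, i < M → ρ i ≠ ρ' i → 0 < countF M ρ ρ' := by
    intro i ρ ρ' hi h
    exact Finset.card_pos.2 ⟨i, Finset.mem_filter.2 ⟨Finset.mem_range.2 hi, h⟩⟩
  by_cases h1 : G = ∅
  · subst h1
    simpa using lip hM hσ hτ
  obtain ⟨i, hi⟩ := Finset.nonempty_iff_ne_empty.2 h1
  by_cases h2 : ∃ i' ∈ G, i' ≠ i
  · obtain ⟨i', hi', hne⟩ := h2
    have hsub : G ⊆ {i, i'} := by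
      intro l hl
      by_contra hcon
      simp only [Finset.mem_insert, Finset.mem_singleton, not_or] at hcon
      have a1 := hκ l hl i hi hcon.1
      have a2 := hκ l hl i' hi' hcon.2
      have a3 := hκ i hi i' hi' (Ne.symm hne)
      cases h5 : κ l <;> cases h6 : κ i <;> cases h7 : κ i' <;> simp_all
    have hcard : G.card ≤ 2 := (Finset.card_le_card hsub).trans Finset.card_le_two
    have k1 := hκ i hi i' hi' (Ne.symm hne)
    obtain ⟨f1, f2⟩ := hGF i hi
    obtain ⟨f3, f4⟩ := hGF i' hi'
    obtain ⟨t1, t2⟩ := hT i hi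
    obtain ⟨t3, t4⟩ := hT i' hi'
    by_cases c1 : σ i = κ i <;> by_cases c2 : σ i' = κ i'
    · -- both of negative type
      have hn := plus_case hM (noAlt_neg hσ) (noAlt_neg hτ) (hneg (t2 c1))
      rw [countL_neg, countF_neg] at hn
      have s1 : σ i ≠ σ i' := by rw [c1, c2]; exact k1
      have s2 : τ i ≠ τ i' := by
        revert s1 f2 f4
        cases σ i <;> cases σ i' <;> cases τ i <;> cases τ i' <;> simp
      have p1 : 0 < countF M (neg σ) Tp := by
        cases h8 : σ i
        · rw [h8] at s1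
          have h9 : σ i' = true := by simpa using s1.symm
          exact hposF (i := i') f3 (by simp [neg, Tp, h9])
        · exact hposF (i := i) f1 (by simp [neg, Tp, h8])
      have p2 : 0 < countF M (neg τ) Tp := by
        cases h8 : τ i
        · rw [h8] at s2
          have h9 : τ i' = true := by simpa using s2.symm
          exact hposF (i := i') f3 (by simp [neg, Tp, h9])
        · exact hposF (i := i) f1 (by simp [neg, Tp, h8])
      have := hn.2
      rw [if_pos p1, if_pos p2] at this
      omega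
    · -- mixed types: complementary patterns
      have a1 := t2 c1
      have a2 := t3 c2
      have hall : countF M σ τ = M := by
        unfold countF
        rw [Finset.filter_true_of_mem, Finset.card_range]
        intro l hl
        have hl' := Finset.mem_range.1 hl
        rcases a1 l hl' with b1 | b1 <;> rcases a2 l hl' with b2 | b2 <;> simp_all
      have hL : countL M σ τ ≤ M - 2 := by
        unfold countL
        refine (Finset.card_filter_le _ _).trans ?_
        rw [Nat.card_Ico]
        omega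
      omega
    · have a1 := t1 c1
      have a2 := t4 c2
      have hall : countF M σ τ = M := by
        unfold countF
        rw [Finset.filter_true_of_mem, Finset.card_range]
        intro l hl
        have hl' := Finset.mem_range.1 hl
        rcases a1 l hl' with b1 | b1 <;> rcases a2 l hl' with b2 | b2 <;> simp_all
      have hL : countL M σ τ ≤ M - 2 := by
        unfold countL
        refine (Finset.card_filter_le _ _).trans ?_
        rw [Nat.card_Ico]
        omega
      omega
    · -- both of positive type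
      have hn := plus_case hM hσ hτ (t1 c1)
      have s1 : σ i ≠ σ i' := by
        revert c1 c2 k1
        cases σ i <;> cases σ i' <;> cases κ i <;> cases κ i' <;> simp
      have s2 : τ i ≠ τ i' := by
        revert s1 f2 f4
        cases σ i <;> cases σ i' <;> cases τ i <;> cases τ i' <;> simp
      have p1 : 0 < countF M σ Tp := by
        cases h8 : σ i
        · exact hposF (i := i) f1 (by simp [Tp, h8])
        · rw [h8] at s1
          have h9 : σ i' = false := by simpa using s1.symm
          exact hposF (i := i') f3 (by simp [Tp, h9])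
      have p2 : 0 < countF M τ Tp := by
        cases h8 : τ i
        · exact hposF (i := i) f1 (by simp [Tp, h8])
        · rw [h8] at s2
          have h9 : τ i' = false := by simpa using s2.symm
          exact hposF (i := i') f3 (by simp [Tp, h9])
      have := hn.2
      rw [if_pos p1, if_pos p2] at this
      omega
  · -- one element
    have hsub : G ⊆ {i} := by
      intro l hl
      by_contra hcon
      simp only [Finset.mem_singleton] at hcon
      exact h2 ⟨l, hl, hcon⟩
    have hcard : G.card ≤ 1 := (Finset.card_le_card hsub).trans (by simp)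
    obtain ⟨f1, f2⟩ := hGF i hi
    obtain ⟨t1, t2⟩ := hT i hi
    by_cases c1 : σ i = κ i
    · have hn := plus_case hM (noAlt_neg hσ) (noAlt_neg hτ) (hneg (t2 c1))
      rw [countL_neg, countF_neg] at hn
      have := hn.2
      have p0 : 0 < countF M σ τ := hposF f1 f2
      split_ifs at this <;> omega
    · have hn := plus_case hM hσ hτ (t1 c1)
      have := hn.2
      have p0 : 0 < countF M σ τ := hposF f1 f2
      split_ifs at this <;> omega

end Vale.Agent.P040S
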