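import Vale.Agent.Lib.P040S.Defs
import Vale.Agent.Lib.P040S.Bools

/-!
A convex spherical polygon and two vectors: the number of sides of crossing type is at least
the number of fan triangles in which the two vectors have equal majority colour.
-/

namespace Vale.Agent.P040S

open Finset

/-- The cross product. -/
def cross (a b : V3) : V3 :=
  (a.2.1 * b.2.2 - a.2.2 * b.2.1, a.2.2 * b.1 - a.1 * b.2.2, a.1 * b.2.1 - a.2.1 * b.1)

theorem dot_cross (a b u : V3) : dot (cross a b) u = det3D a b u := by
  simp only [dot, cross, det3D]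
  ring

theorem det_cross_cross (p q r s t : V3) :
    det3D (cross p q) (cross q r) (cross s t) = det3D p q r * det3D s t q := by
  simp only [cross, det3D]
  ring

theorem four_term (w x y z u : V3) :
    det3D x y z * dot w u - det3D w y z * dot x u + det3D w x z * dot y u - det3D w x y * dot z u = 0 := by
  simp only [dot, det3D]
  ring

theorem plucker (a a' b c' c : V3) :
    det3D a a' c' * det3D a b c =
      det3D a a' b * det3D a c' c + det3D a a' c * det3D a b c' := by
  simp only [det3D]
  ring

theorem star (p q r t u v : V3) :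
    det3D p q u * det3D r t v - det3D p q v * det3D r t u =
      det3D u v q * det3D r t p - det3D u v p * det3D r t q := by
  simp only [det3D]
  ring

/-- Positivity on increasing triples from positivity on sides. -/
theorem triple_pos {P : ℕ → V3} {M : ℕ}
    (hconv : ∀ i j, i + 1 < M → j < M → j ≠ i → j ≠ i + 1 → 0 < det3D (P i) (P (i + 1)) (P j)) :
    ∀ a b c, a < b → b < c → c < M → 0 < det3D (P a) (P b) (P c) := by
  intro a b c hab hbc hc
  obtain ⟨d, rfl⟩ : ∃ d, c = b + 1 + d := ⟨c - b - 1, by omega⟩
  clear hbc
  induction d with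
  | zero =>
    have h1 := hconv b a (by omega) (by omega) (by omega) (by omega)
    have : det3D (P b) (P (b + 1)) (P a) = det3D (P a) (P b) (P (b + 1)) := det3D_cycle _ _ _
    rw [this] at h1
    exact h1
  | succ d ih =>
    have ih' := ih (by omega)
    have e : b + 1 + (d + 1) = b + 1 + d + 1 := by ring
    rw [e] at hc ⊢
    by_cases hb : b = a + 1
    · subst hb
      exact hconv a _ (by omega) hc (by omega) (by omega)
    · have h1 := hconv a (b + 1 + d) (by omega) (by omega) (by omega) (by omega)
      have h2 := hconv a b (by omega) (by omega) (by omega) (by omega)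
      have h3 := hconv a (b + 1 + d + 1) (by omega) hc (by omega) (by omega)
      have h4 := hconv (b + 1 + d) a hc (by omega) (by omega) (by omega)
      have e4 : det3D (P (b + 1 + d)) (P (b + 1 + d + 1)) (P a) =
          det3D (P a) (P (b + 1 + d)) (P (b + 1 + d + 1)) := det3D_cycle _ _ _
      rw [e4] at h4
      have hp := plucker (P a) (P (a + 1)) (P b) (P (b + 1 + d)) (P (b + 1 + d + 1))
      have h5 : 0 < det3D (P a) (P (a + 1)) (P (b + 1 + d)) * det3D (P a) (P b) (P (b + 1 + d + 1)) := by
        rw [hp]
        exact add_pos (mul_pos h2 h4) (mul_pos h3 ih')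
      exact (pos_iff_pos_of_mul_pos h5).1 h1

/-- A periodic strictly convex sequence of vectors. -/
structure PConv (Q : ℕ → V3) (M : ℕ) : Prop where
  hM : 3 ≤ M
  per : ∀ i, Q (i + M) = Q i
  conv : ∀ i j, j % M ≠ i % M → j % M ≠ (i + 1) % M → 0 < det3D (Q i) (Q (i + 1)) (Q j)

namespace PConv

variable {Q : ℕ → V3} {M : ℕ} (h : PConv Q M)
include h

theorem dual_conv (i j : ℕ) (hi : i + 1 < M) (hj : j < M) (h1 : j ≠ i) (h2 : j ≠ i + 1) :
    0 < det3D (cross (Q i) (Q (i + 1))) (cross (Q (i + 1)) (Q (i + 1 + 1)))
      (cross (Q j) (Q (j + 1))) := by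
  have hM := h.hM
  rw [det_cross_cross]
  have e1 : i % M = i := Nat.mod_eq_of_lt (by omega)
  have e2 : (i + 1) % M = i + 1 := Nat.mod_eq_of_lt hi
  have e3 : j % M = j := Nat.mod_eq_of_lt hj
  refine mul_pos (h.conv i (i + 1 + 1) ?_ ?_) (h.conv j (i + 1) ?_ ?_)
  · rw [e1]
    by_cases h3 : i + 1 + 1 < M
    · rw [Nat.mod_eq_of_lt h3]
      omega
    · have : i + 1 + 1 = M := by omega
      rw [this, Nat.mod_self]
      omega
  · rw [e2]
    by_cases h3 : i + 1 + 1 < M
    · rw [Nat.mod_eq_of_lt h3]
      omega
    · have : i + 1 + 1 = M := by omega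
      rw [this, Nat.mod_self]
      omega
  · rw [e2, e3]
    exact fun h3 => h2 h3.symm
  · rw [e2]
    by_cases h3 : j + 1 < M
    · rw [Nat.mod_eq_of_lt h3]
      omega
    · have : j + 1 = M := by omega
      rw [this, Nat.mod_self]
      omega

/-- No alternation of signs along the sides. -/
theorem noAlt (u : V3) : NoAlt M fun i => decide (0 < det3D (Q i) (Q (i + 1)) u) := by
  have hT := triple_pos (P := fun i => cross (Q i) (Q (i + 1))) (M := M)
    (fun i j hi hj h1 h2 => h.dual_conv i j hi hj h1 h2)
  intro a b c d hab hbc hcd hd hcon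
  have h1 := hT b c d hbc hcd hd
  have h2 := hT a c d (by omega) hcd hd
  have h3 := hT a b d hab (by omega) hd
  have h4 := hT a b c hab hbc (by omega)
  simp only at h1 h2 h3 h4 hcon
  have h5 := four_term (cross (Q a) (Q (a + 1))) (cross (Q b) (Q (b + 1))) (cross (Q c) (Q (c + 1)))
    (cross (Q d) (Q (d + 1))) u
  simp only [dot_cross] at h5
  obtain ⟨h6, h7, h8⟩ := hcon
  by_cases ha : 0 < det3D (Q a) (Q (a + 1)) u
  · have hb : ¬ 0 < det3D (Q b) (Q (b + 1)) u := by
      intro hb
      exact h8 (by simp [ha, hb])
    have hc : 0 < det3D (Q c) (Q (c + 1)) u := by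
      have : decide (0 < det3D (Q c) (Q (c + 1)) u) = true := by rw [← h6]; simpa using ha
      simpa using this
    have hd' : ¬ 0 < det3D (Q d) (Q (d + 1)) u := by
      intro hd'
      rw [decide_eq_false hb] at h7
      have : decide (0 < det3D (Q d) (Q (d + 1)) u) = true := by simpa using hd'
      rw [this] at h7
      exact absurd h7 (by simp)
    have hb' := not_lt.1 hb
    have hd'' := not_lt.1 hd'
    nlinarith [mul_pos h1 ha, mul_pos h3 hc, mul_nonneg h2.le (neg_nonneg.2 hb'),
      mul_nonneg h4.le (neg_nonneg.2 hd'')]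
  · have hb : 0 < det3D (Q b) (Q (b + 1)) u := by
      by_contra hb
      exact h8 (by rw [decide_eq_false ha, decide_eq_false hb])
    have hc : ¬ 0 < det3D (Q c) (Q (c + 1)) u := by
      intro hc
      rw [decide_eq_false ha] at h6
      have : decide (0 < det3D (Q c) (Q (c + 1)) u) = true := by simpa using hc
      rw [this] at h6
      exact absurd h6 (by simp)
    have hd' : 0 < det3D (Q d) (Q (d + 1)) u := by
      have : decide (0 < det3D (Q d) (Q (d + 1)) u) = true := by rw [← h7]; simpa using hb
      simpa using this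
    have ha' := not_lt.1 ha
    have hc' := not_lt.1 hc
    nlinarith [mul_pos h2 hb, mul_pos h4 hd', mul_nonneg h1.le (neg_nonneg.2 ha'),
      mul_nonneg h3.le (neg_nonneg.2 hc')]

theorem det_nonneg (i t : ℕ) : 0 ≤ det3D (Q i) (Q (i + 1)) (Q t) := by
  have hM := h.hM
  have hper : ∀ a b, a % M = b % M → Q a = Q b := by
    have key : ∀ a, Q a = Q (a % M) := by
      intro a
      have h1 : ∀ q r, Q (r + M * q) = Q r := by
        intro q r
        induction q with
        | zero => simp
        | succ q ih =>
          have : r + M * (q + 1) = r + M * q + M := by ring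
          rw [this, h.per, ih]
      have h2 := h1 (a / M) (a % M)
      rw [Nat.mod_add_div] at h2
      exact h2
    intro a b hab
    rw [key a, key b, hab]
  by_cases h1 : t % M = i % M
  · rw [hper t i h1]
    have : det3D (Q i) (Q (i + 1)) (Q i) = 0 := by
      simp only [det3D]
      ring
    rw [this]
  · by_cases h2 : t % M = (i + 1) % M
    · rw [hper t (i + 1) h2]
      have : det3D (Q i) (Q (i + 1)) (Q (i + 1)) = 0 := by
        simp only [det3D]
        ring
      rw [this]
    · exact (h.conv i t h1 h2).le

/-- The identity with strict sign at a side whose end points are separated by the plane of the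
two vectors. -/
theorem star_sign {u v : V3} {i l : ℕ} (hi : i < M) (hl : l < M) (hne : l ≠ i)
    (hf : det3D u v (Q i) * det3D u v (Q (i + 1)) < 0) :
    (0 < det3D u v (Q (i + 1)) →
      0 < det3D (Q i) (Q (i + 1)) u * det3D (Q l) (Q (l + 1)) v -
        det3D (Q i) (Q (i + 1)) v * det3D (Q l) (Q (l + 1)) u) ∧
    (¬ 0 < det3D u v (Q (i + 1)) →
      det3D (Q i) (Q (i + 1)) u * det3D (Q l) (Q (l + 1)) v -
        det3D (Q i) (Q (i + 1)) v * det3D (Q l) (Q (l + 1)) u < 0) := by
  have hM := h.hM
  rw [star]
  have d1 := h.det_nonneg l i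
  have d2 := h.det_nonneg l (i + 1)
  have e1 : i % M = i := Nat.mod_eq_of_lt hi
  have e2 : l % M = l := Nat.mod_eq_of_lt hl
  -- one of the two determinants is positive
  have hpos : 0 < det3D (Q l) (Q (l + 1)) (Q i) ∨ 0 < det3D (Q l) (Q (l + 1)) (Q (i + 1)) := by
    by_cases h3 : i % M = (l + 1) % M
    · right
      refine h.conv l (i + 1) ?_ ?_
      · rw [e2]
        by_cases h4 : i + 1 < M
        · rw [Nat.mod_eq_of_lt h4]
          rw [e1] at h3
          by_cases h5 : l + 1 < M
          · rw [Nat.mod_eq_of_lt h5] at h3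
            omega
          · have h6 : l + 1 = M := by omega
            rw [h6, Nat.mod_self] at h3
            omega
        · have h6 : i + 1 = M := by omega
          rw [h6, Nat.mod_self]
          rw [e1] at h3
          by_cases h5 : l + 1 < M
          · rw [Nat.mod_eq_of_lt h5] at h3
            omega
          · have h7 : l + 1 = M := by omega
            rw [h7, Nat.mod_self] at h3
            omega
      · rw [e1] at h3
        rw [← h3]
        by_cases h4 : i + 1 < M
        · rw [Nat.mod_eq_of_lt h4]
          omega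
        · have h6 : i + 1 = M := by omega
          rw [h6, Nat.mod_self]
          omega
    · left
      refine h.conv l i ?_ h3
      rw [e1, e2]
      exact fun h3 => hne h3.symm
  constructor
  · intro h4
    have h5 : det3D u v (Q i) < 0 := by
      by_contra h6
      have := mul_nonneg (not_lt.1 h6) h4.le
      linarith
    rcases hpos with h6 | h6
    · nlinarith [mul_pos h4 h6, mul_nonneg (neg_nonneg.2 h5.le) d2]
    · nlinarith [mul_pos (neg_pos.2 h5) h6, mul_nonneg h4.le d1]
  · intro h4
    have h4' := not_lt.1 h4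
    have h5 : 0 < det3D u v (Q i) := by
      by_contra h6
      have := mul_nonneg_of_nonpos_of_nonpos (not_lt.1 h6) h4'
      linarith
    have h4'' : det3D u v (Q (i + 1)) < 0 := by
      rcases lt_or_eq_of_le h4' with h7 | h7
      · exact h7
      · rw [h7, mul_zero] at hf
        exact absurd hf (lt_irrefl _)
    rcases hpos with h6 | h6
    · nlinarith [mul_pos (neg_pos.2 h4'') h6, mul_nonneg h5.le d2]
    · nlinarith [mul_pos h5 h6, mul_nonneg (neg_nonneg.2 h4''.le) d1]

end PConv

/-- Signs of a vector along the sides. -/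
noncomputable def sg (Q : ℕ → V3) (u : V3) : ℕ → Bool :=
  fun i => decide (0 < det3D (Q i) (Q (i + 1)) u)

/-- Sides whose line does not separate the two vectors and whose end points are not separated by
the plane of the two vectors. -/
noncomputable def crossCnt (Q : ℕ → V3) (M : ℕ) (u v : V3) : Finset ℕ := by
  classical
  exact (range M).filter fun i =>
    0 < det3D (Q i) (Q (i + 1)) u * det3D (Q i) (Q (i + 1)) v ∧
    0 < det3D u v (Q i) * det3D u v (Q (i + 1))

/-- The side lemma. -/
theorem spcl {Q : ℕ → V3} {M : ℕ} (h : PConv Q M) {u v : V3}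
    (ha : ∀ i, i < M → det3D (Q i) (Q (i + 1)) u ≠ 0)
    (hb : ∀ i, i < M → det3D (Q i) (Q (i + 1)) v ≠ 0)
    (hf : ∀ i, i < M + 1 → det3D u v (Q i) ≠ 0) :
    ((Ico 1 (M - 1)).filter fun j => Hb (sg Q u) j = Hb (sg Q v) j).card ≤ (crossCnt Q M u v).card := by
  classical
  have hM := h.hM
  set σ := sg Q u with hσ
  set ρ := sg Q v with hρ
  let τ := neg ρ
  have nσ : NoAlt M σ := h.noAlt u
  have nτ : NoAlt M τ := noAlt_neg (h.noAlt v)
  have hL : ((Ico 1 (M - 1)).filter fun j => Hb σ j = Hb ρ j).card = countL M σ τ := by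
    unfold countL
    apply congrArg
    apply Finset.filter_congr
    intro j _
    simp only [τ]
    rw [Hb_neg]
    cases Hb σ j <;> cases Hb ρ j <;> simp
  rw [hL]
  let G : Finset ℕ := (range M).filter fun i =>
    0 < det3D (Q i) (Q (i + 1)) u * det3D (Q i) (Q (i + 1)) v ∧
    det3D u v (Q i) * det3D u v (Q (i + 1)) < 0
  let κ : ℕ → Bool := fun i => decide (0 < det3D u v (Q (i + 1)))
  have hsgn : ∀ i, i < M → (σ i ≠ τ i ↔ 0 < det3D (Q i) (Q (i + 1)) u * det3D (Q i) (Q (i + 1)) v) := by
    intro i hi
    have h1 := ha i hi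
    have h2 := hb i hi
    simp only [τ, neg, hσ, hρ, sg]
    by_cases h3 : 0 < det3D (Q i) (Q (i + 1)) u <;> by_cases h4 : 0 < det3D (Q i) (Q (i + 1)) v
    · simp [h3, h4, mul_pos h3 h4]
    · have h5 : det3D (Q i) (Q (i + 1)) v < 0 := lt_of_le_of_ne (not_lt.1 h4) h2
      have h6 : ¬ 0 < det3D (Q i) (Q (i + 1)) u * det3D (Q i) (Q (i + 1)) v := by
        have := mul_neg_of_pos_of_neg h3 h5
        linarith
      simp [h3, h4, h6]
    · have h5 : det3D (Q i) (Q (i + 1)) u < 0 := lt_of_le_of_ne (not_lt.1 h3) h1
      have h6 : ¬ 0 < det3D (Q i) (Q (i + 1)) u * det3D (Q i) (Q (i + 1)) v := by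
        have := mul_neg_of_neg_of_pos h5 h4
        linarith
      simp [h3, h4, h6]
    · have h5 : det3D (Q i) (Q (i + 1)) u < 0 := lt_of_le_of_ne (not_lt.1 h3) h1
      have h7 : det3D (Q i) (Q (i + 1)) v < 0 := lt_of_le_of_ne (not_lt.1 h4) h2
      simp [h3, h4, mul_pos_of_neg_of_neg h5 h7]
  have hmain := bool_main hM nσ nτ G ?_ κ ?_ ?_
  · -- from the count of `F` to the sides of crossing type
    have hF : countF M σ τ = (crossCnt Q M u v).card + G.card := by
      unfold countF crossCnt
      rw [← Finset.card_union_of_disjoint]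
      · apply congrArg
        ext i
        simp only [G, Finset.mem_filter, Finset.mem_range, Finset.mem_union]
        constructor
        · rintro ⟨h1, h2⟩
          have h3 := (hsgn i h1).1 h2
          have h4 := mul_ne_zero (hf i (by omega)) (hf (i + 1) (by omega))
          rcases lt_or_gt_of_ne h4 with h5 | h5
          · exact Or.inr ⟨h1, h3, h5⟩
          · exact Or.inl ⟨h1, h3, h5⟩
        · rintro (⟨h1, h2, _⟩ | ⟨h1, h2, _⟩)
          · exact ⟨h1, (hsgn i h1).2 h2⟩
          · exact ⟨h1, (hsgn i h1).2 h2⟩
      · rw [Finset.disjoint_left]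
        intro i hi hj
        have h1 := (Finset.mem_filter.1 hi).2.2
        have h2 := (Finset.mem_filter.1 hj).2.2
        linarith
    omega
  · intro i hi
    have h1 := Finset.mem_filter.1 hi
    have h2 := Finset.mem_range.1 h1.1
    exact ⟨h2, (hsgn i h2).2 h1.2.1⟩
  · intro i hi i' hi' hne hk
    have h1 := Finset.mem_filter.1 hi
    have h2 := Finset.mem_range.1 h1.1
    have h1' := Finset.mem_filter.1 hi'
    have h2' := Finset.mem_range.1 h1'.1
    obtain ⟨s1, s2⟩ := h.star_sign (u := u) (v := v) (i := i) (l := i') h2 h2' (Ne.symm hne) h1.2.2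
    obtain ⟨s3, s4⟩ := h.star_sign (u := u) (v := v) (i := i') (l := i) h2' h2 hne h1'.2.2
    simp only [κ] at hk
    by_cases h5 : 0 < det3D u v (Q (i + 1))
    · have h6 : 0 < det3D u v (Q (i' + 1)) := by
        have : decide (0 < det3D u v (Q (i' + 1))) = true := by rw [← hk]; simpa using h5
        simpa using this
      have a1 := s1 h5
      have a2 := s3 h6
      linarith
    · have h6 : ¬ 0 < det3D u v (Q (i' + 1)) := by
        intro h7
        rw [decide_eq_false h5] at hk
        have : decide (0 < det3D u v (Q (i' + 1))) = true := by simpa using h7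
        rw [this] at hk
        exact absurd hk (by simp)
      have a1 := s2 h5
      have a2 := s4 h6
      linarith
  · intro i hi
    have h1 := Finset.mem_filter.1 hi
    have hiM := Finset.mem_range.1 h1.1
    obtain ⟨hab, hff⟩ := h1.2
    have h0a := ha i hiM
    have h0b := hb i hiM
    have hstar := fun l (hl : l < M) (hne : l ≠ i) => h.star_sign (u := u) (v := v) (i := i) (l := l)
      hiM hl hne hff
    -- values of the signs
    have hσl : ∀ l, σ l = true ↔ 0 < det3D (Q l) (Q (l + 1)) u := by
      intro l
      simp [hσ, sg]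
    have hτl : ∀ l, τ l = true ↔ ¬ 0 < det3D (Q l) (Q (l + 1)) v := by
      intro l
      simp [τ, neg, hρ, sg]
    have hκi : κ i = true ↔ 0 < det3D u v (Q (i + 1)) := by
      simp [κ]
    constructor
    · intro hne l hl
      by_contra hcon
      push Not at hcon
      obtain ⟨c1, c2⟩ := hcon
      have c1' : ¬ 0 < det3D (Q l) (Q (l + 1)) u := fun h => c1 ((hσl l).2 h)
      have c2' : 0 < det3D (Q l) (Q (l + 1)) v := by
        by_contra h
        exact c2 ((hτl l).2 h)
      have c1'' := not_lt.1 c1'
      by_cases hli : l = i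
      · subst hli
        have := mul_nonpos_of_nonpos_of_nonneg c1'' c2'.le
        linarith
      obtain ⟨s1, s2⟩ := hstar l hl hli
      by_cases h5 : 0 < det3D (Q i) (Q (i + 1)) u
      · have h6 : 0 < det3D (Q i) (Q (i + 1)) v := (pos_iff_pos_of_mul_pos hab).1 h5
        -- the sign of `σ i` is true, so `κ i` is false
        have h7 : ¬ 0 < det3D u v (Q (i + 1)) := by
          intro h8
          apply hne
          rw [((hσl i).2 h5), ((hκi).2 h8)]
        have a1 := s2 h7
        nlinarith [mul_pos h5 c2', mul_nonneg h6.le (neg_nonneg.2 c1'')]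
      · have h5' : det3D (Q i) (Q (i + 1)) u < 0 := lt_of_le_of_ne (not_lt.1 h5) h0a
        have h6 : det3D (Q i) (Q (i + 1)) v < 0 := by
          by_contra h8
          have := mul_nonpos_of_nonpos_of_nonneg h5'.le (not_lt.1 h8)
          linarith
        have h7 : 0 < det3D u v (Q (i + 1)) := by
          by_contra h8
          apply hne
          have e1 : σ i = false := by
            cases h9 : σ i
            · rfl
            · exact absurd ((hσl i).1 h9) h5
          have e2 : κ i = false := by
            cases h9 : κ i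
            · rfl
            · exact absurd (hκi.1 h9) h8
          rw [e1, e2]
        have a1 := s1 h7
        nlinarith [mul_pos (neg_pos.2 h5') c2', mul_nonneg (neg_nonneg.2 h6.le) (neg_nonneg.2 c1'')]
    · intro heq l hl
      by_contra hcon
      push Not at hcon
      obtain ⟨c1, c2⟩ := hcon
      have c1' : 0 < det3D (Q l) (Q (l + 1)) u := by
        by_contra h
        apply c1
        cases h9 : σ l
        · rfl
        · exact absurd ((hσl l).1 h9) h
      have c2' : ¬ 0 < det3D (Q l) (Q (l + 1)) v := by
        intro h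
        apply c2
        cases h9 : τ l
        · rfl
        · exact absurd h ((hτl l).1 h9)
      have c2'' := not_lt.1 c2'
      by_cases hli : l = i
      · subst hli
        have := mul_nonpos_of_nonneg_of_nonpos c1'.le c2''
        linarith
      obtain ⟨s1, s2⟩ := hstar l hl hli
      by_cases h5 : 0 < det3D (Q i) (Q (i + 1)) u
      · have h6 : 0 < det3D (Q i) (Q (i + 1)) v := (pos_iff_pos_of_mul_pos hab).1 h5
        have h7 : 0 < det3D u v (Q (i + 1)) := by
          have e1 : σ i = true := (hσl i).2 h5
          rw [e1] at heq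
          exact hκi.1 heq.symm
        have a1 := s1 h7
        nlinarith [mul_pos h6 c1', mul_nonneg h5.le (neg_nonneg.2 c2'')]
      · have h5' : det3D (Q i) (Q (i + 1)) u < 0 := lt_of_le_of_ne (not_lt.1 h5) h0a
        have h6 : det3D (Q i) (Q (i + 1)) v < 0 := by
          by_contra h8
          have := mul_nonpos_of_nonpos_of_nonneg h5'.le (not_lt.1 h8)
          linarith
        have h7 : ¬ 0 < det3D u v (Q (i + 1)) := by
          intro h8
          have e1 : σ i = false := by
            cases h9 : σ i
            · rfl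
            · exact absurd ((hσl i).1 h9) h5
          rw [e1, hκi.2 h8] at heq
          exact absurd heq (by simp)
        have a1 := s2 h7
        nlinarith [mul_pos (neg_pos.2 h6) c1', mul_nonneg (neg_nonneg.2 h5'.le) (neg_nonneg.2 c2'')]

end Vale.Agent.P040S
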