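import Vale.Agent.Lib.P040S.Chart
import Vale.Agent.Lib.P040S.Spcl

/-!
Assembly in general position: tuples of crossing type, the Mantel bound on each fan triangle,
the sum over all polygons, even class sizes by deletion.
-/

namespace Vale.Agent.P040S

open Finset
open Vale.Agent.P040 Vale.Agent.P040D

/-- Crossing type of two pairs of vectors. -/
def XBit (u v b c : V3) : Prop :=
  0 < det3D b c u * det3D b c v ∧ 0 < det3D u v b * det3D u v c

theorem XBit_swap {u v b c : V3} (h : XBit u v b c) : XBit u v c b := by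
  obtain ⟨h1, h2⟩ := h
  refine ⟨?_, ?_⟩
  · rw [det3D_swap12 b c u, det3D_swap12 b c v]
    linarith
  · rw [mul_comm]
    exact h2

/-- The two cones spanned by the pairs share a nonzero vector. -/
def ConeMeet (a b c d : V3) : Prop :=
  ∃ x : V3, x ≠ 0 ∧ (∃ α β : ℝ, 0 ≤ α ∧ 0 ≤ β ∧ x = α • a + β • b) ∧
    (∃ γ δ : ℝ, 0 ≤ γ ∧ 0 ≤ δ ∧ x = γ • c + δ • d)

theorem four_vec (u v b c : V3) :
    det3D b c v • u + det3D u v c • b = det3D b c u • v + det3D u v b • c := by
  refine Prod.ext ?_ (Prod.ext ?_ ?_) <;>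
    simp only [Prod.fst_add, Prod.snd_add, Prod.smul_fst, Prod.smul_snd, smul_eq_mul, det3D] <;> ring

/-- A tuple of crossing type yields a pair of crossing edges. -/
theorem cone_of_xbit {u v b c : V3} (h : XBit u v b c) : ConeMeet u b v c ∨ ConeMeet u c v b := by
  obtain ⟨h1, h2⟩ := h
  set A := det3D b c u with hA
  set B := det3D b c v with hB
  set C := det3D u v b with hC
  set D := det3D u v c with hD
  have hv : B • u + D • b = A • v + C • c := four_vec u v b c
  -- auxiliary values of determinants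
  have e1 : ∀ x y : ℝ, det3D (x • u + y • b) v b = x * C := by
    intro x y
    simp only [hC, Prod.fst_add, Prod.snd_add, Prod.smul_fst, Prod.smul_snd, smul_eq_mul, det3D]
    ring
  have e2 : ∀ x y : ℝ, det3D (x • u + y • c) v c = x * D := by
    intro x y
    simp only [hD, Prod.fst_add, Prod.snd_add, Prod.smul_fst, Prod.smul_snd, smul_eq_mul, det3D]
    ring
  have z0 : ∀ q r : V3, det3D (0 : V3) q r = 0 := by
    intro q r
    simp [det3D]
  have C0 : C ≠ 0 := fun h => by rw [h, zero_mul] at h2; exact lt_irrefl _ h2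
  have D0 : D ≠ 0 := fun h => by rw [h, mul_zero] at h2; exact lt_irrefl _ h2
  have A0 : A ≠ 0 := fun h => by rw [h, zero_mul] at h1; exact lt_irrefl _ h1
  have B0 : B ≠ 0 := fun h => by rw [h, mul_zero] at h1; exact lt_irrefl _ h1
  rcases lt_or_gt_of_ne A0 with a | a <;> rcases lt_or_gt_of_ne C0 with c' | c'
  · -- A, B negative; C, D negative
    have b' : B < 0 := by
      by_contra h
      have := mul_nonpos_of_nonpos_of_nonneg a.le (not_lt.1 h)
      linarith
    have d' : D < 0 := by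
      by_contra h
      have := mul_nonpos_of_nonpos_of_nonneg c'.le (not_lt.1 h)
      linarith
    left
    refine ⟨(-B) • u + (-D) • b, ?_, ⟨-B, -D, by linarith, by linarith, rfl⟩,
      ⟨-A, -C, by linarith, by linarith, ?_⟩⟩
    · intro h
      have := e1 (-B) (-D)
      rw [h, z0] at this
      exact mul_ne_zero (neg_ne_zero.2 B0) C0 this.symm
    · have : (-B) • u + (-D) • b = -(B • u + D • b) := by
        rw [neg_smul, neg_smul, neg_add]
      rw [this, hv, neg_add, neg_smul, neg_smul]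
  · -- A, B negative; C, D positive
    have b' : B < 0 := by
      by_contra h
      have := mul_nonpos_of_nonpos_of_nonneg a.le (not_lt.1 h)
      linarith
    have d' : 0 < D := (pos_iff_pos_of_mul_pos h2).1 c'
    right
    refine ⟨(-B) • u + C • c, ?_, ⟨-B, C, by linarith, by linarith, rfl⟩,
      ⟨-A, D, by linarith, by linarith, ?_⟩⟩
    · intro h
      have := e2 (-B) C
      rw [h, z0] at this
      exact mul_ne_zero (neg_ne_zero.2 B0) D0 this.symm
    · linear_combination (norm := module) -hv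
  · -- A, B positive; C, D negative
    have b' : 0 < B := (pos_iff_pos_of_mul_pos h1).1 a
    have d' : D < 0 := by
      by_contra h
      have := mul_nonpos_of_nonpos_of_nonneg c'.le (not_lt.1 h)
      linarith
    right
    refine ⟨B • u + (-C) • c, ?_, ⟨B, -C, by linarith, by linarith, rfl⟩,
      ⟨A, -D, by linarith, by linarith, ?_⟩⟩
    · intro h
      have := e2 B (-C)
      rw [h, z0] at this
      exact mul_ne_zero B0 D0 this.symm
    · linear_combination (norm := module) hv
  · -- all positive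
    have b' : 0 < B := (pos_iff_pos_of_mul_pos h1).1 a
    have d' : 0 < D := (pos_iff_pos_of_mul_pos h2).1 c'
    left
    refine ⟨B • u + D • b, ?_, ⟨B, D, by linarith, by linarith, rfl⟩,
      ⟨A, C, by linarith, by linarith, hv⟩⟩
    intro h
    have := e1 B D
    rw [h, z0] at this
    exact mul_ne_zero B0 C0 this.symm

/-- Number of crossing pairs of edges, in terms of cones. -/
noncomputable def crossingsC {m n : ℕ} (R : Fin m → V3) (B : Fin n → V3) : ℕ :=
  Set.ncard {q : (Fin m × Fin n) × (Fin m × Fin n) |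
    q.1.1 < q.2.1 ∧ q.1.2 ≠ q.2.2 ∧ ConeMeet (R q.1.1) (B q.1.2) (R q.2.1) (B q.2.2)}

/-- The tuples of crossing type with increasing reds and blues. -/
noncomputable def tupleS {m n : ℕ} (R : Fin m → V3) (B : Fin n → V3) :
    Finset ((Fin m × Fin m) × (Fin n × Fin n)) := by
  classical
  exact univ.filter fun t => t.1.1 < t.1.2 ∧ t.2.1 < t.2.2 ∧
    XBit (R t.1.1) (R t.1.2) (B t.2.1) (B t.2.2)

theorem mem_tupleS {m n : ℕ} {R : Fin m → V3} {B : Fin n → V3}
    {t : (Fin m × Fin m) × (Fin n × Fin n)} :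
    t ∈ tupleS R B ↔ t.1.1 < t.1.2 ∧ t.2.1 < t.2.2 ∧ XBit (R t.1.1) (R t.1.2) (B t.2.1) (B t.2.2) := by
  classical
  simp [tupleS]

theorem tupleS_card_le {m n : ℕ} (R : Fin m → V3) (B : Fin n → V3) :
    (tupleS R B).card ≤ crossingsC R B := by
  classical
  let φ : (Fin m × Fin m) × (Fin n × Fin n) → (Fin m × Fin n) × (Fin m × Fin n) := fun t =>
    if ConeMeet (R t.1.1) (B t.2.1) (R t.1.2) (B t.2.2) then
      ((t.1.1, t.2.1), (t.1.2, t.2.2)) else ((t.1.1, t.2.2), (t.1.2, t.2.1))
  have hinj : Set.InjOn φ (tupleS R B) := by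
    rintro ⟨⟨x, y⟩, ⟨j, j'⟩⟩ h1 ⟨⟨x2, y2⟩, ⟨j2, j2'⟩⟩ h2 heq
    have h1' := (mem_tupleS.1 h1).2.1
    have h2' := (mem_tupleS.1 h2).2.1
    simp only at h1' h2'
    simp only [φ] at heq
    split_ifs at heq
    · simp only [Prod.mk.injEq] at heq
      obtain ⟨⟨rfl, rfl⟩, rfl, rfl⟩ := heq
      rfl
    · simp only [Prod.mk.injEq] at heq
      obtain ⟨⟨rfl, rfl⟩, rfl, rfl⟩ := heq
      exact absurd h1' (lt_asymm h2')
    · simp only [Prod.mk.injEq] at heq
      obtain ⟨⟨rfl, rfl⟩, rfl, rfl⟩ := heq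
      exact absurd h1' (lt_asymm h2')
    · simp only [Prod.mk.injEq] at heq
      obtain ⟨⟨rfl, rfl⟩, rfl, rfl⟩ := heq
      rfl
  have h3 : (tupleS R B).card = ((tupleS R B).image φ).card :=
    (Finset.card_image_of_injOn hinj).symm
  rw [h3, ← Set.ncard_coe_finset]
  unfold crossingsC
  apply Set.ncard_le_ncard _ (Set.toFinite _)
  intro q hq
  rw [Finset.coe_image] at hq
  obtain ⟨⟨⟨x, y⟩, ⟨j, j'⟩⟩, ht, rfl⟩ := hq
  obtain ⟨hxy, hj, hc⟩ := mem_tupleS.1 ht
  simp only at hxy hj hc
  simp only [φ]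
  split_ifs with hm
  · exact ⟨hxy, hj.ne, hm⟩
  · rcases cone_of_xbit hc with hc' | hc'
    · exact absurd hc' hm
    · exact ⟨hxy, hj.ne', hc'⟩

/-! ### A convex polygon against all red pairs -/

/-- Mantel: a colouring has at least `dd m` monochromatic pairs. -/
theorem mantel {m : ℕ} (χ : Fin m → Bool) :
    dd m ≤ ((univ : Finset (Fin m × Fin m)).filter fun p => p.1 < p.2 ∧ χ p.1 = χ p.2).card := by
  classical
  let f : Fin m → Fin m → ℕ := fun x y => if x ≠ y ∧ χ x = χ y then 1 else 0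
  have hs : ∀ x y, f x y = f y x := by
    intro x y
    simp only [f, ne_comm, eq_comm]
  have hd : ∀ x, f x x = 0 := by
    intro x
    simp [f]
  have h1 := kleitman f hs hd 1 (by omega) m univ (by simp) (by
    intro x _ y _ z _ hxy hyz hxz
    simp only [f]
    cases h1 : χ x <;> cases h2 : χ y <;> cases h3 : χ z <;> simp [hxy, hyz, hxz])
  rw [Finset.card_univ, Fintype.card_fin] at h1
  have h2 := sum_sym f hs hd
  have h3 : ∑ x, ∑ y, (if x < y then f x y else 0) =
      ((univ : Finset (Fin m × Fin m)).filter fun p => p.1 < p.2 ∧ χ p.1 = χ p.2).card := by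
    rw [Finset.card_filter, Fintype.sum_prod_type]
    refine Finset.sum_congr rfl fun x _ => Finset.sum_congr rfl fun y _ => ?_
    by_cases hxy : x < y
    · simp [f, hxy, hxy.ne]
    · simp [hxy]
  omega

/-- From a cyclic map on `Fin` to a periodic sequence. -/
def perOf {N : ℕ} (P : Fin (N + 3) → V3) : ℕ → V3 := fun i => P (Fin.ofNat (N + 3) i)

theorem ofNat_succ {N : ℕ} (i : ℕ) :
    Fin.ofNat (N + 3) (i + 1) = Fin.ofNat (N + 3) i + 1 := by
  apply Fin.ext
  rw [Fin.val_add]
  have e1 : (Fin.ofNat (N + 3) i).val = i % (N + 3) := rfl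
  have e2 : (1 : Fin (N + 3)).val = 1 := rfl
  have e3 : (Fin.ofNat (N + 3) (i + 1)).val = (i + 1) % (N + 3) := rfl
  rw [e1, e2, e3, Nat.mod_add_mod]

theorem ofNat_val' {N : ℕ} (i : Fin (N + 3)) : Fin.ofNat (N + 3) i.val = i :=
  Fin.ext (by simp [Fin.ofNat, Nat.mod_eq_of_lt i.isLt])

theorem perOf_conv {N : ℕ} {P : Fin (N + 3) → V3} (hP : IsConvexS P) : PConv (perOf P) (N + 3) := by
  refine ⟨by omega, ?_, ?_⟩
  · intro i
    simp only [perOf]
    congr 1
    apply Fin.ext
    simp [Fin.ofNat]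
  · intro i j h1 h2
    simp only [perOf]
    rw [ofNat_succ]
    apply hP
    · intro h
      apply h1
      have := congrArg Fin.val h
      simpa [Fin.ofNat] using this
    · intro h
      apply h2
      have := congrArg Fin.val h
      rw [← ofNat_succ] at this
      simpa [Fin.ofNat] using this

/-- The count for one polygon. -/
theorem poly_sum {m N : ℕ} (R : Fin m → V3) (P : Fin (N + 3) → V3) (hP : IsConvexS P)
    (ha : ∀ i x, det3D (P i) (P (i + 1)) (R x) ≠ 0)
    (hf : ∀ x y i, x < y → det3D (R x) (R y) (P i) ≠ 0) :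
    (N + 1) * dd m ≤ ((univ : Finset ((Fin m × Fin m) × Fin (N + 3))).filter fun t =>
      t.1.1 < t.1.2 ∧
      0 < det3D (P t.2) (P (t.2 + 1)) (R t.1.1) * det3D (P t.2) (P (t.2 + 1)) (R t.1.2) ∧
      0 < det3D (R t.1.1) (R t.1.2) (P t.2) * det3D (R t.1.1) (R t.1.2) (P (t.2 + 1))).card := by
  classical
  set Q := perOf P with hQ
  have hQc : PConv Q (N + 3) := perOf_conv hP
  have hQv : ∀ i : Fin (N + 3), Q i.val = P i := fun i => by
    simp only [hQ, perOf, ofNat_val']
  have hQs : ∀ i : Fin (N + 3), Q (i.val + 1) = P (i + 1) := fun i => by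
    simp only [hQ, perOf]
    rw [ofNat_succ, ofNat_val']
  have hQa : ∀ i : ℕ, Q i = P (Fin.ofNat (N + 3) i) := fun _ => rfl
  have hQa' : ∀ i : ℕ, Q (i + 1) = P (Fin.ofNat (N + 3) i + 1) := fun i => by
    simp only [hQ, perOf, ofNat_succ]
  let Pairs : Finset (Fin m × Fin m) := univ.filter fun p => p.1 < p.2
  let χ : ℕ → Fin m → Bool := fun j x => Hb (sg Q (R x)) j
  have h1 : ∀ p ∈ Pairs, ((Ico 1 (N + 3 - 1)).filter fun j => χ j p.1 = χ j p.2).card ≤
      (crossCnt Q (N + 3) (R p.1) (R p.2)).card := by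
    intro p hp
    have hlt : p.1 < p.2 := (Finset.mem_filter.1 hp).2
    refine spcl hQc ?_ ?_ ?_
    · intro i _
      rw [hQa, hQa']
      exact ha _ _
    · intro i _
      rw [hQa, hQa']
      exact ha _ _
    · intro i _
      rw [hQa]
      exact hf _ _ _ hlt
  have h2 : (N + 1) * dd m ≤ ∑ j ∈ Ico 1 (N + 3 - 1), (Pairs.filter fun p => χ j p.1 = χ j p.2).card := by
    have h3 : ∀ j ∈ Ico 1 (N + 3 - 1), dd m ≤ (Pairs.filter fun p => χ j p.1 = χ j p.2).card := by
      intro j _
      have := mantel (χ j)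
      refine this.trans (le_of_eq ?_)
      apply congrArg
      ext p
      simp only [Pairs, Finset.mem_filter, Finset.mem_univ, true_and]
    have h4 := Finset.card_nsmul_le_sum _ _ _ h3
    rw [Nat.card_Ico, smul_eq_mul] at h4
    have e : N + 3 - 1 - 1 = N + 1 := by omega
    rw [e] at h4
    exact h4
  have h5 : ∑ j ∈ Ico 1 (N + 3 - 1), (Pairs.filter fun p => χ j p.1 = χ j p.2).card =
      ∑ p ∈ Pairs, ((Ico 1 (N + 3 - 1)).filter fun j => χ j p.1 = χ j p.2).card := by
    simp only [Finset.card_filter]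
    rw [Finset.sum_comm]
  rw [h5] at h2
  refine h2.trans ((Finset.sum_le_sum h1).trans ?_)
  -- identify with the set of triples
  rw [← Finset.card_sigma]
  refine Finset.card_le_card_of_injOn (fun x => (x.1, Fin.ofNat (N + 3) x.2)) ?_ ?_
  · rintro ⟨p, i⟩ hx
    have hx' := Finset.mem_sigma.1 hx
    simp only at hx'
    have h6 : p.1 < p.2 := (Finset.mem_filter.1 hx'.1).2
    have h7 := Finset.mem_filter.1 hx'.2
    rw [hQa, hQa'] at h7
    exact Finset.mem_coe.2 (Finset.mem_filter.2 ⟨Finset.mem_univ _, h6, h7.2.1, h7.2.2⟩)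
  · rintro ⟨p, i⟩ hx ⟨p', i'⟩ hx' heq
    have hm := Finset.mem_sigma.1 hx
    have hm' := Finset.mem_sigma.1 hx'
    simp only at hm hm'
    have i1 := Finset.mem_range.1 (Finset.mem_filter.1 hm.2).1
    have i2 := Finset.mem_range.1 (Finset.mem_filter.1 hm'.2).1
    simp only [Prod.mk.injEq] at heq
    obtain ⟨rfl, h8⟩ := heq
    have h9 := congrArg Fin.val h8
    simp only [Fin.ofNat] at h9
    rw [Nat.mod_eq_of_lt i1, Nat.mod_eq_of_lt i2] at h9
    subst h9
    rfl

end Vale.Agent.P040S
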