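import Vale.Agent.Lib.P040S.Assemble
import Vale.Agent.Lib.P040D.Final

/-!
The bound in general position for all class sizes.
-/

namespace Vale.Agent.P040S

open Finset
open Vale.Agent.P040 Vale.Agent.P040D

theorem smul_fst' (ω : ℝ) (a : V3) : (ω • a).1 = ω * a.1 := rfl
theorem smul_snd1 (ω : ℝ) (a : V3) : (ω • a).2.1 = ω * a.2.1 := rfl
theorem smul_snd2 (ω : ℝ) (a : V3) : (ω • a).2.2 = ω * a.2.2 := rfl

theorem det_smul12 {ω : ℝ} (hω : ω = 1 ∨ ω = -1) (a b u : V3) :
    det3D (ω • a) (ω • b) u = det3D a b u := by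
  rcases hω with rfl | rfl <;> simp only [det3D, smul_fst', smul_snd1, smul_snd2] <;> ring

theorem det_smul3 (ω : ℝ) (u v a : V3) : det3D u v (ω • a) = ω * det3D u v a := by
  simp only [det3D, smul_fst', smul_snd1, smul_snd2]
  ring

theorem IsConvexS.inj {N : ℕ} {P : Fin (N + 3) → V3} (h : IsConvexS P) : Function.Injective P := by
  intro i j hij
  by_contra hne
  by_cases hj : j = i + 1
  · subst hj
    have := h i (i + 2) (add_two_ne i) (add_two_ne_one i)
    rw [← hij] at this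
    have e : det3D (P i) (P i) (P (i + 2)) = 0 := by
      simp only [det3D]
      ring
    rw [e] at this
    exact lt_irrefl _ this
  · have := h i j (Ne.symm hne) hj
    rw [← hij] at this
    have e : det3D (P i) (P (i + 1)) (P i) = 0 := by
      simp only [det3D]
      ring
    rw [e] at this
    exact lt_irrefl _ this

theorem add_one_ne' {N : ℕ} (i : Fin (N + 3)) : i ≠ i + 1 := by
  intro h
  have := congrArg Fin.val (add_eq_left.1 h.symm)
  simp at this

/-- The bound for an odd number of blue vectors. -/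
theorem odd_blue {m k : ℕ} (R : Fin m → V3) (B : Fin (2 * k + 1) → V3)
    (hgp : GP3 (Sum.elim R B)) : dd m * (k * k) ≤ (tupleS R B).card := by
  classical
  have hB : GP3 B := fun i j t hij hjt hit =>
    hgp (Sum.inr i) (Sum.inr j) (Sum.inr t) (by simpa using hij) (by simpa using hjt)
      (by simpa using hit)
  obtain ⟨ι, _, n, v, hv, hinj, hsum⟩ := decompS k B hB
  choose ω hω hpos using hv
  let P : ∀ t, Fin (n t + 3) → V3 := fun t i => ω t • B (v t i)
  have hP : ∀ t, IsConvexS (P t) := by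
    intro t i j h1 h2
    simp only [P]
    rw [det_smul12 (hω t), det_smul3]
    exact hpos t i j h1 h2
  have hvinj : ∀ t, Function.Injective (v t) := by
    intro t i j h
    apply (hP t).inj
    simp only [P, h]
  have hcount := fun t => poly_sum R (P t) (hP t) (by
      intro i x
      simp only [P]
      rw [det_smul12 (hω t)]
      have := hgp (Sum.inr (v t i)) (Sum.inr (v t (i + 1))) (Sum.inl x)
        (by simpa using (hvinj t).ne (add_one_ne' i)) (by simp) (by simp)
      simpa using this) (by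
      intro x y i hxy
      simp only [P]
      rw [det_smul3]
      have h0 : ω t ≠ 0 := by
        rcases hω t with h | h <;> rw [h] <;> norm_num
      refine mul_ne_zero h0 ?_
      have := hgp (Sum.inl x) (Sum.inl y) (Sum.inr (v t i)) (by simpa using hxy.ne) (by simp) (by simp)
      simpa using this)
  let S : ∀ t, Finset ((Fin m × Fin m) × Fin (n t + 3)) := fun t =>
    univ.filter fun q => q.1.1 < q.1.2 ∧
      XBit (R q.1.1) (R q.1.2) (B (v t q.2)) (B (v t (q.2 + 1)))
  have hS : ∀ t, (n t + 1) * dd m ≤ (S t).card := by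
    intro t
    refine (hcount t).trans (le_of_eq ?_)
    apply congrArg
    apply Finset.filter_congr
    rintro q -
    simp only [P, det_smul12 (hω t), det_smul3]
    have h2 : ω t * ω t = 1 := by
      rcases hω t with h | h <;> rw [h] <;> norm_num
    have h3 : ω t * det3D (R q.1.1) (R q.1.2) (B (v t q.2)) *
        (ω t * det3D (R q.1.1) (R q.1.2) (B (v t (q.2 + 1)))) =
        det3D (R q.1.1) (R q.1.2) (B (v t q.2)) * det3D (R q.1.1) (R q.1.2) (B (v t (q.2 + 1))) := by
      calc _ = (ω t * ω t) * (det3D (R q.1.1) (R q.1.2) (B (v t q.2)) *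
            det3D (R q.1.1) (R q.1.2) (B (v t (q.2 + 1)))) := by ring
        _ = _ := by rw [h2, one_mul]
    rw [h3]
    exact Iff.rfl
  let T : Finset (Σ t : ι, (Fin m × Fin m) × Fin (n t + 3)) := univ.sigma S
  let Φ : (Σ t : ι, (Fin m × Fin m) × Fin (n t + 3)) →
      (Fin m × Fin m) × (Fin (2 * k + 1) × Fin (2 * k + 1)) :=
    fun x => (x.2.1, ord (v x.1 x.2.2) (v x.1 (x.2.2 + 1)))
  have hmaps : ∀ x ∈ T, Φ x ∈ tupleS R B := by
    rintro ⟨t, ⟨p, i⟩⟩ hx
    have hx' := (Finset.mem_sigma.1 hx).2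
    simp only [S, Finset.mem_filter, Finset.mem_univ, true_and] at hx'
    obtain ⟨h1, h2⟩ := hx'
    refine mem_tupleS.2 ⟨h1, ord_lt ((hvinj t).ne (add_one_ne' i)), ?_⟩
    simp only [Φ, ord]
    rcases le_total (v t i) (v t (i + 1)) with h3 | h3
    · rw [min_eq_left h3, max_eq_right h3]
      exact h2
    · rw [min_eq_right h3, max_eq_left h3]
      exact XBit_swap h2
  have hΦinj : Set.InjOn Φ T := by
    rintro ⟨t, ⟨p, i⟩⟩ _ ⟨t', ⟨p', i'⟩⟩ _ heq
    simp only [Φ, Prod.mk.injEq] at heq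
    have e1 := hinj (a₁ := ⟨t, i⟩) (a₂ := ⟨t', i'⟩) (ord_sym2 heq.2)
    obtain ⟨rfl, h1⟩ := Sigma.mk.inj_iff.1 e1
    cases h1
    rw [heq.1]
  have h1 := Finset.card_le_card_of_injOn Φ hmaps hΦinj
  have h2 : T.card = ∑ t, (S t).card := Finset.card_sigma _ _
  calc dd m * (k * k) ≤ dd m * ∑ t, (n t + 1) := Nat.mul_le_mul_left _ hsum
    _ = ∑ t, (n t + 1) * dd m := by
        rw [Finset.mul_sum]
        exact Finset.sum_congr rfl fun t _ => mul_comm _ _
    _ ≤ ∑ t, (S t).card := Finset.sum_le_sum fun t _ => hS t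
    _ = T.card := h2.symm
    _ ≤ _ := h1

/-- Deleting a blue vector. -/
theorem del_blue {m n : ℕ} (R : Fin m → V3) (B : Fin (n + 1) → V3) :
    ∑ z : Fin (n + 1), (tupleS R (B ∘ z.succAbove)).card ≤ (n + 1 - 2) * (tupleS R B).card := by
  classical
  have h1 : ∀ z : Fin (n + 1), (tupleS R (B ∘ z.succAbove)).card ≤
      ((tupleS R B).filter fun t => z ≠ t.2.1 ∧ z ≠ t.2.2).card := by
    intro z
    refine Finset.card_le_card_of_injOn
      (fun t => (t.1, (z.succAbove t.2.1, z.succAbove t.2.2))) ?_ ?_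
    · rintro ⟨⟨x, y⟩, ⟨j, j'⟩⟩ ht
      obtain ⟨a1, a2, a3⟩ := mem_tupleS.1 ht
      refine Finset.mem_coe.2 (Finset.mem_filter.2 ⟨mem_tupleS.2 ⟨a1, ?_, a3⟩, ?_, ?_⟩)
      · exact (Fin.strictMono_succAbove z) a2
      · exact (Fin.succAbove_ne z j).symm
      · exact (Fin.succAbove_ne z j').symm
    · rintro ⟨⟨x, y⟩, ⟨j, j'⟩⟩ _ ⟨⟨x2, y2⟩, ⟨j2, j2'⟩⟩ _ heq
      simp only [Prod.mk.injEq] at heq
      obtain ⟨⟨e1, e2⟩, e3, e4⟩ := heq
      have e3' := (Fin.strictMono_succAbove z).injective e3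
      have e4' := (Fin.strictMono_succAbove z).injective e4
      subst e1 e2 e3' e4'
      rfl
  have h2 : ∑ z : Fin (n + 1), ((tupleS R B).filter fun t => z ≠ t.2.1 ∧ z ≠ t.2.2).card =
      ∑ t ∈ tupleS R B, (univ.filter fun z : Fin (n + 1) => z ≠ t.2.1 ∧ z ≠ t.2.2).card := by
    simp only [Finset.card_filter]
    rw [Finset.sum_comm]
  have h3 : ∀ t ∈ tupleS R B,
      (univ.filter fun z : Fin (n + 1) => z ≠ t.2.1 ∧ z ≠ t.2.2).card = n + 1 - 2 := by
    intro t ht
    have hne : t.2.1 ≠ t.2.2 := (mem_tupleS.1 ht).2.1.ne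
    have : (univ.filter fun z : Fin (n + 1) => z ≠ t.2.1 ∧ z ≠ t.2.2) =
        univ \ {t.2.1, t.2.2} := by
      ext z
      simp
    rw [this, Finset.card_sdiff_of_subset (Finset.subset_univ _), Finset.card_univ,
      Fintype.card_fin, Finset.card_pair hne]
  calc ∑ z : Fin (n + 1), (tupleS R (B ∘ z.succAbove)).card
      ≤ ∑ z : Fin (n + 1), ((tupleS R B).filter fun t => z ≠ t.2.1 ∧ z ≠ t.2.2).card :=
        Finset.sum_le_sum fun z _ => h1 z
    _ = ∑ t ∈ tupleS R B, (univ.filter fun z : Fin (n + 1) => z ≠ t.2.1 ∧ z ≠ t.2.2).card := h2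
    _ = ∑ _t ∈ tupleS R B, (n + 1 - 2) := Finset.sum_congr rfl h3
    _ = _ := by rw [Finset.sum_const, smul_eq_mul, mul_comm]

theorem gp3_comp {m n n' : ℕ} {R : Fin m → V3} {B : Fin n → V3} (hgp : GP3 (Sum.elim R B))
    {w : Fin n' → Fin n} (hw : Function.Injective w) : GP3 (Sum.elim R (B ∘ w)) := by
  intro a b c hab hbc hac
  have hinj : Function.Injective (Sum.map (id : Fin m → Fin m) w) :=
    Function.Injective.sumMap Function.injective_id hw
  have key : ∀ a, Sum.elim R (B ∘ w) a = Sum.elim R B (Sum.map id w a) := by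
    rintro (a | a) <;> rfl
  rw [key, key, key]
  exact hgp _ _ _ (hinj.ne hab) (hinj.ne hbc) (hinj.ne hac)

/-- An even number of blue vectors: delete one. -/
theorem even_blue {m l : ℕ} (R : Fin m → V3) (B : Fin (2 * (l + 1) + 1 + 1) → V3)
    (hgp : GP3 (Sum.elim R B)) : dd m * dd (2 * (l + 1) + 1 + 1) ≤ (tupleS R B).card := by
  have h1 := del_blue R B
  have h2 : ∀ z : Fin (2 * (l + 1) + 1 + 1), dd m * ((l + 1) * (l + 1)) ≤
      (tupleS R (B ∘ z.succAbove)).card :=
    fun z => odd_blue R _ (gp3_comp hgp (Fin.strictMono_succAbove z).injective)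
  have h3 : (2 * (l + 1) + 2) * (dd m * ((l + 1) * (l + 1))) ≤
      (2 * (l + 1) + 1 + 1 - 2) * (tupleS R B).card := by
    refine le_trans ?_ h1
    have := Finset.card_nsmul_le_sum (univ : Finset (Fin (2 * (l + 1) + 1 + 1)))
      (fun z => (tupleS R (B ∘ z.succAbove)).card) (dd m * ((l + 1) * (l + 1)))
      (fun z _ => h2 z)
    simpa using this
  have e1 : 2 * (l + 1) + 1 + 1 - 2 = 2 * (l + 1) := by omega
  rw [e1] at h3
  have e2 : dd (2 * (l + 1) + 1 + 1) = (l + 1 + 1) * (l + 1) := by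
    have := dd_even (l + 1 + 1)
    rw [show 2 * (l + 1 + 1) = 2 * (l + 1) + 1 + 1 by ring] at this
    rw [this]
    simp
  rw [e2]
  have e3 : 2 * (l + 1) * (dd m * ((l + 1 + 1) * (l + 1))) ≤ 2 * (l + 1) * (tupleS R B).card := by
    calc 2 * (l + 1) * (dd m * ((l + 1 + 1) * (l + 1))) =
        (2 * (l + 1) + 2) * (dd m * ((l + 1) * (l + 1))) := by ring
      _ ≤ _ := h3
  exact Nat.le_of_mul_le_mul_left e3 (by omega)

/-- The bound in general position. -/
theorem all_gp {m n : ℕ} (R : Fin m → V3) (B : Fin n → V3) (hgp : GP3 (Sum.elim R B)) :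
    dd m * dd n ≤ (tupleS R B).card := by
  have hcases : n ≤ 2 ∨ (∃ k, n = 2 * k + 1) ∨ ∃ l, n = 2 * (l + 1) + 1 + 1 := by
    rcases Nat.even_or_odd' n with ⟨t, ht | ht⟩
    · by_cases h : t ≤ 1
      · left
        omega
      · right; right
        exact ⟨t - 2, by omega⟩
    · right; left
      exact ⟨t, ht⟩
  rcases hcases with h | ⟨k, rfl⟩ | ⟨l, rfl⟩
  · have : dd n = 0 := by
      interval_cases n <;> simp [dd]
    rw [this, mul_zero]
    exact Nat.zero_le _
  · rw [dd_odd]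
    exact odd_blue R B hgp
  · exact even_blue R B hgp

end Vale.Agent.P040S
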