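import Vale.Agent.Lib.P040S.Defs

/-!
Existence of a balanced linear functional for an odd family of vectors.
-/

namespace Vale.Agent.P040S

open Finset

/-- A vector with nonzero inner product with all vectors of a finite set of nonzero vectors. -/
theorem exists_avoid (W : Finset V3) (hW : ∀ w ∈ W, w ≠ 0) : ∃ z : V3, ∀ w ∈ W, dot z w ≠ 0 := by
  classical
  induction W using Finset.induction_on with
  | empty => exact ⟨0, by simp⟩
  | insert w W hw ih =>
    obtain ⟨z, hz⟩ := ih fun w' h' => hW w' (Finset.mem_insert_of_mem h')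
    have hw0 : w ≠ 0 := hW w (Finset.mem_insert_self _ _)
    by_cases h0 : dot z w = 0
    · -- a vector with nonzero inner product with `w`
      obtain ⟨y, hy⟩ : ∃ y : V3, dot y w ≠ 0 := by
        by_contra hcon
        push Not at hcon
        apply hw0
        have h1 := hcon (1, 0, 0)
        have h2 := hcon (0, 1, 0)
        have h3 := hcon (0, 0, 1)
        simp only [dot] at h1 h2 h3
        refine Prod.ext (by simpa using h1) (Prod.ext (by simpa using h2) (by simpa using h3))
      let S : Finset ℝ := insert 0 (W.image fun w' => - dot z w' / dot y w')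
      obtain ⟨t, ht⟩ := Infinite.exists_notMem_finset S
      have ht0 : t ≠ 0 := fun h => ht (by simp [S, h])
      refine ⟨(z.1 + t * y.1, z.2.1 + t * y.2.1, z.2.2 + t * y.2.2), ?_⟩
      have hadd : ∀ w' : V3, dot (z.1 + t * y.1, z.2.1 + t * y.2.1, z.2.2 + t * y.2.2) w' =
          dot z w' + t * dot y w' := by
        intro w'
        simp only [dot]
        ring
      intro w' hw'
      rw [hadd]
      rcases Finset.mem_insert.1 hw' with rfl | h1
      · rw [h0, zero_add]
        exact mul_ne_zero ht0 hy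
      · intro h2
        have h3 := hz w' h1
        have h4 : dot y w' ≠ 0 := by
          intro h5
          rw [h5, mul_zero, add_zero] at h2
          exact h3 h2
        apply ht
        refine Finset.mem_insert_of_mem (Finset.mem_image.2 ⟨w', h1, ?_⟩)
        field_simp
        linarith
    · refine ⟨z, ?_⟩
      intro w' hw'
      rcases Finset.mem_insert.1 hw' with rfl | h1
      · exact h0
      · exact hz w' h1

section Bisect

variable {ι : Type*} [Fintype ι] [DecidableEq ι] (ρ τ : ι → ℝ)

/-- Number of indices with positive value at the parameter `t`. -/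
noncomputable def posCnt (t : ℝ) : ℕ := by
  classical
  exact (univ.filter fun i => 0 < ρ i * (τ i - t)).card

/-- Indices with root between `x` and `y`. -/
noncomputable def betw (x y : ℝ) : Finset ι := by
  classical
  exact univ.filter fun i => x < τ i ∧ τ i < y

variable {ρ τ}

theorem posCnt_le {x y : ℝ} (hxy : x < y) (hx : ∀ i, τ i ≠ x) (hy : ∀ i, τ i ≠ y) :
    posCnt ρ τ x ≤ posCnt ρ τ y + (betw τ x y).card ∧
    posCnt ρ τ y ≤ posCnt ρ τ x + (betw τ x y).card := by
  classical
  have key : ∀ i, i ∉ betw τ x y → (0 < ρ i * (τ i - x) ↔ 0 < ρ i * (τ i - y)) := by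
    intro i hi
    have h1 : ¬ (x < τ i ∧ τ i < y) := by
      simpa [betw] using hi
    have h2 := hx i
    have h3 := hy i
    have h4 : (τ i < x) ∨ (y < τ i) := by
      by_contra hcon
      push Not at hcon
      exact h1 ⟨lt_of_le_of_ne hcon.1 (Ne.symm h2), lt_of_le_of_ne hcon.2 h3⟩
    rcases h4 with h4 | h4
    · have a1 : τ i - x < 0 := by linarith
      have a2 : τ i - y < 0 := by linarith
      rw [mul_pos_iff, mul_pos_iff]
      constructor
      · rintro (⟨_, h⟩ | ⟨h, _⟩)
        · linarith
        · exact Or.inr ⟨h, a2⟩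
      · rintro (⟨_, h⟩ | ⟨h, _⟩)
        · linarith
        · exact Or.inr ⟨h, a1⟩
    · have a1 : 0 < τ i - x := by linarith
      have a2 : 0 < τ i - y := by linarith
      rw [mul_pos_iff, mul_pos_iff]
      constructor
      · rintro (⟨h, _⟩ | ⟨_, h⟩)
        · exact Or.inl ⟨h, a2⟩
        · linarith
      · rintro (⟨h, _⟩ | ⟨_, h⟩)
        · exact Or.inl ⟨h, a1⟩
        · linarith
  constructor
  · unfold posCnt
    refine (Finset.card_le_card ?_).trans (Finset.card_union_le _ (betw τ x y))
    intro i hi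
    simp only [Finset.mem_filter, Finset.mem_univ, true_and, Finset.mem_union] at hi ⊢
    by_cases h : i ∈ betw τ x y
    · exact Or.inr h
    · exact Or.inl ((key i h).1 hi)
  · unfold posCnt
    refine (Finset.card_le_card ?_).trans (Finset.card_union_le _ (betw τ x y))
    intro i hi
    simp only [Finset.mem_filter, Finset.mem_univ, true_and, Finset.mem_union] at hi ⊢
    by_cases h : i ∈ betw τ x y
    · exact Or.inr h
    · exact Or.inl ((key i h).2 hi)

/-- Bisection. -/
theorem bisect (hτ : Function.Injective τ) (K : ℕ) :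
    ∀ (n : ℕ) (x y : ℝ), x < y → (∀ i, τ i ≠ x) → (∀ i, τ i ≠ y) → (betw τ x y).card ≤ n →
      ((K ≤ posCnt ρ τ x ∧ posCnt ρ τ y < K) ∨ (K ≤ posCnt ρ τ y ∧ posCnt ρ τ x < K)) →
      ∃ t, (∀ i, τ i ≠ t) ∧ posCnt ρ τ t = K := by
  classical
  intro n
  induction n with
  | zero =>
    intro x y hxy hx hy hn hc
    have h1 := posCnt_le (ρ := ρ) hxy hx hy
    omega
  | succ n ih =>
    intro x y hxy hx hy hn hc
    by_cases h2 : (betw τ x y).card ≤ 1
    · have h1 := posCnt_le (ρ := ρ) hxy hx hy
      rcases hc with ⟨h3, h4⟩ | ⟨h3, h4⟩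
      · exact ⟨x, hx, by omega⟩
      · exact ⟨y, hy, by omega⟩
    · -- two roots in between
      obtain ⟨i, hi, j, hj, hij⟩ := Finset.one_lt_card.1 (not_le.1 h2)
      have hi' : x < τ i ∧ τ i < y := by simpa [betw] using hi
      have hj' : x < τ j ∧ τ j < y := by simpa [betw] using hj
      -- order the two roots
      obtain ⟨a, b, ha, hb, hab⟩ : ∃ a b : ι, (x < τ a ∧ τ a < y) ∧ (x < τ b ∧ τ b < y) ∧ τ a < τ b := by
        rcases lt_or_gt_of_ne (hτ.ne hij) with h | h
        · exact ⟨i, j, hi', hj', h⟩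
        · exact ⟨j, i, hj', hi', h⟩
      -- a parameter between them that is no root
      obtain ⟨w, hw1, hw2⟩ : ∃ w, w ∈ Set.Ioo (τ a) (τ b) ∧ w ∉ (univ : Finset ι).image τ :=
        (Set.Ioo_infinite hab).exists_notMem_finset _
      have hw : ∀ i, τ i ≠ w := by
        intro i h
        exact hw2 (Finset.mem_image.2 ⟨i, Finset.mem_univ _, h⟩)
      have hxw : x < w := ha.1.trans hw1.1
      have hwy : w < y := hw1.2.trans hb.2
      have hb1 : (betw τ x w).card ≤ n := by
        have h3 : betw τ x w ⊂ betw τ x y := by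
          refine Finset.ssubset_iff_of_subset ?_ |>.2 ⟨b, ?_, ?_⟩
          · intro l hl
            simp only [betw, Finset.mem_filter, Finset.mem_univ, true_and] at hl ⊢
            exact ⟨hl.1, hl.2.trans hwy⟩
          · simp only [betw, Finset.mem_filter, Finset.mem_univ, true_and]
            exact hb
          · simp only [betw, Finset.mem_filter, Finset.mem_univ, true_and, not_and, not_lt]
            intro _
            exact hw1.2.le
        have := Finset.card_lt_card h3
        omega
      have hb2 : (betw τ w y).card ≤ n := by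
        have h3 : betw τ w y ⊂ betw τ x y := by
          refine Finset.ssubset_iff_of_subset ?_ |>.2 ⟨a, ?_, ?_⟩
          · intro l hl
            simp only [betw, Finset.mem_filter, Finset.mem_univ, true_and] at hl ⊢
            exact ⟨hxw.trans hl.1, hl.2⟩
          · simp only [betw, Finset.mem_filter, Finset.mem_univ, true_and]
            exact ha
          · simp only [betw, Finset.mem_filter, Finset.mem_univ, true_and, not_and, not_lt]
            intro h4
            exact absurd hw1.1 (not_lt.2 h4.le)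
        have := Finset.card_lt_card h3
        omega
      by_cases h5 : K ≤ posCnt ρ τ w
      · rcases hc with ⟨h3, h4⟩ | ⟨h3, h4⟩
        · exact ih w y hwy hw hy hb2 (Or.inl ⟨h5, h4⟩)
        · exact ih x w hxw hx hw hb1 (Or.inr ⟨h5, h4⟩)
      · have h6 : posCnt ρ τ w < K := by omega
        rcases hc with ⟨h3, h4⟩ | ⟨h3, h4⟩
        · exact ih x w hxw hx hw hb1 (Or.inl ⟨h3, h6⟩)
        · exact ih w y hwy hw hy hb2 (Or.inr ⟨h3, h6⟩)

end Bisect

/-- A balanced functional. -/
theorem exists_balanced {k : ℕ} (c : Fin (2 * k + 1) → V3) (h0 : ∀ i, c i ≠ 0)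
    (hind : ∀ i j, i ≠ j → ∀ a b : ℝ, a ≠ 0 → b ≠ 0 → a • c i ≠ b • c j) :
    ∃ z : V3, (∀ i, dot z (c i) ≠ 0) ∧ (univ.filter fun i => 0 < dot z (c i)).card = k + 1 := by
  classical
  obtain ⟨z₀, hz₀⟩ := exists_avoid (univ.image c) (by
    intro w hw
    obtain ⟨i, _, rfl⟩ := Finset.mem_image.1 hw
    exact h0 i)
  have hz₀' : ∀ i, dot z₀ (c i) ≠ 0 := fun i => hz₀ _ (Finset.mem_image_of_mem _ (Finset.mem_univ _))
  let wv : Fin (2 * k + 1) × Fin (2 * k + 1) → V3 := fun p =>
    dot z₀ (c p.2) • c p.1 - dot z₀ (c p.1) • c p.2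
  obtain ⟨z₁, hz₁⟩ := exists_avoid
    (((univ : Finset (Fin (2 * k + 1) × Fin (2 * k + 1))).filter fun p => p.1 ≠ p.2).image wv) (by
    intro w hw
    obtain ⟨p, hp, rfl⟩ := Finset.mem_image.1 hw
    have hp' : p.1 ≠ p.2 := (Finset.mem_filter.1 hp).2
    intro h
    exact hind p.1 p.2 hp' _ _ (hz₀' p.2) (hz₀' p.1) (sub_eq_zero.1 h))
  let τ : Fin (2 * k + 1) → ℝ := fun i => dot z₁ (c i) / dot z₀ (c i)
  let ρ : Fin (2 * k + 1) → ℝ := fun i => dot z₀ (c i)
  have hτ : Function.Injective τ := by
    intro i j hij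
    by_contra hne
    have h1 := hz₁ (wv (i, j)) (Finset.mem_image_of_mem _ (Finset.mem_filter.2 ⟨Finset.mem_univ _, hne⟩))
    apply h1
    have h2 : dot z₁ (wv (i, j)) = dot z₀ (c j) * dot z₁ (c i) - dot z₀ (c i) * dot z₁ (c j) := by
      simp only [wv, dot, Prod.fst_sub, Prod.snd_sub, Prod.smul_fst, Prod.smul_snd, smul_eq_mul]
      ring
    rw [h2]
    simp only [τ] at hij
    have h3 := hz₀' i
    have h4 := hz₀' j
    field_simp at hij
    linarith
  -- the value at a parameter
  let zt : ℝ → V3 := fun t => (z₁.1 - t * z₀.1, z₁.2.1 - t * z₀.2.1, z₁.2.2 - t * z₀.2.2)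
  have hzt : ∀ t i, dot (zt t) (c i) = ρ i * (τ i - t) := by
    intro t i
    have h3 := hz₀' i
    simp only [ρ, τ]
    rw [mul_sub, mul_div_cancel₀ _ h3]
    simp only [zt, dot]
    ring
  -- extreme parameters
  obtain ⟨M, hM⟩ := (Set.finite_range τ).bddAbove
  obtain ⟨M', hM'⟩ := (Set.finite_range τ).bddBelow
  have hup : ∀ i, τ i < M + 1 := fun i => lt_of_le_of_lt (hM (Set.mem_range_self i)) (by linarith)
  have hlo : ∀ i, M' - 1 < τ i := fun i => lt_of_lt_of_le (by linarith) (hM' (Set.mem_range_self i))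
  have hP : posCnt ρ τ (M' - 1) + posCnt ρ τ (M + 1) = 2 * k + 1 := by
    have e1 : posCnt ρ τ (M' - 1) = (univ.filter fun i => 0 < ρ i).card := by
      unfold posCnt
      congr 1
      apply Finset.filter_congr
      intro i _
      have h := hlo i
      have a : 0 < τ i - (M' - 1) := by linarith
      constructor
      · intro h'
        exact (pos_iff_pos_of_mul_pos h').2 a
      · intro h'
        exact mul_pos h' a
    have e2 : posCnt ρ τ (M + 1) = (univ.filter fun i => ¬ 0 < ρ i).card := by
      unfold posCnt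
      congr 1
      apply Finset.filter_congr
      intro i _
      have h := hup i
      have a : τ i - (M + 1) < 0 := by linarith
      have h3 := hz₀' i
      constructor
      · intro h'
        have := (mul_pos_iff.1 h')
        rcases this with ⟨_, h5⟩ | ⟨h5, _⟩
        · linarith
        · exact not_lt.2 h5.le
      · intro h'
        have h5 : ρ i < 0 := lt_of_le_of_ne (not_lt.1 h') h3
        exact mul_pos_of_neg_of_neg h5 a
    rw [e1, e2, Finset.card_filter_add_card_filter_not]
    simp
  have hlt : M' - 1 < M + 1 := by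
    have := hup (0 : Fin (2 * k + 1))
    have := hlo (0 : Fin (2 * k + 1))
    linarith
  obtain ⟨t, ht1, ht2⟩ := bisect (ρ := ρ) hτ (k + 1) _ (M' - 1) (M + 1) hlt
    (fun i => (hlo i).ne') (fun i => (hup i).ne) le_rfl (by
      by_cases h : k + 1 ≤ posCnt ρ τ (M' - 1)
      · left
        exact ⟨h, by omega⟩
      · right
        exact ⟨by omega, by omega⟩)
  refine ⟨zt t, ?_, ?_⟩
  · intro i
    rw [hzt]
    exact mul_ne_zero (hz₀' i) (sub_ne_zero.2 (ht1 i))
  · rw [← ht2]
    unfold posCnt
    congr 1
    apply Finset.filter_congr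
    intro i _
    rw [hzt]

end Vale.Agent.P040S
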