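import Vale.Agent.Lib.P040S.Alive

/-!
Trajectories of alive pairs: shape of the ranks along a trajectory, finite lifetime,
uniqueness and existence of the trajectory through an event.
-/

namespace Vale.Agent.P040S

open Finset

namespace Sweep

variable (S : Sweep)

/-- A chain of alive pairs on the time interval `[a, c]`. -/
structure Chain (q : ℕ → ℕ × ℕ) (a c : ℕ) : Prop where
  alive : ∀ t, a ≤ t → t ≤ c → S.Al t (q t)
  step : ∀ t, a ≤ t → t < c → q (t + 1) = S.T t (q t)

variable {S}

/-- The values of `s` increase in rank away from the current time, the values of `e` decrease. -/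
theorem Chain.shape {q : ℕ → ℕ × ℕ} {a c : ℕ} (hq : S.Chain q a c) (hlen : c - a ≤ S.N)
    {τ t : ℕ} (h1 : a ≤ τ) (h2 : τ ≤ c) (h3 : a ≤ t) (h4 : t ≤ c) :
    S.rk τ (q τ).1 ≤ S.rk τ (q t).1 ∧ S.rk τ (q t).2 ≤ S.rk τ (q τ).2 := by
  rcases le_total τ t with hτt | hτt
  · induction t, hτt using Nat.le_induction with
    | base => exact ⟨le_rfl, le_rfl⟩
    | succ t ht ih =>
      have ih' := ih (by omega) (by omega)
      have hs := hq.step t (by omega) (by omega)
      have hob := S.order_before (t := τ) (t' := t) ht (by omega)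
      rcases hqt : q t with ⟨s, e⟩
      rw [hqt] at hs ih'
      rw [hs]
      simp only at ih' ⊢
      rcases S.T_cases t s e with h5 | ⟨_, h6, _, h5⟩ | ⟨_, h6, _, h5⟩ <;> rw [h5] <;> simp only
      · exact ih'
      · subst h6
        exact ⟨by omega, ih'.2⟩
      · subst h6
        exact ⟨ih'.1, by omega⟩
  · obtain ⟨d, rfl⟩ := Nat.exists_eq_add_of_le hτt
    clear hτt
    induction d generalizing t with
    | zero => exact ⟨le_rfl, le_rfl⟩
    | succ d ih =>
      have ih' := ih (t := t + 1) (by omega) (by omega) (by omega) (by omega)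
      have e1 : t + 1 + d = t + (d + 1) := by ring
      rw [e1] at ih'
      have hs := hq.step t (by omega) (by omega)
      have hoa := S.order_after (t := t) (t' := t + (d + 1)) (by omega) (by omega)
      rcases hqt : q t with ⟨s, e⟩
      rw [hs, hqt] at ih'
      simp only at ih' ⊢
      rcases S.T_cases t s e with h5 | ⟨_, h6, _, h5⟩ | ⟨_, h6, _, h5⟩ <;> rw [h5] at ih' <;>
        simp only at ih'
      · exact ih'
      · subst h6
        exact ⟨by omega, ih'.2⟩
      · subst h6
        exact ⟨ih'.1, by omega⟩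

/-- A chain alive on `N` consecutive times ends with the death of its pair. -/
theorem Chain.last {q : ℕ → ℕ × ℕ} {a c : ℕ} (hq : S.Chain q a c) (hc : c + 1 = a + S.N) :
    q c = (S.ey c, S.ex c) := by
  have hN := S.hN
  have h1 := hq.shape (τ := a) (t := c) (by omega) (by omega) (by omega) (by omega) (by omega)
  have h2 := hq.alive a (by omega) (by omega)
  have h3 := hq.alive c (by omega) (by omega)
  rcases hqc : q c with ⟨s, e⟩
  rw [hqc] at h1 h3
  simp only at h1
  obtain ⟨hs, he, hr, _⟩ := h3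
  obtain ⟨_, _, hr2, _⟩ := h2
  simp only at hs he hr hr2
  have hne : s ≠ e := by
    rintro rfl
    omega
  obtain ⟨t, ht1, ht2, ht3⟩ := S.cover a s e hs he hne
  rcases Sym2.eq_iff.1 ht3 with ⟨h4, h5⟩ | ⟨h4, h5⟩
  · have := S.order_before (t := a) (t' := t) ht1 (by omega)
    rw [h4, h5] at this
    omega
  · by_cases htc : t < c
    · have := S.order_after (t := t) (t' := c) htc (by omega)
      rw [h4, h5] at this
      omega
    · have : t = c := by omega
      subst this
      rw [h4, h5]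

/-- The trajectory of the pair born at `b`, in absolute time. -/
def cu (S : Sweep) (b : ℕ) : ℕ → ℕ × ℕ
  | 0 => (S.ex b, S.ey b)
  | τ + 1 => if τ ≤ b then (S.ex b, S.ey b) else S.T τ (cu S b τ)

theorem cu_of_le {b τ : ℕ} (h : τ ≤ b + 1) : S.cu b τ = (S.ex b, S.ey b) := by
  cases τ with
  | zero => rfl
  | succ τ =>
    have : τ ≤ b := by omega
    simp [cu, this]

theorem cu_succ {b τ : ℕ} (h : b + 1 ≤ τ) : S.cu b (τ + 1) = S.T τ (S.cu b τ) := by
  have : ¬ τ ≤ b := by omega
  simp [cu, this]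

theorem cu_lt (b τ : ℕ) : (S.cu b τ).1 < S.m ∧ (S.cu b τ).2 < S.m := by
  induction τ with
  | zero => exact ⟨S.ex_lt b, S.ey_lt b⟩
  | succ τ ih =>
    by_cases h : τ ≤ b
    · rw [cu_of_le (by omega)]
      exact ⟨S.ex_lt b, S.ey_lt b⟩
    · rw [cu_succ (by omega)]
      rcases hc : S.cu b τ with ⟨s, e⟩
      rw [hc] at ih
      rcases S.T_cases τ s e with h5 | ⟨_, _, _, h5⟩ | ⟨_, _, _, h5⟩ <;> rw [h5]
      · exact ih
      · exact ⟨S.ey_lt τ, ih.2⟩
      · exact ⟨ih.1, S.ex_lt τ⟩

variable (S) in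
/-- The pair born at `b` is alive up to time `τ`. -/
def Lives (b τ : ℕ) : Prop := ∀ t, b + 1 ≤ t → t ≤ τ → S.Al t (S.cu b t)

theorem Lives.chain {b τ : ℕ} (h : S.Lives b τ) : S.Chain (S.cu b) (b + 1) τ :=
  ⟨h, fun _ h1 _ => cu_succ h1⟩

theorem lives_first {b : ℕ} (hb : S.Birth b) : S.Lives b (b + 1) := by
  intro t h1 h2
  have : t = b + 1 := by omega
  subst this
  rw [cu_of_le le_rfl]
  exact S.birth_alive hb

theorem birth_not_alive_rv {b : ℕ} (hb : S.Birth b) : ¬ S.Al (b + S.N) (S.ex b, S.ey b) := by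
  intro h
  have h2 := S.Al_rv.1 h
  have := hb.2
  have := h2.2.2.2
  simp only at *
  omega

/-- The trajectory dies within the period. -/
theorem exists_death {b : ℕ} (hb : S.Birth b) :
    ∃ d, b + 1 ≤ d ∧ d < b + S.N ∧ S.Lives b d ∧ S.cu b d = (S.ey d, S.ex d) := by
  have hN := S.hN
  have hnot : ¬ S.Lives b (b + S.N) := by
    intro hl
    have h1 := Chain.last (S := S) hl.chain (by omega)
    have h2 := hl (b + S.N) (by omega) le_rfl
    rw [h1, S.rv_x, S.rv_y] at h2
    exact birth_not_alive_rv hb h2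
  have key : ∀ j, ¬ S.Lives b (b + 1 + j) →
      ∃ d, b + 1 ≤ d ∧ d < b + 1 + j ∧ S.Lives b d ∧ ¬ S.Al (d + 1) (S.cu b (d + 1)) := by
    intro j
    induction j with
    | zero =>
      intro h
      exact absurd (lives_first hb) h
    | succ j ih =>
      intro h
      by_cases hl : S.Lives b (b + 1 + j)
      · refine ⟨b + 1 + j, by omega, by omega, hl, ?_⟩
        intro ha
        apply h
        intro t h1 h2
        by_cases h3 : t ≤ b + 1 + j
        · exact hl t h1 h3
        · have : t = b + 1 + j + 1 := by omega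
          subst this
          exact ha
      · obtain ⟨d, h1, h2, h3, h4⟩ := ih hl
        exact ⟨d, h1, by omega, h3, h4⟩
  have e : b + S.N = b + 1 + (S.N - 1) := by omega
  rw [e] at hnot
  obtain ⟨d, h1, h2, h3, h4⟩ := key _ hnot
  refine ⟨d, h1, by omega, h3, ?_⟩
  by_contra hne
  apply h4
  rw [cu_succ h1]
  rcases hc : S.cu b d with ⟨s, e⟩
  have := h3 d h1 le_rfl
  rw [hc] at this hne
  exact S.T_alive this hne

variable (S) in
/-- The event `τ` lies on the trajectory born at `b`. -/
def On (b τ : ℕ) : Prop :=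
  τ = b ∨ (b < τ ∧ S.Lives b τ ∧ S.Touch τ (S.cu b τ))

/-- Two trajectories do not meet. -/
theorem cu_ne {b₁ b₂ τ : ℕ} (hb₂ : S.Birth b₂) (h12 : b₁ < b₂) (h2 : b₂ < τ)
    (l1 : S.Lives b₁ τ) (l2 : S.Lives b₂ τ) (he : S.cu b₁ τ = S.cu b₂ τ) : False := by
  have key : ∀ d, b₂ + 1 + d ≤ τ → τ - d = b₂ + 1 → S.cu b₁ (b₂ + 1) = S.cu b₂ (b₂ + 1) := by
    intro d
    induction d generalizing τ with
    | zero =>
      intro _ h
      have : τ = b₂ + 1 := by omega
      subst this
      exact he
    | succ d ih =>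
      intro _ h3
      have hτ : τ = (τ - 1) + 1 := by omega
      have i1 := l1 (τ - 1) (by omega) (by omega)
      have i2 := l2 (τ - 1) (by omega) (by omega)
      have e1 := cu_succ (S := S) (b := b₁) (τ := τ - 1) (by omega)
      have e2 := cu_succ (S := S) (b := b₂) (τ := τ - 1) (by omega)
      rw [← hτ] at e1 e2
      have e3 : S.cu b₁ (τ - 1) = S.cu b₂ (τ - 1) := by
        apply S.T_inj i1 i2
        rw [← e1, ← e2, he]
      exact ih (τ := τ - 1) (by omega) (fun t ht1 ht2 => l1 t ht1 (by omega))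
        (fun t ht1 ht2 => l2 t ht1 (by omega)) e3 (by omega) (by omega)
  have h3 := key (τ - (b₂ + 1)) (by omega) (by omega)
  rw [cu_succ (by omega), S.T_mixed hb₂.1, cu_of_le (τ := b₂ + 1) le_rfl] at h3
  have h4 := l1 b₂ (by omega) (by omega)
  rw [h3] at h4
  have := h4.2.2.1
  have := S.adj b₂
  simp only at *
  omega

/-- Only one trajectory passes through an event. -/
theorem on_unique {b₁ b₂ τ : ℕ} (hb₁ : S.Birth b₁) (hb₂ : S.Birth b₂) (h1 : S.On b₁ τ)
    (h2 : S.On b₂ τ) : b₁ = b₂ := by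
  have side : ∀ {b b' : ℕ}, S.Birth b → b' < b → S.Lives b' b → ¬ S.Touch b (S.cu b' b) := by
    intro b b' hb _ hl
    exact S.birth_no_touch hb (hl b (by omega) le_rfl)
  rcases h1 with rfl | ⟨a1, a2, a3⟩ <;> rcases h2 with h2 | ⟨b1, b2, b3⟩
  · exact h2
  · exact absurd b3 (S.birth_no_touch hb₁ (b2 τ (by omega) le_rfl))
  · subst h2
    exact absurd a3 (S.birth_no_touch hb₂ (a2 τ (by omega) le_rfl))
  · have he := S.touch_unique (a2 τ (by omega) le_rfl) (b2 τ (by omega) le_rfl) a3 b3
    rcases lt_trichotomy b₁ b₂ with h | h | h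
    · exact (cu_ne hb₂ h b1 a2 b2 he).elim
    · exact h
    · exact (cu_ne hb₁ h a1 b2 a2 he.symm).elim

/-! ### Reversal of trajectories -/

theorem cu_rv {b τ : ℕ} (h : b + 1 ≤ τ) :
    S.cu (b + S.N) (τ + S.N) = ((S.cu b τ).2, (S.cu b τ).1) := by
  induction τ, h using Nat.le_induction with
  | base =>
    rw [cu_of_le (S := S) (b := b + S.N) (τ := b + 1 + S.N) (by omega), cu_of_le le_rfl, S.rv_x, S.rv_y]
  | succ τ hτ ih =>
    have e : τ + 1 + S.N = τ + S.N + 1 := by ring
    rw [e, cu_succ (by omega), ih, cu_succ hτ]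
    rcases hc : S.cu b τ with ⟨s, e⟩
    have := cu_lt (S := S) b τ
    rw [hc] at this
    exact S.T_rv this.1 this.2

theorem lives_rv {b τ : ℕ} (h : S.Lives b τ) : S.Lives (b + S.N) (τ + S.N) := by
  intro t h1 h2
  obtain ⟨t', rfl⟩ : ∃ t', t = t' + S.N := ⟨t - S.N, by omega⟩
  rw [cu_rv (by omega)]
  rcases hc : S.cu b t' with ⟨s, e⟩
  have := h t' (by omega) (by omega)
  rw [hc] at this
  exact S.Al_rv.2 this

theorem lives_of_rv {b τ : ℕ} (h : S.Lives (b + S.N) (τ + S.N)) : S.Lives b τ := by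
  intro t h1 h2
  have := h (t + S.N) (by omega) (by omega)
  rw [cu_rv (by omega)] at this
  rcases hc : S.cu b t with ⟨s, e⟩
  rw [hc] at this
  exact S.Al_rv.1 this

theorem on_rv {b τ : ℕ} : S.On (b + S.N) (τ + S.N) ↔ S.On b τ := by
  constructor
  · rintro (h | ⟨h1, h2, h3⟩)
    · left
      omega
    · right
      refine ⟨by omega, lives_of_rv h2, ?_⟩
      rw [cu_rv (by omega)] at h3
      rcases hc : S.cu b τ with ⟨s, e⟩
      have := cu_lt (S := S) b τ
      rw [hc] at this h3
      exact (S.Touch_rv this.1 this.2).1 h3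
  · rintro (h | ⟨h1, h2, h3⟩)
    · left
      omega
    · right
      refine ⟨by omega, lives_rv h2, ?_⟩
      rw [cu_rv (by omega)]
      rcases hc : S.cu b τ with ⟨s, e⟩
      have := cu_lt (S := S) b τ
      rw [hc] at this h3
      exact (S.Touch_rv this.1 this.2).2 h3

/-! ### Backward tracing -/

theorem back_aux {τ : ℕ} {p : ℕ × ℕ} (hp : S.Al τ p) (j : ℕ) (hj : j ≤ τ) :
    (∃ b, τ - j ≤ b ∧ b < τ ∧ S.Birth b ∧ S.Lives b τ ∧ S.cu b τ = p) ∨
    (∃ q, S.Chain q (τ - j) τ ∧ q τ = p) := by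
  induction j with
  | zero =>
    right
    refine ⟨fun _ => p, ⟨?_, ?_⟩, rfl⟩
    · intro t h1 h2
      have : t = τ := by omega
      subst this
      exact hp
    · intro t h1 h2
      omega
  | succ j ih =>
    rcases ih (by omega) with ⟨b, h1, h2, h3, h4, h5⟩ | ⟨q, hq, hqτ⟩
    · left
      exact ⟨b, by omega, h2, h3, h4, h5⟩
    · set t := τ - (j + 1) with ht
      have ht1 : τ - j = t + 1 := by omega
      rw [ht1] at hq
      have h0 := hq.alive (t + 1) le_rfl (by omega)
      rcases hqt : q (t + 1) with ⟨s, e⟩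
      rw [hqt] at h0
      rcases S.T_pre h0 with ⟨hb, he⟩ | ⟨p', hp1, hp2⟩
      · left
        have key : ∀ t', t + 1 ≤ t' → t' ≤ τ → S.cu t t' = q t' := by
          intro t' h1
          induction t', h1 using Nat.le_induction with
          | base =>
            intro _
            rw [cu_of_le le_rfl, hqt, he]
          | succ t' h1 ih =>
            intro h2
            rw [cu_succ h1, ih (by omega), hq.step t' h1 (by omega)]
        refine ⟨t, le_rfl, by omega, hb, ?_, ?_⟩
        · intro t' h1 h2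
          rw [key t' h1 h2]
          exact hq.alive t' h1 h2
        · rw [key τ (by omega) le_rfl, hqτ]
      · right
        refine ⟨Function.update q t p', ⟨?_, ?_⟩, ?_⟩
        · intro t' h1 h2
          by_cases h3 : t' = t
          · subst h3
            simpa using hp1
          · rw [Function.update_of_ne h3]
            exact hq.alive t' (by omega) h2
        · intro t' h1 h2
          by_cases h3 : t' = t
          · subst h3
            rw [Function.update_self, Function.update_of_ne (by omega), hqt, hp2]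
          · rw [Function.update_of_ne h3, Function.update_of_ne (by omega)]
            exact hq.step t' (by omega) h2
        · rw [Function.update_of_ne (by omega)]
          exact hqτ

/-- Each alive pair at time `τ ≥ N` lies on a trajectory born within the last period. -/
theorem back_trace {τ : ℕ} {p : ℕ × ℕ} (hp : S.Al τ p) (hτ : S.N ≤ τ) :
    ∃ b, τ - S.N ≤ b ∧ b < τ ∧ S.Birth b ∧ S.Lives b τ ∧ S.cu b τ = p := by
  have hN := S.hN
  rcases back_aux hp S.N hτ with h | ⟨q, hq, hqτ⟩
  · exact h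
  · exfalso
    have hq' : S.Chain q (τ - S.N) (τ - 1) :=
      ⟨fun t h1 h2 => hq.alive t h1 (by omega), fun t h1 h2 => hq.step t h1 (by omega)⟩
    have h1 := hq'.last (by omega)
    have h2 := hq.step (τ - 1) (by omega) (by omega)
    have h3 := hq.alive (τ - 1) (by omega) (by omega)
    have h4 := hq.alive τ (by omega) le_rfl
    rw [h1] at h2 h3
    rw [S.T_death h3] at h2
    have e : τ - 1 + 1 = τ := by omega
    rw [e] at h2
    rw [h2] at h4
    have := S.death_not_alive (τ := τ - 1)
    rw [e] at this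
    exact this h4

/-- Each event at time `τ ≥ N` lies on a trajectory. -/
theorem exists_on {τ : ℕ} (hτ : S.N ≤ τ) : ∃ b, τ - S.N ≤ b ∧ b ≤ τ ∧ S.Birth b ∧ S.On b τ := by
  by_cases hb : S.Birth τ
  · exact ⟨τ, by omega, le_rfl, hb, Or.inl rfl⟩
  · obtain ⟨p, h1, h2⟩ := S.exists_touch hb
    obtain ⟨b, h3, h4, h5, h6, h7⟩ := back_trace h1 hτ
    exact ⟨b, h3, h4.le, h5, Or.inr ⟨h4, h6, by rw [h7]; exact h2⟩⟩

/-- Events with the same pair within two periods are equal or one period apart. -/
theorem class_eq {τ τ' : ℕ} (h1 : τ ≤ τ') (h2 : τ' < τ + 2 * S.N)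
    (h : s(S.ex τ, S.ey τ) = s(S.ex τ', S.ey τ')) : τ' = τ ∨ τ' = τ + S.N := by
  by_cases h3 : τ' < τ + S.N
  · left
    by_contra h4
    obtain ⟨d, rfl⟩ := Nat.exists_eq_add_of_le h1
    exact S.uq τ d (by omega) (by omega) h
  · right
    obtain ⟨d, rfl⟩ : ∃ d, τ' = τ + d + S.N := ⟨τ' - τ - S.N, by omega⟩
    rw [S.rv_x, S.rv_y] at h
    by_contra h4
    exact S.uq τ d (by omega) (by omega) (h.trans Sym2.eq_swap)

end Sweep

end Vale.Agent.P040S
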