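import Vale.Agent.Lib.P040S.OfEv2
import Vale.Agent.Lib.P040S.Balance
import Vale.Agent.Lib.P040D.DecompFin

/-!
The decomposition of the complete graph on an odd family of vectors in general position into
edge disjoint convex spherical polygons, with total excess the Zarankiewicz number.
-/

namespace Vale.Agent.P040S

open Finset
open Vale.Agent.P040 Vale.Agent.P040D

/-- The chart associated with a functional `z` and two further functionals. -/
noncomputable def hat (f₁ f₂ z a : V3) : ℝ × ℝ := (dot f₁ a / dot z a, dot f₂ a / dot z a)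

theorem chart_aux (xa ya ra xb yb rb xd yd rd : ℝ) (ha : ra ≠ 0) (hb : rb ≠ 0) (hd : rd ≠ 0) :
    ra * rb * rd * det3 (xa / ra, ya / ra) (xb / rb, yb / rb) (xd / rd, yd / rd) =
      xa * (yb * rd - rb * yd) - ya * (xb * rd - rb * xd) + ra * (xb * yd - yb * xd) := by
  unfold det3
  simp only
  field_simp
  ring

theorem chart_id (f₁ f₂ z a b d : V3) (ha : dot z a ≠ 0) (hb : dot z b ≠ 0) (hd : dot z d ≠ 0) :
    det3D f₁ f₂ z * det3D a b d =
      dot z a * dot z b * dot z d * det3 (hat f₁ f₂ z a) (hat f₁ f₂ z b) (hat f₁ f₂ z d) := by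
  unfold hat
  rw [chart_aux _ _ _ _ _ _ _ _ _ ha hb hd]
  simp only [det3D, dot]
  ring

/-- Two functionals completing `z` to a basis. -/
theorem exists_compl {z : V3} (hz : z ≠ 0) : ∃ f₁ f₂ : V3, det3D f₁ f₂ z ≠ 0 := by
  by_cases h1 : z.1 = 0
  · by_cases h2 : z.2.1 = 0
    · have h3 : z.2.2 ≠ 0 := by
        intro h3
        exact hz (Prod.ext h1 (Prod.ext h2 h3))
      refine ⟨(1, 0, 0), (0, 1, 0), ?_⟩
      simpa [det3D] using h3
    · refine ⟨(0, 0, 1), (1, 0, 0), ?_⟩
      simpa [det3D] using h2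
  · refine ⟨(0, 1, 0), (0, 0, 1), ?_⟩
    simpa [det3D] using h1

/-- Sign of a boolean as a real number. -/
def gf (b : Bool) : ℝ := if b then 1 else -1

theorem gf_sq (b : Bool) : gf b * gf b = 1 := by
  cases b <;> simp [gf]

theorem gf_ne {a b : Bool} (h : a ≠ b) : gf a * gf b = -1 := by
  cases a <;> cases b <;> simp_all [gf]

theorem gf_pos {R : ℝ} (h : R ≠ 0) : 0 < gf (decide (0 < R)) * R := by
  by_cases h1 : 0 < R
  · simp [gf, h1]
  · have : R < 0 := lt_of_le_of_ne (not_lt.1 h1) h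
    simp [gf, h1, this]

/-- Sign computation at a side of a polygon. -/
theorem sign_core {K D R₁ R₂ R₃ d g₀ g₁ g₂ g₃ : ℝ} (hK : K * D = R₁ * R₂ * R₃ * d)
    (h₁ : 0 < g₁ * R₁) (h₂ : 0 < g₂ * R₂) (h₃ : 0 < g₃ * R₃) (s₁ : g₁ * g₁ = 1) (s₂ : g₂ * g₂ = 1)
    (s₃ : g₃ * g₃ = 1) (hq : 0 < (g₁ * g₂) * (g₀ * g₃) * d) : 0 < g₀ * (K * D) := by
  have e : g₀ * (K * D) = ((g₁ * R₁) * (g₂ * R₂) * (g₃ * R₃)) * ((g₁ * g₂) * (g₀ * g₃) * d) := by
    rw [hK]
    have e1 : R₁ = g₁ * g₁ * R₁ := by rw [s₁, one_mul]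
    have e2 : R₂ = g₂ * g₂ * R₂ := by rw [s₂, one_mul]
    have e3 : R₃ = g₃ * g₃ * R₃ := by rw [s₃, one_mul]
    calc g₀ * (R₁ * R₂ * R₃ * d) = g₀ * ((g₁ * g₁ * R₁) * (g₂ * g₂ * R₂) * (g₃ * g₃ * R₃) * d) := by
          rw [← e1, ← e2, ← e3]
      _ = _ := by ring
  rw [e]
  exact mul_pos (mul_pos (mul_pos h₁ h₂) h₃) hq

theorem exists_third {k : ℕ} (hk : 0 < k) (i j : Fin (2 * k + 1)) :
    ∃ l : Fin (2 * k + 1), l ≠ i ∧ l ≠ j := by
  have hc : ({i, j} : Finset (Fin (2 * k + 1))).card < (univ : Finset (Fin (2 * k + 1))).card := by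
    refine lt_of_le_of_lt Finset.card_le_two ?_
    rw [Finset.card_univ, Fintype.card_fin]
    omega
  obtain ⟨l, _, hl⟩ := Finset.exists_mem_notMem_of_card_lt_card hc
  refine ⟨l, ?_, ?_⟩
  · intro h
    exact hl (by simp [h])
  · intro h
    exact hl (by simp [h])

/-- The decomposition. -/
theorem decompS (k : ℕ) (c : Fin (2 * k + 1) → V3) (hgp : GP3 c) :
    ∃ (ι : Type) (_ : Fintype ι) (n : ι → ℕ) (v : ∀ t, Fin (n t + 3) → Fin (2 * k + 1)),
      (∀ t, ∃ ω : ℝ, (ω = 1 ∨ ω = -1) ∧ ∀ i j, j ≠ i → j ≠ i + 1 →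
        0 < ω * det3D (c (v t i)) (c (v t (i + 1))) (c (v t j))) ∧
      Function.Injective (fun x : (Σ t, Fin (n t + 3)) => s(v x.1 x.2, v x.1 (x.2 + 1))) ∧
      k * k ≤ ∑ t, (n t + 1) := by
  classical
  rcases Nat.eq_zero_or_pos k with rfl | hk
  · exact ⟨Empty, inferInstance, fun _ => 0, fun t => t.elim, fun t => t.elim,
      fun x => x.1.elim, by simp⟩
  -- nonzero and pairwise independent
  have h0 : ∀ i, c i ≠ 0 := by
    intro i h
    obtain ⟨j, hj, _⟩ := exists_third hk i i
    obtain ⟨l, hl1, hl2⟩ := exists_third hk i j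
    apply hgp i j l (Ne.symm hj) (Ne.symm hl2) (Ne.symm hl1)
    rw [h]
    simp [det3D]
  have hind : ∀ i j, i ≠ j → ∀ a b : ℝ, a ≠ 0 → b ≠ 0 → a • c i ≠ b • c j := by
    intro i j hij a b ha _ h
    obtain ⟨l, hl1, hl2⟩ := exists_third hk i j
    apply hgp i j l hij (Ne.symm hl2) (Ne.symm hl1)
    have e1 := congrArg Prod.fst h
    have e2 := congrArg (fun p : V3 => p.2.1) h
    have e3 := congrArg (fun p : V3 => p.2.2) h
    simp only [Prod.smul_fst, Prod.smul_snd, smul_eq_mul] at e1 e2 e3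
    have : a * det3D (c i) (c j) (c l) = 0 := by
      unfold det3D
      linear_combination ((c j).2.1 * (c l).2.2 - (c j).2.2 * (c l).2.1) * e1 -
        ((c j).1 * (c l).2.2 - (c j).2.2 * (c l).1) * e2 +
        ((c j).1 * (c l).2.1 - (c j).2.1 * (c l).1) * e3
    exact (mul_eq_zero.1 this).resolve_left ha
  obtain ⟨z, hz, hzc⟩ := exists_balanced c h0 hind
  have hz0 : z ≠ 0 := by
    intro h
    apply hz 0
    rw [h]
    simp [dot]
  obtain ⟨f₁, f₂, hK⟩ := exists_compl hz0
  set K := det3D f₁ f₂ z with hKdef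
  let P : Fin (2 * k + 1) → ℝ × ℝ := fun i => hat f₁ f₂ z (c i)
  have hid : ∀ i j l, K * det3D (c i) (c j) (c l) =
      dot z (c i) * dot z (c j) * dot z (c l) * det3 (P i) (P j) (P l) :=
    fun i j l => chart_id f₁ f₂ z _ _ _ (hz i) (hz j) (hz l)
  have hP : ∀ i j l, i ≠ j → j ≠ l → i ≠ l → det3 (P i) (P j) (P l) ≠ 0 := by
    intro i j l h1 h2 h3 h
    have := hid i j l
    rw [h, mul_zero] at this
    exact hgp i j l h1 h2 h3 ((mul_eq_zero.1 this).resolve_left hK)
  have hPinj : Function.Injective P := by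
    intro i j hij
    by_contra hne
    obtain ⟨l, hl1, hl2⟩ := exists_third hk i j
    apply hP i j l hne (Ne.symm hl2) (Ne.symm hl1)
    unfold det3
    rw [hij]
    ring
  obtain ⟨sl, hl⟩ := exists_shear P hPinj
  obtain ⟨π, hπ⟩ := exists_sort _ hl
  let φ : ℕ → Fin (2 * k + 1) := fun a => π (Fin.ofNat (2 * k + 1) a)
  have hφinj : ∀ a b, a < 2 * k + 1 → b < 2 * k + 1 → φ a = φ b → a = b := by
    intro a b ha hb h
    have h1 := congrArg Fin.val (π.injective h)
    rwa [ofNat_val_of_lt ha, ofNat_val_of_lt hb] at h1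
  have hφsurj : ∀ i, ∃ a, a < 2 * k + 1 ∧ φ a = i := by
    intro i
    refine ⟨(π.symm i).val, (π.symm i).isLt, ?_⟩
    simp only [φ]
    have : Fin.ofNat (2 * k + 1) (π.symm i).val = π.symm i := Fin.ext (ofNat_val_of_lt (π.symm i).isLt)
    rw [this]
    simp
  let c' : ℕ → ℝ × ℝ := fun a => shear sl (P (φ a))
  have hS : Sorted (2 * k + 1) c' := by
    refine ⟨?_, ?_⟩
    · intro a b hab hb
      apply hπ
      rw [Fin.lt_def, ofNat_val_of_lt (by omega), ofNat_val_of_lt hb]
      exact hab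
    · intro a b d ha hb hd h1 h2 h3
      simp only [c', det3_shear]
      exact hP _ _ _ (fun h => h1 (hφinj _ _ ha hb h)) (fun h => h2 (hφinj _ _ hb hd h))
        (fun h => h3 (hφinj _ _ ha hd h))
  let lb : ℕ → Bool := fun a => decide (0 < dot z (c (φ a)))
  have hcount : ∀ Q : Fin (2 * k + 1) → Prop,
      ((range (2 * k + 1)).filter fun a => Q (φ a)).card = (univ.filter Q).card := by
    intro Q
    refine Finset.card_bij (fun a _ => φ a) ?_ ?_ ?_
    · intro a ha
      simp only [Finset.mem_filter, Finset.mem_univ, true_and] at ha ⊢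
      exact ha.2
    · intro a ha b hb h
      simp only [Finset.mem_filter, Finset.mem_range] at ha hb
      exact hφinj a b ha.1 hb.1 h
    · intro i hi
      simp only [Finset.mem_filter, Finset.mem_univ, true_and] at hi
      obtain ⟨a, ha, rfl⟩ := hφsurj i
      exact ⟨a, by simp [ha, hi], rfl⟩
  have hA : ((range (2 * k + 1)).filter fun a => lb a = true).card = k + 1 := by
    have := hcount fun i => 0 < dot z (c i)
    rw [hzc] at this
    rw [← this]
    congr 1
    apply Finset.filter_congr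
    intro a _
    simp [lb]
  have hC : ((range (2 * k + 1)).filter fun a => lb a = false).card = k := by
    have h1 : ((range (2 * k + 1)).filter fun a => lb a = true).card +
        ((range (2 * k + 1)).filter fun a => ¬ lb a = true).card = (range (2 * k + 1)).card :=
      Finset.card_filter_add_card_filter_not _
    rw [hA, Finset.card_range] at h1
    have h2 : ((range (2 * k + 1)).filter fun a => lb a = false) =
        ((range (2 * k + 1)).filter fun a => ¬ lb a = true) := by
      apply Finset.filter_congr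
      intro a _
      simp
    rw [h2]
    omega
  obtain ⟨S, hm, hSk, hlb, hsign⟩ := exists_sweep hk hS lb hA hC
  obtain ⟨ι, _, n, w, hw1, hw2, hw3, hw4, hw5⟩ := sweep_polys S
  rw [hSk] at hw5
  rw [hm] at hw1
  rw [hlb] at hw3
  have hdet : ∀ a b d, det3 (c' a) (c' b) (c' d) = det3 (P (φ a)) (P (φ b)) (P (φ d)) := by
    intro a b d
    simp only [c', det3_shear]
  refine ⟨ι, inferInstance, n, fun t i => φ (w t i), ?_, ?_, hw5⟩
  · intro t
    let g₀ : ℝ := gf (lb (w t 0))
    have hg₀ : g₀ = 1 ∨ g₀ = -1 := by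
      simp only [g₀, gf]
      split_ifs <;> simp
    refine ⟨if 0 < K then g₀ else -g₀, ?_, ?_⟩
    · split_ifs
      · exact hg₀
      · rcases hg₀ with h | h <;> rw [h] <;> simp
    intro i j hji hji1
    obtain ⟨τ, hτ1, hτ2⟩ := hw3 t i
    have hz1 : w t j ≠ w t i := (hw2 t).ne hji
    have hz2 : w t j ≠ w t (i + 1) := (hw2 t).ne hji1
    have hzm := hw1 t j
    have hgg : ∀ a, 0 < gf (lb a) * dot z (c (φ a)) := fun a => gf_pos (hz _)
    -- the value of the product with the sign of the chart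
    have key : 0 < g₀ * (K * det3D (c (φ (w t i))) (c (φ (w t (i + 1)))) (c (φ (w t j)))) := by
      have hq := hτ2 j hji hji1
      have hid' := hid (φ (w t i)) (φ (w t (i + 1))) (φ (w t j))
      refine sign_core hid' (hgg (w t i)) (hgg (w t (i + 1))) (hgg (w t j))
        (gf_sq _) (gf_sq _) (gf_sq _) ?_
      -- sign of the planar determinant
      rcases hτ1 with ⟨hl0, e1, e2⟩ | ⟨hl0, e1, e2⟩
      · -- same label side
        have hzx : w t j ≠ S.ex τ := by rw [← e1]; exact hz1
        have hzy : w t j ≠ S.ey τ := by rw [← e2]; exact hz2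
        obtain ⟨s1, s2⟩ := hsign τ (w t j) hzm hzx hzy
        rw [hdet] at s1 s2
        rw [hlb] at hl0
        rw [e1, e2]
        have e3 : gf (lb (S.ex τ)) * gf (lb (S.ey τ)) = 1 := by
          rw [hl0]
          exact gf_sq _
        rw [e3, one_mul]
        rcases hq with ⟨h5, h6⟩ | ⟨h5, h6⟩
        · have e4 : g₀ * gf (lb (w t j)) = 1 := by
            simp only [g₀]
            rw [← h5]
            exact gf_sq _
          rw [e4, one_mul]
          exact s1 h6
        · have e4 : g₀ * gf (lb (w t j)) = -1 := by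
            simp only [g₀]
            exact gf_ne (Ne.symm h5)
          rw [e4]
          have := s2 h6
          linarith
      · -- mixed side
        have hzx : w t j ≠ S.ex τ := by rw [← e2]; exact hz2
        have hzy : w t j ≠ S.ey τ := by rw [← e1]; exact hz1
        obtain ⟨s1, s2⟩ := hsign τ (w t j) hzm hzx hzy
        rw [hdet] at s1 s2
        rw [hlb] at hl0
        rw [e1, e2]
        have e3 : gf (lb (S.ey τ)) * gf (lb (S.ex τ)) = -1 := gf_ne (Ne.symm hl0)
        have e5 : det3 (P (φ (S.ey τ))) (P (φ (S.ex τ))) (P (φ (w t j))) =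
            - det3 (P (φ (S.ex τ))) (P (φ (S.ey τ))) (P (φ (w t j))) := by
          unfold det3
          ring
        rw [e3, e5]
        rcases hq with ⟨h5, h6⟩ | ⟨h5, h6⟩
        · have e4 : g₀ * gf (lb (w t j)) = 1 := by
            simp only [g₀]
            rw [← h5]
            exact gf_sq _
          rw [e4]
          have := s1 h6
          linarith
        · have e4 : g₀ * gf (lb (w t j)) = -1 := by
            simp only [g₀]
            exact gf_ne (Ne.symm h5)
          rw [e4]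
          have := s2 h6
          linarith
    simp only
    by_cases hKpos : 0 < K
    · rw [if_pos hKpos]
      have : 0 < K * (g₀ * det3D (c (φ (w t i))) (c (φ (w t (i + 1)))) (c (φ (w t j)))) := by
        calc _ < _ := key
          _ = _ := by ring
      exact (pos_iff_pos_of_mul_pos this).1 hKpos
    · rw [if_neg hKpos]
      have hKneg : K < 0 := lt_of_le_of_ne (not_lt.1 hKpos) hK
      have : 0 < (-K) * (-g₀ * det3D (c (φ (w t i))) (c (φ (w t (i + 1)))) (c (φ (w t j)))) := by
        calc _ < _ := key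
          _ = _ := by ring
      exact (pos_iff_pos_of_mul_pos this).1 (by linarith)
  · -- sides
    rintro ⟨t, i⟩ ⟨t', i'⟩ hside
    simp only at hside
    apply hw4
    simp only
    rcases Sym2.eq_iff.1 hside with ⟨a1, a2⟩ | ⟨a1, a2⟩
    · rw [hφinj _ _ (hw1 _ _) (hw1 _ _) a1, hφinj _ _ (hw1 _ _) (hw1 _ _) a2]
    · rw [hφinj _ _ (hw1 _ _) (hw1 _ _) a1, hφinj _ _ (hw1 _ _) (hw1 _ _) a2]
      exact Sym2.eq_swap

end Vale.Agent.P040S
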