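import Vale.Agent.Lib.P040S.Poly

/-!
All polygons of a sweep together: distinct sides and total excess.
-/

namespace Vale.Agent.P040S

open Finset

theorem two_mul_pairs (A : Finset ℕ) :
    2 * ((A ×ˢ A).filter fun p => p.1 < p.2).card = A.card * (A.card - 1) := by
  classical
  set P := (A ×ˢ A).filter fun p => p.1 < p.2 with hP
  set Q := (A ×ˢ A).filter fun p => p.2 < p.1 with hQ
  have h1 : Q.card = P.card := by
    refine Finset.card_bij (fun p _ => p.swap) ?_ ?_ ?_
    · intro p hp
      simp only [hP, hQ, Finset.mem_filter, Finset.mem_product, Prod.fst_swap, Prod.snd_swap] at hp ⊢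
      exact ⟨⟨hp.1.2, hp.1.1⟩, hp.2⟩
    · intro a _ b _ h
      exact Prod.swap_injective h
    · intro p hp
      refine ⟨p.swap, ?_, by simp⟩
      simp only [hP, hQ, Finset.mem_filter, Finset.mem_product, Prod.fst_swap, Prod.snd_swap] at hp ⊢
      exact ⟨⟨hp.1.2, hp.1.1⟩, hp.2⟩
  have h2 : A.offDiag = P ∪ Q := by
    ext ⟨a, b⟩
    simp only [hP, hQ, Finset.mem_offDiag, Finset.mem_union, Finset.mem_filter, Finset.mem_product]
    constructor
    · rintro ⟨h1, h2, h3⟩
      rcases lt_or_gt_of_ne h3 with h4 | h4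
      · exact Or.inl ⟨⟨h1, h2⟩, h4⟩
      · exact Or.inr ⟨⟨h1, h2⟩, h4⟩
    · rintro (⟨⟨h1, h2⟩, h3⟩ | ⟨⟨h1, h2⟩, h3⟩)
      · exact ⟨h1, h2, h3.ne⟩
      · exact ⟨h1, h2, h3.ne'⟩
  have h3 : Disjoint P Q := by
    rw [Finset.disjoint_left]
    intro p hp hq
    simp only [hP, hQ, Finset.mem_filter] at hp hq
    exact lt_asymm hp.2 hq.2
  have h4 := Finset.offDiag_card A
  rw [h2, Finset.card_union_of_disjoint h3, h1] at h4
  have h5 : A.card * (A.card - 1) = A.card * A.card - A.card := by
    rw [Nat.mul_sub, mul_one]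
  rw [h5, ← h4]
  ring

namespace Sweep

variable (S : Sweep)

/-- Same label events in one period. -/
def SL : Finset ℕ := (range S.N).filter fun j => S.lb (S.ex j) = S.lb (S.ey j)

theorem SL_card : S.k * S.k ≤ S.SL.card := by
  classical
  set A := (range S.m).filter fun z => S.lb z = true with hA
  set C := (range S.m).filter fun z => S.lb z = false with hC
  set PA := (A ×ˢ A).filter fun p => p.1 < p.2 with hPA
  set PC := (C ×ˢ C).filter fun p => p.1 < p.2 with hPC
  have h1 : 2 * PA.card = A.card * (A.card - 1) := two_mul_pairs A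
  have h2 : 2 * PC.card = C.card * (C.card - 1) := two_mul_pairs C
  rw [S.card_A] at h1
  rw [S.card_C] at h2
  have hd : Disjoint PA PC := by
    rw [Finset.disjoint_left]
    intro p h3 h4
    simp only [hPA, hPC, hA, hC, Finset.mem_filter, Finset.mem_product, Finset.mem_range] at h3 h4
    have h5 := h3.1.1.2
    have h6 := h4.1.1.2
    rw [h5] at h6
    exact absurd h6 (by simp)
  have hsub : PA ∪ PC ⊆ S.SL.image fun j => (min (S.ex j) (S.ey j), max (S.ex j) (S.ey j)) := by
    intro p hp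
    have hp' : p.1 < p.2 ∧ p.1 < S.m ∧ p.2 < S.m ∧ S.lb p.1 = S.lb p.2 := by
      rw [Finset.mem_union] at hp
      rcases hp with hp | hp
      · simp only [hPA, hA, Finset.mem_filter, Finset.mem_product, Finset.mem_range] at hp
        exact ⟨hp.2, hp.1.1.1, hp.1.2.1, hp.1.1.2.trans hp.1.2.2.symm⟩
      · simp only [hPC, hC, Finset.mem_filter, Finset.mem_product, Finset.mem_range] at hp
        exact ⟨hp.2, hp.1.1.1, hp.1.2.1, hp.1.1.2.trans hp.1.2.2.symm⟩
    obtain ⟨h3, h4, h5, h6⟩ := hp'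
    obtain ⟨t, t1, t2, t3⟩ := S.cover 0 p.1 p.2 h4 h5 h3.ne
    rw [Finset.mem_image]
    refine ⟨t, ?_, ?_⟩
    · simp only [SL, Finset.mem_filter, Finset.mem_range]
      refine ⟨by omega, ?_⟩
      rcases Sym2.eq_iff.1 t3 with ⟨e1, e2⟩ | ⟨e1, e2⟩
      · rw [e1, e2, h6]
      · rw [e1, e2, h6]
    · rcases Sym2.eq_iff.1 t3 with ⟨e1, e2⟩ | ⟨e1, e2⟩
      · rw [e1, e2, min_eq_left h3.le, max_eq_right h3.le]
      · rw [e1, e2, min_eq_right h3.le, max_eq_left h3.le]
  have h7 := (Finset.card_le_card hsub).trans Finset.card_image_le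
  rw [Finset.card_union_of_disjoint hd] at h7
  rcases hk : S.k with _ | j
  · simp
  · rw [hk] at h1 h2
    simp only [Nat.add_sub_cancel] at h1 h2
    nlinarith

end Sweep

open Sweep

/-- The polygons of a sweep. -/
theorem sweep_polys (S : Sweep) :
    ∃ (ι : Type) (_ : Fintype ι) (n : ι → ℕ) (v : ∀ t, Fin (n t + 3) → ℕ),
      (∀ t i, v t i < S.m) ∧ (∀ t, Function.Injective (v t)) ∧
      (∀ t i, ∃ τ, SideAt S τ (v t i) (v t (i + 1)) ∧ ∀ j, j ≠ i → j ≠ i + 1 →
        ((S.lb (v t j) = S.lb (v t 0) ∧ S.rk τ (S.ey τ) < S.rk τ (v t j)) ∨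
         (S.lb (v t j) ≠ S.lb (v t 0) ∧ S.rk τ (v t j) < S.rk τ (S.ex τ)))) ∧
      Function.Injective (fun x : (Σ t, Fin (n t + 3)) => s(v x.1 x.2, v x.1 (x.2 + 1))) ∧
      S.k * S.k ≤ ∑ t, (n t + 1) := by
  classical
  have hN := S.hN
  let I : Finset ℕ := (Ico S.N (2 * S.N)).filter S.Birth
  have hI : ∀ t : I, S.N ≤ t.1 ∧ t.1 < 2 * S.N ∧ S.Birth t.1 := by
    intro t
    have := (Finset.mem_filter.1 t.2)
    exact ⟨(Finset.mem_Ico.1 this.1).1, (Finset.mem_Ico.1 this.1).2, this.2⟩
  choose d hd1 hd2 hd3 hd4 using fun t : I => exists_death (hI t).2.2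
  have Tr : ∀ t : I, S.Traj t.1 (d t) := fun t =>
    ⟨(hI t).2.2, hd1 t, hd2 t, hd3 t, hd4 t⟩
  let L : I → List ℕ := fun t => S.PL t.1 (d t)
  let n : I → ℕ := fun t => (L t).length - 3
  have hlen : ∀ t, (S.Mv t.1 (d t)).card + 2 ≤ (L t).length := fun t => (Tr t).length_ge
  have hmv : ∀ t, 1 ≤ (S.Mv t.1 (d t)).card := fun t => (Tr t).mv_pos
  have hn : ∀ t, (L t).length = n t + 3 := by
    intro t
    have h1 := hlen t
    have h2 := hmv t
    simp only [n]
    omega
  let v : ∀ t, Fin (n t + 3) → ℕ := fun t i => (L t).getD i 0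
  have hmem : ∀ t (i : Fin (n t + 3)), v t i ∈ L t := by
    intro t i
    have h1 : i.val < (L t).length := by
      rw [hn]
      exact i.isLt
    simp only [v]
    rw [List.getD_eq_getElem _ _ h1]
    exact List.getElem_mem h1
  have hvinj : ∀ t, Function.Injective (v t) := by
    intro t i j hij
    have h1 : i.val < (L t).length := by
      rw [hn]
      exact i.isLt
    have h2 : j.val < (L t).length := by
      rw [hn]
      exact j.isLt
    simp only [v] at hij
    rw [List.getD_eq_getElem _ _ h1, List.getD_eq_getElem _ _ h2] at hij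
    exact Fin.ext ((List.Nodup.getElem_inj_iff (Tr t).nodup).1 hij)
  have hv0 : ∀ t, v t 0 = S.ex t.1 := by
    intro t
    have h1 := (Tr t).head
    have h2 : 0 < (L t).length := by
      rw [hn]
      omega
    simp only [v, Fin.val_zero]
    rw [List.getD_eq_getElem _ _ h2]
    have h3 : (L t).head? = some (S.ex t.1) := h1
    rw [List.head?_eq_getElem?, List.getElem?_eq_getElem h2] at h3
    exact Option.some.inj h3
  have hcyc : ∀ t (i : Fin (n t + 3)), S.Rel t.1 (d t) (v t i) (v t (i + 1)) := by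
    intro t i
    refine cyc_of_chain (hn t) ((Tr t).isChain.imp fun _ _ h => h.1) ?_ i
    have h1 : (L t).getLast? = some (S.ey t.1) := (Tr t).last
    have h2 : (L t).head? = some (S.ex t.1) := (Tr t).head
    have h3 : (L t).getD (n t + 2) 0 = S.ey t.1 := by
      rw [List.getLast?_eq_getElem?, hn] at h1
      have h5 : n t + 2 < (L t).length := by
        rw [hn]
        omega
      have e : n t + 3 - 1 = n t + 2 := by omega
      rw [e, List.getElem?_eq_getElem h5] at h1
      rw [List.getD_eq_getElem _ _ h5]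
      exact Option.some.inj h1
    have h4 : (L t).getD 0 0 = S.ex t.1 := by
      have := hv0 t
      simpa [v] using this
    rw [h3, h4]
    refine ⟨t.1, le_rfl, by have := hd1 t; omega, Or.inl rfl, Or.inr ⟨(hI t).2.2.1, rfl, rfl⟩⟩
  -- a side determines its event class
  have hsym : ∀ {τ u w : ℕ}, SideAt S τ u w → s(u, w) = s(S.ex τ, S.ey τ) := by
    rintro τ u w (⟨_, rfl, rfl⟩ | ⟨_, rfl, rfl⟩)
    · rfl
    · exact Sym2.eq_swap
  refine ⟨I, inferInstance, n, v, ?_, hvinj, ?_, ?_, ?_⟩
  · intro t i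
    exact (Tr t).lt (hmem t i)
  · intro t i
    obtain ⟨τ, h1, h2, h3, h4⟩ := hcyc t i
    refine ⟨τ, h4, ?_⟩
    intro j hji hji1
    have ne1 : v t j ≠ v t i := (hvinj t).ne hji
    have ne2 : v t j ≠ v t (i + 1) := (hvinj t).ne hji1
    have z1 : v t j ≠ S.ex τ := by
      rcases h4 with ⟨_, e1, e2⟩ | ⟨_, e1, e2⟩
      · rw [← e1]; exact ne1
      · rw [← e2]; exact ne2
    have z2 : v t j ≠ S.ey τ := by
      rcases h4 with ⟨_, e1, e2⟩ | ⟨_, e1, e2⟩
      · rw [← e2]; exact ne2
      · rw [← e1]; exact ne1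
    have := (Tr t).sign h1 h2 h3 (hmem t j) z1 z2
    rw [hv0]
    exact this
  · -- sides are distinct
    rintro ⟨t, i⟩ ⟨t', i'⟩ hside
    simp only at hside
    obtain ⟨τ, h1, h2, h3, h4⟩ := hcyc t i
    obtain ⟨τ', h1', h2', h3', h4'⟩ := hcyc t' i'
    have e1 := hsym h4
    have e2 := hsym h4'
    rw [e1, e2] at hside
    have ht : t = t' := by
      obtain ⟨b1, b2, b3⟩ := hI t
      obtain ⟨b1', b2', b3'⟩ := hI t'
      have c1 := hd2 t
      have c1' := hd2 t'
      rcases le_total τ τ' with hle | hle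
      · rcases class_eq hle (by omega) hside with rfl | rfl
        · exact Subtype.ext (on_unique b3 b3' h3 h3')
        · have h5 : S.On (t.1 + S.N) (τ + S.N) := on_rv.2 h3
          have := on_unique (S.Birth_rv.2 b3) b3' h5 h3'
          omega
      · rcases class_eq hle (by omega) hside.symm with rfl | rfl
        · exact Subtype.ext (on_unique b3 b3' h3 h3')
        · have h5 : S.On (t'.1 + S.N) (τ' + S.N) := on_rv.2 h3'
          have := on_unique (S.Birth_rv.2 b3') b3 h5 h3
          omega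
    subst ht
    have hs2 : s(v t i, v t (i + 1)) = s(v t i', v t (i' + 1)) := by
      rw [e1, e2, hside]
    have hii : i = i' := by
      rcases Sym2.eq_iff.1 hs2 with ⟨a1, _⟩ | ⟨a1, a2⟩
      · exact hvinj t a1
      · have a3 := hvinj t a1
        have a4 := hvinj t a2
        exfalso
        rw [a3] at a4
        have a5 : i' + 1 + 1 = i' := a4
        have a6 := congrArg Fin.val a5
        have hi' := i'.isLt
        rw [add_assoc, Fin.val_add, Fin.val_add] at a6
        simp only [show ((1 : Fin (n t + 3)).val) = 1 from rfl] at a6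
        rw [Nat.mod_eq_of_lt (show 1 + 1 < n t + 3 by omega)] at a6
        by_cases a7 : i'.val + 2 < n t + 3
        · rw [Nat.mod_eq_of_lt (by omega)] at a6
          omega
        · have a8 : i'.val + (1 + 1) = (i'.val + 2 - (n t + 3)) + (n t + 3) := by omega
          rw [a8, Nat.add_mod_right, Nat.mod_eq_of_lt (by omega)] at a6
          omega
    subst hii
    rfl
  · -- the count
    have h1 : S.k * S.k ≤ S.SL.card := S.SL_card
    have h2 : S.SL ⊆ (univ : Finset I).biUnion fun t => (S.Mv t.1 (d t)).image (· % S.N) := by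
      intro j hj
      simp only [SL, Finset.mem_filter, Finset.mem_range] at hj
      obtain ⟨hj1, hj2⟩ := hj
      set τ := j + 2 * S.N with hτ
      have ex1 : S.ex τ = S.ex j := by
        have e : τ = j + S.N + S.N := by omega
        rw [e, S.rv_x, S.rv_y]
      have ey1 : S.ey τ = S.ey j := by
        have e : τ = j + S.N + S.N := by omega
        rw [e, S.rv_y, S.rv_x]
      have hnb : ¬ S.Birth τ := by
        intro hb
        apply hb.1
        rw [ex1, ey1]
        exact hj2
      obtain ⟨p, hp1, hp2⟩ := S.exists_touch hnb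
      obtain ⟨b, b1, b2, b3, b4, b5⟩ := back_trace hp1 (by omega)
      rw [← b5] at hp2
      rw [Finset.mem_biUnion]
      by_cases hb2 : b < 2 * S.N
      · refine ⟨⟨b, Finset.mem_filter.2 ⟨Finset.mem_Ico.2 ⟨by omega, hb2⟩, b3⟩⟩, Finset.mem_univ _, ?_⟩
        refine Finset.mem_image.2 ⟨τ, ?_, ?_⟩
        · have hT : S.Traj b (d ⟨b, Finset.mem_filter.2 ⟨Finset.mem_Ico.2 ⟨by omega, hb2⟩, b3⟩⟩) :=
            Tr ⟨b, _⟩
          exact hT.mem_Mv b2 b4 hp2 (by rw [ex1, ey1]; exact hj2)
        · simp only [hτ]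
          rw [Nat.add_mul_mod_self_right]
          exact Nat.mod_eq_of_lt hj1
      · obtain ⟨b₀, rfl⟩ : ∃ b₀, b = b₀ + S.N := ⟨b - S.N, by omega⟩
        have hb₀ : S.Birth b₀ := S.Birth_rv.1 b3
        have hτ' : τ = (j + S.N) + S.N := by omega
        have hOn : S.On b₀ (j + S.N) := by
          apply on_rv.1
          rw [← hτ']
          exact Or.inr ⟨b2, b4, hp2⟩
        refine ⟨⟨b₀, Finset.mem_filter.2 ⟨Finset.mem_Ico.2 ⟨by omega, by omega⟩, hb₀⟩⟩,
          Finset.mem_univ _, ?_⟩
        refine Finset.mem_image.2 ⟨j + S.N, ?_, ?_⟩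
        · have hT : S.Traj b₀
              (d ⟨b₀, Finset.mem_filter.2 ⟨Finset.mem_Ico.2 ⟨by omega, by omega⟩, hb₀⟩⟩) :=
            Tr ⟨b₀, _⟩
          rcases hOn with h5 | ⟨h5, h6, h7⟩
          · omega
          · exact hT.mem_Mv h5 h6 h7 (by rw [S.rv_x, S.rv_y]; exact hj2.symm)
        · rw [Nat.add_mod_right]
          exact Nat.mod_eq_of_lt hj1
    calc S.k * S.k ≤ S.SL.card := h1
      _ ≤ _ := Finset.card_le_card h2
      _ ≤ ∑ t : I, ((S.Mv t.1 (d t)).image (· % S.N)).card := Finset.card_biUnion_le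
      _ ≤ ∑ t : I, (S.Mv t.1 (d t)).card :=
          Finset.sum_le_sum fun t _ => Finset.card_image_le
      _ ≤ ∑ t : I, (n t + 1) := by
          refine Finset.sum_le_sum fun t _ => ?_
          have := hlen t
          have := hn t
          omega

end Vale.Agent.P040S
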