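import Mathlib

/-!
Vectors of three dimensional space in coordinates: determinant, inner product,
convex spherical polygons.
-/

namespace Vale.Agent.P040S

/-- Vectors of three dimensional space. -/
abbrev V3 := ℝ × ℝ × ℝ

/-- The determinant of three vectors. -/
def det3D (a b c : V3) : ℝ :=
  a.1 * (b.2.1 * c.2.2 - b.2.2 * c.2.1) - a.2.1 * (b.1 * c.2.2 - b.2.2 * c.1) +
    a.2.2 * (b.1 * c.2.1 - b.2.1 * c.1)

/-- The inner product of two vectors. -/
def dot (a b : V3) : ℝ := a.1 * b.1 + a.2.1 * b.2.1 + a.2.2 * b.2.2

/-- Any three vectors of the family with distinct indices are independent. -/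
def GP3 {ι : Type*} (c : ι → V3) : Prop :=
  ∀ i j l, i ≠ j → j ≠ l → i ≠ l → det3D (c i) (c j) (c l) ≠ 0

/-- A convex spherical polygon: a cyclic sequence of vectors such that every other vector lies
strictly on the positive side of the plane spanned by two cyclically consecutive vectors. -/
def IsConvexS {N : ℕ} (Q : Fin (N + 3) → V3) : Prop :=
  ∀ i j, j ≠ i → j ≠ i + 1 → 0 < det3D (Q i) (Q (i + 1)) (Q j)

theorem det3D_swap12 (a b c : V3) : det3D b a c = - det3D a b c := by
  unfold det3D
  ring

theorem det3D_cycle (a b c : V3) : det3D b c a = det3D a b c := by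
  unfold det3D
  ring

theorem det3D_swap23 (a b c : V3) : det3D a c b = - det3D a b c := by
  unfold det3D
  ring

end Vale.Agent.P040S
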