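import Vale.Agent.Lib.P040S.Cover
import Vale.Agent.Lib.P040D.Geom

/-!
From the sorted list of all pairs of a planar point set to a periodic sweep.
-/

namespace Vale.Agent.P040S

open Finset
open Vale.Agent.P040 Vale.Agent.P040D

theorem notMem_aft_self (m : ℕ) (E : List (ℕ × ℕ)) (x : ℕ) : x ∉ aft m E x := by
  simp [aft]

theorem aft_total {m : ℕ} {E : List (ℕ × ℕ)} {x z : ℕ} (hx : x < m) (hz : z < m) (hne : x ≠ z) :
    z ∈ aft m E x ∨ x ∈ aft m E z := by
  simp only [aft, Finset.mem_filter, Finset.mem_range]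
  rcases lt_or_gt_of_ne hne with h | h
  · by_cases h2 : (x, z) ∈ E
    · right
      exact ⟨hx, Or.inl ⟨h, h2⟩⟩
    · left
      exact ⟨hz, Or.inr ⟨h, h2⟩⟩
  · by_cases h2 : (z, x) ∈ E
    · left
      exact ⟨hz, Or.inl ⟨h, h2⟩⟩
    · right
      exact ⟨hx, Or.inr ⟨h, h2⟩⟩

/-- Number of elements after `x` after `t` events. -/
def acnt (m : ℕ) (ev : List (ℕ × ℕ)) (t x : ℕ) : ℕ := (aft m (ev.take t) x).card

section

variable {m : ℕ} {ev : List (ℕ × ℕ)} {L : ℕ × ℕ → Finset ℕ}

theorem acnt_le {t x : ℕ} (hx : x < m) : acnt m ev t x + 1 ≤ m := by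
  have h1 : insert x (aft m (ev.take t) x) ⊆ range m := by
    intro z hz
    rcases Finset.mem_insert.1 hz with rfl | hz
    · exact Finset.mem_range.2 hx
    · exact (Finset.mem_filter.1 hz).1
  have h2 := Finset.card_le_card h1
  rw [Finset.card_insert_of_notMem (notMem_aft_self _ _ _), Finset.card_range] at h2
  exact h2

theorem acnt_zero {x : ℕ} (hx : x < m) : acnt m ev 0 x + 1 + x = m := by
  unfold acnt
  have h1 : aft m (ev.take 0) x = Ico (x + 1) m := by
    ext z
    simp [aft, Finset.mem_Ico]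
    omega
  rw [h1, Nat.card_Ico]
  omega

theorem mem_aft_zero {x z : ℕ} (hz : z < m) : z ∈ aft m (ev.take 0) x ↔ x < z := by
  simp [aft, hz]

/-- The event at position `t`. -/
structure EvAt (m : ℕ) (ev : List (ℕ × ℕ)) (L : ℕ × ℕ → Finset ℕ) (t u v : ℕ) : Prop where
  huv : u < v
  hv : v < m
  take_succ : ev.take (t + 1) = ev.take t ++ [(u, v)]
  left : aft m (ev.take t) v = L (u, v)
  right : aft m (ev.take t) u = insert v (L (u, v))

theorem evAt_of (hG : Good m ev L) {t : ℕ} (ht : t < ev.length) :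
    EvAt m ev L t (ev[t]).1 (ev[t]).2 := by
  have hmem : ((ev[t]).1, (ev[t]).2) ∈ ev := by
    simp
  obtain ⟨h1, h2⟩ := (hG.mem _ _).1 hmem
  have hsplit : ev = ev.take t ++ ((ev[t]).1, (ev[t]).2) :: ev.drop (t + 1) := by
    have h3 := List.take_append_drop t ev
    rw [List.drop_eq_getElem_cons ht] at h3
    exact h3.symm
  refine ⟨h1, h2, ?_, hG.aft_left _ _ _ _ hsplit, hG.aft_right _ _ _ _ hsplit⟩
  exact List.take_succ_eq_append_getElem ht

namespace EvAt

variable {t u v : ℕ} (h : EvAt m ev L t u v)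
include h

theorem u_lt : u < m := h.huv.trans h.hv

theorem u_ne_v : u ≠ v := h.huv.ne

theorem v_notMem : v ∉ L (u, v) := by
  rw [← h.left]
  exact notMem_aft_self _ _ _

theorem u_notMem : u ∉ L (u, v) := by
  intro h1
  have h2 : u ∈ aft m (ev.take t) u := by
    rw [h.right]
    exact Finset.mem_insert_of_mem h1
  exact notMem_aft_self _ _ _ h2

theorem acnt_u : acnt m ev t u = acnt m ev t v + 1 := by
  unfold acnt
  rw [h.right, h.left, Finset.card_insert_of_notMem h.v_notMem]

theorem aft_u_succ : aft m (ev.take (t + 1)) u = (aft m (ev.take t) u).erase v := by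
  rw [h.take_succ]
  exact aft_step_u h.huv

theorem aft_v_succ : aft m (ev.take (t + 1)) v = insert u (aft m (ev.take t) v) := by
  rw [h.take_succ]
  exact aft_step_v h.huv h.u_lt

theorem aft_o_succ {x : ℕ} (h1 : x ≠ u) (h2 : x ≠ v) :
    aft m (ev.take (t + 1)) x = aft m (ev.take t) x := by
  rw [h.take_succ]
  exact aft_step_other h1 h2

theorem acnt_u_succ : acnt m ev (t + 1) u = acnt m ev t v := by
  have h1 := h.acnt_u
  unfold acnt at h1 ⊢
  rw [h.aft_u_succ, Finset.card_erase_of_mem (by rw [h.right]; simp), h1]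
  simp

theorem acnt_v_succ : acnt m ev (t + 1) v = acnt m ev t v + 1 := by
  unfold acnt
  rw [h.aft_v_succ, Finset.card_insert_of_notMem]
  rw [h.left]
  exact h.u_notMem

theorem acnt_o_succ {x : ℕ} (h1 : x ≠ u) (h2 : x ≠ v) : acnt m ev (t + 1) x = acnt m ev t x := by
  unfold acnt
  rw [h.aft_o_succ h1 h2]

end EvAt

/-- The order at time `t` expressed by the counts. -/
def OrdAt (m : ℕ) (ev : List (ℕ × ℕ)) (t : ℕ) : Prop :=
  ∀ x z, x < m → z < m → x ≠ z → (z ∈ aft m (ev.take t) x ↔ acnt m ev t z < acnt m ev t x)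

theorem ordAt_zero : OrdAt m ev 0 := by
  intro x z hx hz _
  rw [mem_aft_zero hz]
  have h1 := acnt_zero (ev := ev) hx
  have h2 := acnt_zero (ev := ev) hz
  omega

theorem OrdAt.ne {t : ℕ} (h : OrdAt m ev t) {x z : ℕ} (hx : x < m) (hz : z < m) (hne : x ≠ z) :
    acnt m ev t x ≠ acnt m ev t z := by
  intro he
  rcases aft_total (E := ev.take t) hx hz hne with h1 | h1
  · have := (h x z hx hz hne).1 h1
    omega
  · have := (h z x hz hx hne.symm).1 h1
    omega

theorem OrdAt.succ {t u v : ℕ} (h : OrdAt m ev t) (he : EvAt m ev L t u v) :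
    OrdAt m ev (t + 1) := by
  intro x z hx hz hne
  have hum := he.u_lt
  have hvm := he.hv
  have huv := he.huv.ne
  have a1 := he.acnt_u
  have a2 := he.acnt_u_succ
  have a3 := he.acnt_v_succ
  by_cases x1 : x = u
  · subst x1
    rw [he.aft_u_succ, a2]
    by_cases z2 : z = v
    · subst z2
      rw [a3]
      simp
    · have z1 : z ≠ x := Ne.symm hne
      rw [he.acnt_o_succ z1 z2, Finset.mem_erase, h x z hx hz hne]
      have := h.ne hz hvm z2
      constructor
      · rintro ⟨_, h2⟩
        omega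
      · intro h2
        exact ⟨z2, by omega⟩
  · by_cases x2 : x = v
    · subst x2
      rw [he.aft_v_succ, a3, Finset.mem_insert]
      by_cases z1 : z = u
      · subst z1
        rw [a2]
        simp
      · have z2 : z ≠ x := Ne.symm hne
        rw [he.acnt_o_succ z1 z2, h x z hx hz hne]
        have := h.ne hz hvm z2
        constructor
        · rintro (h2 | h2)
          · exact absurd h2 z1
          · omega
        · intro h2
          exact Or.inr (by omega)
    · rw [he.aft_o_succ x1 x2, he.acnt_o_succ x1 x2, h x z hx hz hne]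
      by_cases z1 : z = u
      · subst z1
        rw [a2]
        have := h.ne hz hx (Ne.symm hne)
        omega
      · by_cases z2 : z = v
        · subst z2
          rw [a3]
          have := h.ne hz hx (Ne.symm hne)
          have := h.ne hum hx (Ne.symm x1)
          omega
        · rw [he.acnt_o_succ z1 z2]

theorem acnt_all (hG : Good m ev L) {x : ℕ} (hx : x < m) : acnt m ev ev.length x = x := by
  unfold acnt
  rw [List.take_length]
  have h1 : aft m ev x = range x := by
    ext z
    simp only [aft, Finset.mem_filter, Finset.mem_range, hG.mem]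
    constructor
    · rintro ⟨h1, ⟨h2, _⟩ | ⟨h2, h3⟩⟩
      · exact h2
      · exact absurd ⟨h2, h1⟩ h3
    · intro h2
      exact ⟨by omega, Or.inl ⟨h2, h2, hx⟩⟩
  rw [h1, Finset.card_range]

theorem ordAt_all (hG : Good m ev L) {t : ℕ} (ht : t ≤ ev.length) : OrdAt m ev t := by
  induction t with
  | zero => exact ordAt_zero
  | succ t ih =>
    have ht' : t < ev.length := by omega
    exact (ih (by omega)).succ (evAt_of hG ht')

end

end Vale.Agent.P040S
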