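import Vale.Agent.Lib.P040S.OfEv

/-!
The periodic sweep of a planar point set with labels.
-/

namespace Vale.Agent.P040S

open Finset
open Vale.Agent.P040 Vale.Agent.P040D

/-- Rank with period count `q` after `t` events. -/
def Rr (m : ℕ) (ev : List (ℕ × ℕ)) (q t w : ℕ) : ℕ :=
  if Even q then m - 1 - acnt m ev t w else acnt m ev t w

/-- Rank at time `τ`. -/
def rkS (m : ℕ) (ev : List (ℕ × ℕ)) (τ w : ℕ) : ℕ :=
  if w < m then Rr m ev (τ / ev.length) (τ % ev.length) w else 0

/-- First element of the event at time `τ`. -/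
def exS (ev : List (ℕ × ℕ)) (τ : ℕ) : ℕ :=
  if Even (τ / ev.length) then (ev.getD (τ % ev.length) (0, 0)).1
  else (ev.getD (τ % ev.length) (0, 0)).2

/-- Second element of the event at time `τ`. -/
def eyS (ev : List (ℕ × ℕ)) (τ : ℕ) : ℕ :=
  if Even (τ / ev.length) then (ev.getD (τ % ev.length) (0, 0)).2
  else (ev.getD (τ % ev.length) (0, 0)).1

theorem Rr_le {m : ℕ} {ev : List (ℕ × ℕ)} {q t w : ℕ} (hw : w < m) : Rr m ev q t w < m := by
  have := acnt_le (ev := ev) (t := t) hw
  unfold Rr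
  split_ifs <;> omega

theorem Rr_boundary {m : ℕ} {ev : List (ℕ × ℕ)} {L : ℕ × ℕ → Finset ℕ} (hG : Good m ev L) {q w : ℕ}
    (hw : w < m) : Rr m ev q ev.length w = Rr m ev (q + 1) 0 w := by
  have h1 := acnt_all hG hw
  have h2 := acnt_zero (ev := ev) hw
  unfold Rr
  by_cases hq : Even q
  · rw [if_pos hq, if_neg (fun h => (Nat.even_add_one.1 h) hq)]
    omega
  · rw [if_neg hq, if_pos (Nat.even_add_one.2 hq)]
    omega

theorem div_mod_add {N τ : ℕ} (hN : 0 < N) : (τ + N) / N = τ / N + 1 ∧ (τ + N) % N = τ % N :=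
  ⟨Nat.add_div_right _ hN, Nat.add_mod_right _ _⟩

theorem div_mod_succ {N τ : ℕ} (hN : 0 < N) :
    (τ % N + 1 < N ∧ (τ + 1) / N = τ / N ∧ (τ + 1) % N = τ % N + 1) ∨
    (τ % N + 1 = N ∧ (τ + 1) / N = τ / N + 1 ∧ (τ + 1) % N = 0) := by
  have h1 := Nat.div_add_mod τ N
  have h2 := Nat.mod_lt τ hN
  by_cases h3 : τ % N + 1 < N
  · left
    have e : τ + 1 = N * (τ / N) + (τ % N + 1) := by omega
    refine ⟨h3, ?_, ?_⟩
    · rw [e, Nat.mul_add_div hN, Nat.div_eq_of_lt h3]
      simp
    · rw [e, Nat.mul_add_mod, Nat.mod_eq_of_lt h3]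
  · right
    have h4 : τ % N + 1 = N := by omega
    have e : τ + 1 = N * (τ / N + 1) := by
      rw [Nat.mul_add, Nat.mul_one]
      omega
    refine ⟨h4, ?_, ?_⟩
    · rw [e]
      rw [Nat.mul_div_cancel_left _ hN]
    · rw [e, Nat.mul_mod_right]

section

variable {m : ℕ} {ev : List (ℕ × ℕ)} {L : ℕ × ℕ → Finset ℕ}

theorem rkS_of_lt {τ w : ℕ} (hw : w < m) :
    rkS m ev τ w = Rr m ev (τ / ev.length) (τ % ev.length) w := by
  simp [rkS, hw]

theorem rkS_succ (hG : Good m ev L) (hN : 0 < ev.length) {τ w : ℕ} (hw : w < m) :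
    rkS m ev (τ + 1) w = Rr m ev (τ / ev.length) (τ % ev.length + 1) w := by
  rw [rkS_of_lt hw]
  rcases div_mod_succ (τ := τ) hN with ⟨_, h2, h3⟩ | ⟨h1, h2, h3⟩
  · rw [h2, h3]
  · rw [h2, h3, h1, Rr_boundary hG hw]

theorem getD_eq {t : ℕ} (ht : t < ev.length) : ev.getD t (0, 0) = ev[t] :=
  List.getD_eq_getElem _ _ ht

/-- Facts on the event at time `τ`, split by parity of the period. -/
theorem event_cases (hG : Good m ev L) (hN : 0 < ev.length) (τ : ℕ) :
    ∃ u v, EvAt m ev L (τ % ev.length) u v ∧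
      ((Even (τ / ev.length) ∧ exS ev τ = u ∧ eyS ev τ = v) ∨
       (¬ Even (τ / ev.length) ∧ exS ev τ = v ∧ eyS ev τ = u)) := by
  have ht := Nat.mod_lt τ hN
  refine ⟨(ev[τ % ev.length]).1, (ev[τ % ev.length]).2, evAt_of hG ht, ?_⟩
  unfold exS eyS
  rw [getD_eq ht]
  by_cases hq : Even (τ / ev.length)
  · left
    simp [hq]
  · right
    simp [hq]

end

/-- The sweep of a sorted planar point set in general position with a labelling. -/
theorem exists_sweep {k : ℕ} (hk : 0 < k) {c : ℕ → ℝ × ℝ} (hS : Sorted (2 * k + 1) c)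
    (lb : ℕ → Bool) (hA : ((range (2 * k + 1)).filter fun z => lb z = true).card = k + 1)
    (hC : ((range (2 * k + 1)).filter fun z => lb z = false).card = k) :
    ∃ S : Sweep, S.m = 2 * k + 1 ∧ S.k = k ∧ S.lb = lb ∧
      ∀ τ z, z < 2 * k + 1 → z ≠ S.ex τ → z ≠ S.ey τ →
        (S.rk τ (S.ey τ) < S.rk τ z → 0 < det3 (c (S.ex τ)) (c (S.ey τ)) (c z)) ∧
        (S.rk τ z < S.rk τ (S.ex τ) → det3 (c (S.ex τ)) (c (S.ey τ)) (c z) < 0) := by
  classical
  obtain ⟨ev, hperm, hG, _⟩ := exists_events hS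
  set m := 2 * k + 1 with hm
  have hN : 0 < ev.length := by
    have h1 : (0, 1) ∈ ev := (hG.mem 0 1).2 ⟨by omega, by omega⟩
    exact List.length_pos_of_mem h1
  have hord := fun t (ht : t ≤ ev.length) => ordAt_all hG ht
  have hexlt : ∀ τ, exS ev τ < m ∧ eyS ev τ < m := by
    intro τ
    obtain ⟨u, v, he, h | h⟩ := event_cases hG hN τ
    · rw [h.2.1, h.2.2]
      exact ⟨he.u_lt, he.hv⟩
    · rw [h.2.1, h.2.2]
      exact ⟨he.hv, he.u_lt⟩
  have hmodle : ∀ τ, τ % ev.length ≤ ev.length := fun τ => (Nat.mod_lt τ hN).le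
  refine ⟨{ m := m, k := k, N := ev.length, rk := rkS m ev, ex := exS ev, ey := eyS ev, lb := lb,
            hm := hm, hN := hN, rk_lt := ?_, rk_inj := ?_, ex_lt := fun τ => (hexlt τ).1,
            ey_lt := fun τ => (hexlt τ).2, adj := ?_, st_x := ?_, st_y := ?_, st_o := ?_,
            rv := ?_, rv_x := ?_, rv_y := ?_, uq := ?_, cover := ?_, card_A := hA,
            card_C := hC }, rfl, rfl, rfl, ?_⟩
  · intro τ w hw
    rw [rkS_of_lt hw]
    exact Rr_le hw
  · intro τ v w hv hw h
    rw [rkS_of_lt hv, rkS_of_lt hw] at h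
    by_contra hne
    have h1 := (hord _ (hmodle τ)).ne hv hw hne
    have h2 := acnt_le (ev := ev) (t := τ % ev.length) hv
    have h3 := acnt_le (ev := ev) (t := τ % ev.length) hw
    unfold Rr at h
    split_ifs at h <;> omega
  · intro τ
    obtain ⟨u, v, he, ⟨h1, h2, h3⟩ | ⟨h1, h2, h3⟩⟩ := event_cases hG hN τ
    · rw [h2, h3, rkS_of_lt he.hv, rkS_of_lt he.u_lt]
      unfold Rr
      rw [if_pos h1, if_pos h1]
      have := he.acnt_u
      have := acnt_le (ev := ev) (t := τ % ev.length) he.u_lt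
      omega
    · rw [h2, h3, rkS_of_lt he.hv, rkS_of_lt he.u_lt]
      unfold Rr
      rw [if_neg h1, if_neg h1]
      exact he.acnt_u
  · intro τ
    obtain ⟨u, v, he, ⟨h1, h2, h3⟩ | ⟨h1, h2, h3⟩⟩ := event_cases hG hN τ
    · rw [h2, h3, rkS_succ hG hN he.u_lt, rkS_of_lt he.hv]
      unfold Rr
      rw [if_pos h1, if_pos h1, he.acnt_u_succ]
    · rw [h2, h3, rkS_succ hG hN he.hv, rkS_of_lt he.u_lt]
      unfold Rr
      rw [if_neg h1, if_neg h1, he.acnt_v_succ, he.acnt_u]
  · intro τ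
    obtain ⟨u, v, he, ⟨h1, h2, h3⟩ | ⟨h1, h2, h3⟩⟩ := event_cases hG hN τ
    · rw [h2, h3, rkS_succ hG hN he.hv, rkS_of_lt he.u_lt]
      unfold Rr
      rw [if_pos h1, if_pos h1, he.acnt_v_succ, he.acnt_u]
    · rw [h2, h3, rkS_succ hG hN he.u_lt, rkS_of_lt he.hv]
      unfold Rr
      rw [if_neg h1, if_neg h1, he.acnt_u_succ]
  · intro τ w hw1 hw2
    by_cases hw : w < m
    · rw [rkS_succ hG hN hw, rkS_of_lt hw]
      obtain ⟨u, v, he, ⟨h1, h2, h3⟩ | ⟨h1, h2, h3⟩⟩ := event_cases hG hN τ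
      · rw [h2] at hw1
        rw [h3] at hw2
        unfold Rr
        rw [he.acnt_o_succ hw1 hw2]
      · rw [h2] at hw1
        rw [h3] at hw2
        unfold Rr
        rw [he.acnt_o_succ hw2 hw1]
    · simp [rkS, hw]
  · intro τ w hw
    rw [rkS_of_lt hw, rkS_of_lt hw, (div_mod_add hN).1, (div_mod_add hN).2]
    have := acnt_le (ev := ev) (t := τ % ev.length) hw
    unfold Rr
    by_cases hq : Even (τ / ev.length)
    · rw [if_pos hq, if_neg (fun h => (Nat.even_add_one.1 h) hq)]
      omega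
    · rw [if_neg hq, if_pos (Nat.even_add_one.2 hq)]
      omega
  · intro τ
    unfold exS eyS
    rw [(div_mod_add hN).1, (div_mod_add hN).2]
    by_cases hq : Even (τ / ev.length)
    · rw [if_pos hq, if_neg (fun h => (Nat.even_add_one.1 h) hq)]
    · rw [if_neg hq, if_pos (Nat.even_add_one.2 hq)]
  · intro τ
    unfold exS eyS
    rw [(div_mod_add hN).1, (div_mod_add hN).2]
    by_cases hq : Even (τ / ev.length)
    · rw [if_pos hq, if_neg (fun h => (Nat.even_add_one.1 h) hq)]
    · rw [if_neg hq, if_pos (Nat.even_add_one.2 hq)]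
  · intro τ d hd1 hd2 h
    have hd2' : d < ev.length := hd2
    have hτ1 := Nat.mod_lt τ hN
    have key : ∀ t, ∃ u v, EvAt m ev (leftSet m c) (t % ev.length) u v ∧
        s(exS ev t, eyS ev t) = s(u, v) ∧ (u, v) = ev[t % ev.length]'(Nat.mod_lt t hN) := by
      intro t
      refine ⟨(ev[t % ev.length]'(Nat.mod_lt t hN)).1, (ev[t % ev.length]'(Nat.mod_lt t hN)).2,
        evAt_of hG (Nat.mod_lt t hN), ?_, rfl⟩
      unfold exS eyS
      rw [getD_eq (Nat.mod_lt t hN)]
      by_cases hq : Even (t / ev.length)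
      · rw [if_pos hq, if_pos hq]
      · rw [if_neg hq, if_neg hq]
        exact Sym2.eq_swap
    obtain ⟨u, v, he, h1, h2⟩ := key τ
    obtain ⟨u', v', he', h1', h2'⟩ := key (τ + d)
    rw [h1, h1'] at h
    have h3 : (u, v) = (u', v') := by
      rcases Sym2.eq_iff.1 h with ⟨a1, a2⟩ | ⟨a1, a2⟩
      · rw [a1, a2]
      · have := he.huv
        have := he'.huv
        omega
    rw [h2, h2'] at h3
    have h4 := (List.Nodup.getElem_inj_iff hG.nodup).1 h3
    -- the residues differ
    have h5 := Nat.div_add_mod τ ev.length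
    have h6 : (τ + d) = ev.length * (τ / ev.length) + (τ % ev.length + d) := by omega
    rw [h6, Nat.mul_add_mod] at h4
    by_cases h7 : τ % ev.length + d < ev.length
    · rw [Nat.mod_eq_of_lt h7] at h4
      omega
    · have h8 : τ % ev.length + d = (τ % ev.length + d - ev.length) + ev.length := by omega
      have h9 : τ % ev.length + d - ev.length < ev.length := by omega
      have h10 : (τ % ev.length + d) % ev.length = τ % ev.length + d - ev.length := by
        conv_lhs => rw [h8]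
        rw [Nat.add_mod_right, Nat.mod_eq_of_lt h9]
      rw [h10] at h4
      omega
  · intro a u v hu hv huv
    -- the pair sorted
    obtain ⟨x, y, hxy, hym, hs⟩ : ∃ x y, x < y ∧ y < m ∧ s(u, v) = s(x, y) := by
      rcases lt_or_gt_of_ne huv with h | h
      · exact ⟨u, v, h, hv, rfl⟩
      · exact ⟨v, u, h, hu, Sym2.eq_swap⟩
    have hmem : (x, y) ∈ ev := (hG.mem x y).2 ⟨hxy, hym⟩
    obtain ⟨j, hj, hje⟩ := List.mem_iff_getElem.1 hmem
    have hsym : ∀ t, t % ev.length = j → s(exS ev t, eyS ev t) = s(x, y) := by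
      intro t ht
      have h1 : ev.getD (t % ev.length) (0, 0) = (x, y) := by
        rw [ht, getD_eq hj, hje]
      unfold exS eyS
      rw [h1]
      by_cases hq : Even (t / ev.length)
      · rw [if_pos hq, if_pos hq]
      · rw [if_neg hq, if_neg hq]
        exact Sym2.eq_swap
    rw [hs]
    have h5 := Nat.div_add_mod a ev.length
    have h6 := Nat.mod_lt a hN
    by_cases h7 : a ≤ ev.length * (a / ev.length) + j
    · refine ⟨ev.length * (a / ev.length) + j, h7, by omega, hsym _ ?_⟩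
      rw [Nat.mul_add_mod, Nat.mod_eq_of_lt hj]
    · refine ⟨ev.length * (a / ev.length + 1) + j, ?_, ?_, hsym _ ?_⟩
      · rw [Nat.mul_add, Nat.mul_one]
        omega
      · rw [Nat.mul_add, Nat.mul_one]
        omega
      · rw [Nat.mul_add_mod, Nat.mod_eq_of_lt hj]
  · intro τ z hz z1 z2
    simp only at z1 z2 ⊢
    obtain ⟨u, v, he, hcase⟩ := event_cases hG hN τ
    have hord' := hord _ (hmodle τ)
    have hau := acnt_le (ev := ev) (t := τ % ev.length) he.u_lt
    have hav := acnt_le (ev := ev) (t := τ % ev.length) he.hv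
    have haz := acnt_le (ev := ev) (t := τ % ev.length) hz
    have key1 : acnt m ev (τ % ev.length) z < acnt m ev (τ % ev.length) v →
        0 < det3 (c u) (c v) (c z) := by
      intro h
      have hne : v ≠ z := by
        rintro rfl
        omega
      have h1 := (hord' v z he.hv hz hne).2 h
      rw [he.left] at h1
      exact (Finset.mem_filter.1 h1).2
    have key2 : acnt m ev (τ % ev.length) u < acnt m ev (τ % ev.length) z → z ≠ u → z ≠ v →
        det3 (c u) (c v) (c z) < 0 := by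
      intro h hzu hzv
      have hnot : ¬ 0 < det3 (c u) (c v) (c z) := by
        intro h1
        have h2 : z ∈ leftSet m c (u, v) := Finset.mem_filter.2 ⟨Finset.mem_range.2 hz, h1⟩
        rw [← he.left] at h2
        have h3 := (hord' v z he.hv hz (Ne.symm hzv)).1 h2
        have h4 := he.acnt_u
        omega
      have h5 := hS.gp u v z he.u_lt he.hv hz he.u_ne_v (Ne.symm hzv) (Ne.symm hzu)
      rcases lt_or_gt_of_ne h5 with h6 | h6
      · exact h6
      · exact absurd h6 hnot
    have hsw : det3 (c v) (c u) (c z) = - det3 (c u) (c v) (c z) := by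
      unfold det3
      ring
    rcases hcase with ⟨h1, h2, h3⟩ | ⟨h1, h2, h3⟩
    · rw [h2] at z1 ⊢
      rw [h3] at z2 ⊢
      rw [rkS_of_lt he.hv, rkS_of_lt hz, rkS_of_lt he.u_lt]
      unfold Rr
      rw [if_pos h1, if_pos h1, if_pos h1]
      constructor
      · intro h
        exact key1 (by omega)
      · intro h
        exact key2 (by omega) z1 z2
    · rw [h2] at z1 ⊢
      rw [h3] at z2 ⊢
      rw [rkS_of_lt he.hv, rkS_of_lt hz, rkS_of_lt he.u_lt, hsw]
      unfold Rr
      rw [if_neg h1, if_neg h1, if_neg h1]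
      constructor
      · intro h
        have := key2 h z2 z1
        linarith
      · intro h
        have := key1 h
        linarith

end Vale.Agent.P040S
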