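import Vale.Agent.Lib.P040S.Chain

/-!
The polygon of a trajectory: vertex list, sides, signs.
-/

namespace Vale.Agent.P040S

open Finset

/-- The list of successive distinct values of `f` from time `a` on, latest first. -/
def tr (f : ℕ → ℕ) (a : ℕ) : ℕ → List ℕ
  | 0 => [f a]
  | τ + 1 => if τ < a then [f a] else if f (τ + 1) ≠ f τ then f (τ + 1) :: tr f a τ else tr f a τ

section tr

variable {f : ℕ → ℕ} {a τ : ℕ}

theorem tr_of_le (h : τ ≤ a) : tr f a τ = [f a] := by
  cases τ with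
  | zero => rfl
  | succ τ =>
    have : τ < a := by omega
    simp [tr, this]

theorem tr_succ (h : a ≤ τ) :
    tr f a (τ + 1) = if f (τ + 1) ≠ f τ then f (τ + 1) :: tr f a τ else tr f a τ := by
  have : ¬ τ < a := by omega
  simp [tr, this]

theorem tr_head (h : a ≤ τ) : ∃ l, tr f a τ = f τ :: l := by
  induction τ, h using Nat.le_induction with
  | base => exact ⟨[], tr_of_le le_rfl⟩
  | succ τ h ih =>
    rw [tr_succ h]
    by_cases h1 : f (τ + 1) ≠ f τ
    · rw [if_pos h1]
      exact ⟨_, rfl⟩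
    · rw [if_neg h1]
      have h2 : f (τ + 1) = f τ := by simpa using h1
      rw [h2]
      exact ih

theorem tr_mem (h : a ≤ τ) {z : ℕ} : z ∈ tr f a τ ↔ ∃ t, a ≤ t ∧ t ≤ τ ∧ z = f t := by
  induction τ, h using Nat.le_induction with
  | base =>
    rw [tr_of_le le_rfl]
    simp only [List.mem_singleton]
    constructor
    · rintro rfl
      exact ⟨a, le_rfl, le_rfl, rfl⟩
    · rintro ⟨t, h1, h2, rfl⟩
      have : t = a := by omega
      rw [this]
  | succ τ h ih =>
    rw [tr_succ h]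
    by_cases h1 : f (τ + 1) ≠ f τ
    · rw [if_pos h1, List.mem_cons, ih]
      constructor
      · rintro (rfl | ⟨t, h2, h3, rfl⟩)
        · exact ⟨τ + 1, by omega, le_rfl, rfl⟩
        · exact ⟨t, h2, by omega, rfl⟩
      · rintro ⟨t, h2, h3, rfl⟩
        by_cases h4 : t = τ + 1
        · left
          rw [h4]
        · right
          exact ⟨t, h2, by omega, rfl⟩
    · rw [if_neg h1, ih]
      have h2 : f (τ + 1) = f τ := by simpa using h1
      constructor
      · rintro ⟨t, h3, h4, rfl⟩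
        exact ⟨t, h3, by omega, rfl⟩
      · rintro ⟨t, h3, h4, rfl⟩
        by_cases h5 : t = τ + 1
        · refine ⟨τ, h, le_rfl, ?_⟩
          rw [h5, h2]
        · exact ⟨t, h3, by omega, rfl⟩

theorem tr_getLast (h : a ≤ τ) : (tr f a τ).getLast? = some (f a) := by
  induction τ, h using Nat.le_induction with
  | base =>
    rw [tr_of_le le_rfl]
    rfl
  | succ τ h ih =>
    rw [tr_succ h]
    by_cases h1 : f (τ + 1) ≠ f τ
    · rw [if_pos h1]
      obtain ⟨l, hl⟩ := tr_head (f := f) h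
      rw [hl] at ih ⊢
      rw [List.getLast?_cons_cons]
      exact ih
    · rw [if_neg h1]
      exact ih

theorem tr_chain (R : ℕ → ℕ → Prop) (h : a ≤ τ)
    (hR : ∀ t, a ≤ t → t < τ → f (t + 1) ≠ f t → R (f (t + 1)) (f t)) :
    (tr f a τ).IsChain R := by
  induction τ, h using Nat.le_induction with
  | base =>
    rw [tr_of_le le_rfl]
    exact List.isChain_singleton _
  | succ τ h ih =>
    have ih' := ih (fun t h1 h2 h3 => hR t h1 (by omega) h3)
    rw [tr_succ h]
    by_cases h1 : f (τ + 1) ≠ f τ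
    · rw [if_pos h1]
      obtain ⟨l, hl⟩ := tr_head (f := f) h
      rw [hl] at ih' ⊢
      exact List.isChain_cons_cons.2 ⟨hR τ h (by omega) h1, ih'⟩
    · rw [if_neg h1]
      exact ih'

theorem tr_length (h : a ≤ τ) :
    (tr f a τ).length = 1 + ((Ico a τ).filter fun t => f (t + 1) ≠ f t).card := by
  induction τ, h using Nat.le_induction with
  | base =>
    rw [tr_of_le le_rfl]
    simp
  | succ τ h ih =>
    have e : Ico a (τ + 1) = insert τ (Ico a τ) := by
      ext x
      simp only [Finset.mem_Ico, Finset.mem_insert]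
      omega
    rw [tr_succ h, e, Finset.filter_insert]
    by_cases h1 : f (τ + 1) ≠ f τ
    · rw [if_pos h1, if_pos h1, List.length_cons, ih, Finset.card_insert_of_notMem (by simp)]
      omega
    · rw [if_neg h1, if_neg h1, ih]

end tr

/-- Cyclic consecutive elements of a list with a chain property. -/
theorem cyc_of_chain {L : List ℕ} {R : ℕ → ℕ → Prop} {n : ℕ} (hn : L.length = n + 3)
    (hc : L.IsChain R) (hw : R (L.getD (n + 2) 0) (L.getD 0 0)) (i : Fin (n + 3)) :
    R (L.getD i 0) (L.getD ((i + 1 : Fin (n + 3)) : ℕ) 0) := by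
  have hi := i.isLt
  by_cases h : i.val + 1 = n + 3
  · have h1 : ((i + 1 : Fin (n + 3)) : ℕ) = 0 := by
      rw [Fin.val_add, show ((1 : Fin (n + 3)).val) = 1 from rfl, h, Nat.mod_self]
    rw [h1]
    have h2 : i.val = n + 2 := by omega
    rw [h2]
    exact hw
  · have h1 : ((i + 1 : Fin (n + 3)) : ℕ) = i.val + 1 := by
      rw [Fin.val_add, show ((1 : Fin (n + 3)).val) = 1 from rfl]
      exact Nat.mod_eq_of_lt (by omega)
    rw [h1]
    have h2 := List.isChain_iff_getElem.1 hc i.val (by omega)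
    rw [List.getD_eq_getElem _ _ (by omega), List.getD_eq_getElem _ _ (by omega)]
    exact h2

namespace Sweep

variable {S : Sweep}

/-- The form of a polygon side at event `τ`. -/
def SideAt (S : Sweep) (τ u w : ℕ) : Prop :=
  (S.lb (S.ex τ) = S.lb (S.ey τ) ∧ u = S.ex τ ∧ w = S.ey τ) ∨
  (S.lb (S.ex τ) ≠ S.lb (S.ey τ) ∧ u = S.ey τ ∧ w = S.ex τ)

/-- Data of a trajectory with its death. -/
structure Traj (S : Sweep) (b d : ℕ) : Prop where
  hb : S.Birth b
  h1 : b + 1 ≤ d
  h2 : d < b + S.N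
  hl : S.Lives b d
  hd : S.cu b d = (S.ey d, S.ex d)

/-- Vertices of the polygon of a trajectory: the successive `s` values, then the `e` values
backwards. -/
def PL (S : Sweep) (b d : ℕ) : List ℕ :=
  (tr (fun t => (S.cu b t).1) (b + 1) d).reverse ++ tr (fun t => (S.cu b t).2) (b + 1) d

/-- Relation between consecutive vertices of the polygon. -/
def Rel (S : Sweep) (b d u w : ℕ) : Prop :=
  ∃ τ, b ≤ τ ∧ τ ≤ d ∧ S.On b τ ∧ SideAt S τ u w

/-- Times of the moves of the trajectory. -/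
noncomputable def Mv (S : Sweep) (b d : ℕ) : Finset ℕ := by
  classical
  exact (Ico (b + 1) d).filter fun t => S.T t (S.cu b t) ≠ S.cu b t

variable {b d : ℕ}

theorem Traj.chain (h : S.Traj b d) : S.Chain (S.cu b) (b + 1) d := h.hl.chain

theorem Traj.hN (h : S.Traj b d) : 0 < S.N := S.hN

/-- A move of the first coordinate. -/
theorem Traj.moveX (h : S.Traj b d) {t : ℕ} (h1 : b + 1 ≤ t) (h2 : t < d)
    (hne : (S.cu b (t + 1)).1 ≠ (S.cu b t).1) :
    S.lb (S.ex t) = S.lb (S.ey t) ∧ (S.cu b t).1 = S.ex t ∧ (S.cu b (t + 1)).1 = S.ey t ∧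
      (S.cu b (t + 1)).2 = (S.cu b t).2 := by
  rw [cu_succ h1] at hne ⊢
  rcases hc : S.cu b t with ⟨s, e⟩
  rw [hc] at hne
  rcases S.T_cases t s e with h5 | ⟨h6, h7, _, h5⟩ | ⟨_, _, _, h5⟩ <;> rw [h5] at hne ⊢
  · exact absurd rfl hne
  · exact ⟨h6, h7, rfl, rfl⟩
  · exact absurd rfl hne

theorem Traj.moveY (h : S.Traj b d) {t : ℕ} (h1 : b + 1 ≤ t) (h2 : t < d)
    (hne : (S.cu b (t + 1)).2 ≠ (S.cu b t).2) :
    S.lb (S.ex t) = S.lb (S.ey t) ∧ (S.cu b t).2 = S.ey t ∧ (S.cu b (t + 1)).2 = S.ex t ∧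
      (S.cu b (t + 1)).1 = (S.cu b t).1 := by
  rw [cu_succ h1] at hne ⊢
  rcases hc : S.cu b t with ⟨s, e⟩
  rw [hc] at hne
  rcases S.T_cases t s e with h5 | ⟨_, _, _, h5⟩ | ⟨h6, h7, _, h5⟩ <;> rw [h5] at hne ⊢
  · exact absurd rfl hne
  · exact absurd rfl hne
  · exact ⟨h6, h7, rfl, rfl⟩

theorem Traj.on_move (h : S.Traj b d) {t : ℕ} (h1 : b + 1 ≤ t) (h2 : t < d)
    (hne : S.cu b (t + 1) ≠ S.cu b t) : S.On b t := by
  refine Or.inr ⟨by omega, fun t' h3 h4 => h.hl t' h3 (by omega), Or.inr ?_⟩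
  rw [← cu_succ h1]
  exact hne

/-- Labels along the trajectory. -/
theorem Traj.labels (h : S.Traj b d) {t : ℕ} (h1 : b + 1 ≤ t) (h2 : t ≤ d) :
    S.lb (S.cu b t).1 = S.lb (S.ex b) ∧ S.lb (S.cu b t).2 = S.lb (S.ey b) := by
  induction t, h1 using Nat.le_induction with
  | base =>
    rw [cu_of_le le_rfl]
    exact ⟨rfl, rfl⟩
  | succ t h1 ih =>
    obtain ⟨i1, i2⟩ := ih (by omega)
    have h3 : t < d := by omega
    constructor
    · by_cases hne : (S.cu b (t + 1)).1 ≠ (S.cu b t).1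
      · obtain ⟨a1, a2, a3, _⟩ := h.moveX h1 h3 hne
        rw [a3, ← a1, ← a2]
        exact i1
      · have : (S.cu b (t + 1)).1 = (S.cu b t).1 := by simpa using hne
        rw [this]
        exact i1
    · by_cases hne : (S.cu b (t + 1)).2 ≠ (S.cu b t).2
      · obtain ⟨a1, a2, a3, _⟩ := h.moveY h1 h3 hne
        rw [a3, a1, ← a2]
        exact i2
      · have : (S.cu b (t + 1)).2 = (S.cu b t).2 := by simpa using hne
        rw [this]
        exact i2

/-- Chain property of the list of vertices. -/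
theorem Traj.isChain (h : S.Traj b d) :
    (S.PL b d).IsChain fun u w => S.Rel b d u w ∧ S.rk d w < S.rk d u := by
  unfold PL
  have h1b := h.h1
  have hX : (tr (fun t => (S.cu b t).1) (b + 1) d).IsChain
      (fun w u => S.Rel b d u w ∧ S.rk d w < S.rk d u) := by
    refine tr_chain _ h1b ?_
    intro t t1 t2 hne
    obtain ⟨a1, a2, a3, a4⟩ := h.moveX t1 t2 hne
    refine ⟨⟨t, by omega, t2.le, h.on_move t1 t2 ?_, Or.inl ⟨a1, a2, a3⟩⟩, ?_⟩
    · intro he
      rw [he] at hne
      exact hne rfl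
    · rw [a2, a3]
      exact S.order_after t2 (by have := h.h2; omega)
  have hY : (tr (fun t => (S.cu b t).2) (b + 1) d).IsChain
      (fun u w => S.Rel b d u w ∧ S.rk d w < S.rk d u) := by
    refine tr_chain _ h1b ?_
    intro t t1 t2 hne
    obtain ⟨a1, a2, a3, a4⟩ := h.moveY t1 t2 hne
    refine ⟨⟨t, by omega, t2.le, h.on_move t1 t2 ?_, Or.inl ⟨a1, a3, a2⟩⟩, ?_⟩
    · intro he
      rw [he] at hne
      exact hne rfl
    · rw [a2, a3]
      exact S.order_after t2 (by have := h.h2; omega)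
  refine List.isChain_append.2 ⟨?_, hY, ?_⟩
  · rw [List.isChain_reverse]
    exact hX
  · intro x hx y hy
    rw [List.getLast?_reverse] at hx
    obtain ⟨l, hl⟩ := tr_head (f := fun t => (S.cu b t).1) h1b
    obtain ⟨l', hl'⟩ := tr_head (f := fun t => (S.cu b t).2) h1b
    rw [hl] at hx
    rw [hl'] at hy
    simp only [List.head?_cons, Option.mem_def, Option.some.injEq] at hx hy
    subst hx hy
    have hal := h.hl d h1b le_rfl
    have hlb := S.Al_lb hal
    refine ⟨⟨d, by omega, le_rfl, Or.inr ⟨by omega, h.hl, Or.inl h.hd⟩, Or.inr ⟨?_, ?_, ?_⟩⟩, hal.2.2.1⟩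
    · rw [h.hd] at hlb
      exact fun e => hlb e.symm
    · rw [h.hd]
    · rw [h.hd]

theorem Traj.nodup (h : S.Traj b d) : (S.PL b d).Nodup := by
  have h1 : (S.PL b d).IsChain fun u w => S.rk d w < S.rk d u := h.isChain.imp fun _ _ h => h.2
  have : IsTrans ℕ fun u w => S.rk d w < S.rk d u := ⟨fun _ _ _ h1 h2 => h2.trans h1⟩
  have h2 := List.isChain_iff_pairwise.1 h1
  refine h2.imp ?_
  rintro u w h3 rfl
  exact lt_irrefl _ h3

theorem Traj.mem (h : S.Traj b d) {z : ℕ} : z ∈ S.PL b d ↔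
    (∃ t, b + 1 ≤ t ∧ t ≤ d ∧ z = (S.cu b t).1) ∨ (∃ t, b + 1 ≤ t ∧ t ≤ d ∧ z = (S.cu b t).2) := by
  unfold PL
  rw [List.mem_append, List.mem_reverse, tr_mem h.h1, tr_mem h.h1]

theorem Traj.lt (h : S.Traj b d) {z : ℕ} (hz : z ∈ S.PL b d) : z < S.m := by
  rcases h.mem.1 hz with ⟨t, _, _, rfl⟩ | ⟨t, _, _, rfl⟩
  · exact (cu_lt b t).1
  · exact (cu_lt b t).2

theorem Traj.head (h : S.Traj b d) : (S.PL b d).head? = some (S.ex b) := by
  unfold PL
  have h1 := tr_getLast (f := fun t => (S.cu b t).1) h.h1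
  have h2 : (tr (fun t => (S.cu b t).1) (b + 1) d).reverse.head? = some (S.ex b) := by
    rw [List.head?_reverse, h1, cu_of_le le_rfl]
  rw [List.head?_append, h2]
  rfl

theorem Traj.last (h : S.Traj b d) : (S.PL b d).getLast? = some (S.ey b) := by
  unfold PL
  have h1 := tr_getLast (f := fun t => (S.cu b t).2) h.h1
  obtain ⟨l, hl⟩ := tr_head (f := fun t => (S.cu b t).2) h.h1
  rw [List.getLast?_append, h1]
  simp only [Option.some_or]
  rw [cu_of_le le_rfl]

/-- Signs at an event on the polygon. -/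
theorem Traj.sign (h : S.Traj b d) {τ : ℕ} (h1 : b ≤ τ) (h2 : τ ≤ d) (hon : S.On b τ) {z : ℕ}
    (hz : z ∈ S.PL b d) (z1 : z ≠ S.ex τ) (z2 : z ≠ S.ey τ) :
    (S.lb z = S.lb (S.ex b) ∧ S.rk τ (S.ey τ) < S.rk τ z) ∨
    (S.lb z ≠ S.lb (S.ex b) ∧ S.rk τ z < S.rk τ (S.ex τ)) := by
  have hzm := h.lt hz
  have i1 := S.rk_ne (τ := τ) hzm (S.ex_lt τ) z1
  have i2 := S.rk_ne (τ := τ) hzm (S.ey_lt τ) z2
  have a := S.adj τ
  have hlen : d - (b + 1) ≤ S.N := by
    have := h.h2
    omega
  have hlb0 : S.lb (S.ex b) ≠ S.lb (S.ey b) := h.hb.1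
  rcases h.mem.1 hz with ⟨t, t1, t2, rfl⟩ | ⟨t, t1, t2, rfl⟩
  · left
    refine ⟨(h.labels t1 t2).1, ?_⟩
    rcases hon with rfl | ⟨h3, h4, h5⟩
    · have s1 := (h.chain.shape hlen (τ := τ + 1) (t := t) le_rfl h.h1 t1 t2).1
      rw [cu_of_le (τ := τ + 1) le_rfl] at s1
      simp only at s1
      rw [S.st_x, S.st_o τ _ z1 z2] at s1
      omega
    · have s1 := (h.chain.shape hlen (τ := τ) (t := t) (by omega) h2 t1 t2).1
      have hal := h.hl τ (by omega) h2
      rcases hc : S.cu b τ with ⟨s, e⟩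
      rw [hc] at s1 h5 hal
      simp only at s1
      obtain ⟨_, _, hr, _⟩ := hal
      simp only at hr
      rcases h5 with h5 | h5
      · obtain ⟨rfl, rfl⟩ := Prod.mk.inj h5
        omega
      · rcases S.T_cases τ s e with h6 | ⟨_, h7, _, _⟩ | ⟨_, h7, _, _⟩
        · exact absurd h6 h5
        · subst h7
          omega
        · subst h7
          omega
  · have hl := (h.labels t1 t2).2
    right
    refine ⟨by rw [hl]; exact hlb0.symm, ?_⟩
    rcases hon with rfl | ⟨h3, h4, h5⟩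
    · have s1 := (h.chain.shape hlen (τ := τ + 1) (t := t) le_rfl h.h1 t1 t2).2
      rw [cu_of_le (τ := τ + 1) le_rfl] at s1
      simp only at s1
      rw [S.st_y, S.st_o τ _ z1 z2] at s1
      omega
    · have s1 := (h.chain.shape hlen (τ := τ) (t := t) (by omega) h2 t1 t2).2
      have hal := h.hl τ (by omega) h2
      rcases hc : S.cu b τ with ⟨s, e⟩
      rw [hc] at s1 h5 hal
      simp only at s1
      obtain ⟨_, _, hr, _⟩ := hal
      simp only at hr
      rcases h5 with h5 | h5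
      · obtain ⟨rfl, rfl⟩ := Prod.mk.inj h5
        omega
      · rcases S.T_cases τ s e with h6 | ⟨_, h7, _, _⟩ | ⟨_, h7, _, _⟩
        · exact absurd h6 h5
        · subst h7
          omega
        · subst h7
          omega

/-- The length of the vertex list. -/
theorem Traj.length_ge (h : S.Traj b d) : (S.Mv b d).card + 2 ≤ (S.PL b d).length := by
  classical
  unfold PL
  rw [List.length_append, List.length_reverse, tr_length h.h1, tr_length h.h1]
  have h1 : S.Mv b d ⊆ ((Ico (b + 1) d).filter fun t => (S.cu b (t + 1)).1 ≠ (S.cu b t).1) ∪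
      ((Ico (b + 1) d).filter fun t => (S.cu b (t + 1)).2 ≠ (S.cu b t).2) := by
    intro t ht
    simp only [Mv, Finset.mem_filter, Finset.mem_union] at ht ⊢
    obtain ⟨h2, h3⟩ := ht
    rw [← cu_succ (Finset.mem_Ico.1 h2).1] at h3
    by_cases h4 : (S.cu b (t + 1)).1 ≠ (S.cu b t).1
    · exact Or.inl ⟨h2, h4⟩
    · right
      refine ⟨h2, fun h5 => h3 (Prod.ext (by simpa using h4) h5)⟩
  have h2 := (Finset.card_le_card h1).trans (Finset.card_union_le _ _)
  omega

theorem Traj.mv_pos (h : S.Traj b d) : 1 ≤ (S.Mv b d).card := by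
  classical
  by_contra hn
  have h0 : S.Mv b d = ∅ := by
    rw [← Finset.card_eq_zero]
    omega
  have key : ∀ t, b + 1 ≤ t → t ≤ d → S.cu b t = (S.ex b, S.ey b) := by
    intro t h1
    induction t, h1 using Nat.le_induction with
    | base =>
      intro _
      exact cu_of_le le_rfl
    | succ t h1 ih =>
      intro h2
      have h3 : t ∉ S.Mv b d := by
        rw [h0]
        simp
      simp only [Mv, Finset.mem_filter, Finset.mem_Ico, not_and, not_not] at h3
      rw [cu_succ h1, h3 ⟨h1, by omega⟩]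
      exact ih (by omega)
  have h1 := key d h.h1 le_rfl
  rw [h.hd] at h1
  obtain ⟨h2, h3⟩ := Prod.mk.inj h1
  obtain ⟨e, he⟩ := Nat.exists_eq_add_of_le (show b ≤ d by have := h.h1; omega)
  have h4 := S.uq b e (by have := h.h1; omega) (by have := h.h2; omega)
  apply h4
  rw [← he, ← h2, ← h3]
  exact Sym2.eq_swap

/-- A same label event on the trajectory is a move. -/
theorem Traj.mem_Mv (h : S.Traj b d) {τ : ℕ} (hbτ : b < τ) (hl : S.Lives b τ)
    (ht : S.Touch τ (S.cu b τ)) (hsame : S.lb (S.ex τ) = S.lb (S.ey τ)) : τ ∈ S.Mv b d := by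
  classical
  have hτd : τ ≤ d := by
    by_contra hn
    have h1 := hl (d + 1) (by have := h.h1; omega) (by omega)
    rw [cu_succ h.h1, h.hd, S.T_death (by rw [← h.hd]; exact h.hl d h.h1 le_rfl)] at h1
    exact S.death_not_alive h1
  have hτne : τ ≠ d := by
    rintro rfl
    have hal := h.hl τ h.h1 le_rfl
    have := S.Al_lb hal
    rw [h.hd] at this
    exact this hsame.symm
  have hne : S.T τ (S.cu b τ) ≠ S.cu b τ := by
    rcases ht with ht | ht
    · have := S.Al_lb (hl τ (by omega) le_rfl)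
      rw [ht] at this
      exact absurd hsame.symm this
    · exact ht
  simp only [Mv, Finset.mem_filter, Finset.mem_Ico]
  exact ⟨⟨by omega, by omega⟩, hne⟩

end Sweep

end Vale.Agent.P040S
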