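import Vale.Agent.Lib.P040S.Assemble2

/-!
Removal of the general position assumption, and the statement on the unit sphere.
-/

namespace Vale.Agent.P040S

open Finset Filter Topology
open Vale.Agent.P040 Vale.Agent.P040D

theorem ev_cubic (c0 c1 c2 c3 : ℝ) (h : c3 ≠ 0) :
    ∀ᶠ ε in 𝓝[>] (0 : ℝ), c0 + c1 * ε + c2 * ε ^ 2 + c3 * ε ^ 3 ≠ 0 := by
  by_cases h0 : c0 = 0
  · filter_upwards [self_mem_nhdsWithin, ev_quad c1 c2 c3 h] with ε hε h2
    have h3 : (0 : ℝ) < ε := hε
    have e : c0 + c1 * ε + c2 * ε ^ 2 + c3 * ε ^ 3 = ε * (c1 + c2 * ε + c3 * ε ^ 2) := by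
      rw [h0]
      ring
    rw [e]
    exact mul_ne_zero h3.ne' h2
  · have hcont : Continuous fun ε : ℝ => c0 + c1 * ε + c2 * ε ^ 2 + c3 * ε ^ 3 := by fun_prop
    have hev : ∀ᶠ ε in 𝓝 (0 : ℝ), c0 + c1 * ε + c2 * ε ^ 2 + c3 * ε ^ 3 ≠ 0 :=
      hcont.continuousAt.eventually_ne (by simpa using h0)
    exact nhdsWithin_le_nhds hev

/-- The segment between two vectors avoids the origin. -/
def NonAnti (u v : V3) : Prop := ∀ s : ℝ, 0 ≤ s → s ≤ 1 → (1 - s) • u + s • v ≠ 0

theorem scale_eq (α β A L : ℝ) (hA : A = α + β) (hA0 : A ≠ 0) (a b : V3) :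
    (A * L) • ((1 - β / A) • a + (β / A) • b) = L • (α • a + β • b) := by
  have e1 : A * (1 - β / A) = α := by
    field_simp
    linarith
  have e2 : A * (β / A) = β := by
    field_simp
  rw [smul_add, smul_add, smul_smul, smul_smul, smul_smul, smul_smul]
  congr 2
  · calc A * L * (1 - β / A) = (A * (1 - β / A)) * L := by ring
      _ = _ := by rw [e1]; ring
  · calc A * L * (β / A) = (A * (β / A)) * L := by ring
      _ = _ := by rw [e2]; ring

/-- Cones that do not meet stay disjoint under small motions. -/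
theorem eventually_not_meet {a b c d : ℝ → V3} (ha : Continuous a) (hb : Continuous b)
    (hc : Continuous c) (hd : Continuous d) (hab : NonAnti (a 0) (b 0)) (hcd : NonAnti (c 0) (d 0))
    (h : ¬ ConeMeet (a 0) (b 0) (c 0) (d 0)) :
    ∀ᶠ ε in 𝓝 (0 : ℝ), ¬ ConeMeet (a ε) (b ε) (c ε) (d ε) := by
  let C : Set ((unitInterval × unitInterval × unitInterval) × ℝ) := {p |
    (p.1.2.2 : ℝ) • ((1 - (p.1.1 : ℝ)) • a p.2 + (p.1.1 : ℝ) • b p.2) =
      (1 - (p.1.2.2 : ℝ)) • ((1 - (p.1.2.1 : ℝ)) • c p.2 + (p.1.2.1 : ℝ) • d p.2)}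
  have hC : IsClosed C := by
    apply isClosed_eq
    · fun_prop
    · fun_prop
  have hK : IsClosed (Prod.snd '' C) := isClosedMap_snd_of_compactSpace _ hC
  have key : ∀ ε, ConeMeet (a ε) (b ε) (c ε) (d ε) → ε ∈ Prod.snd '' C := by
    rintro ε ⟨x, hx, ⟨α, β, hα, hβ, e1⟩, ⟨γ, δ, hγ, hδ, e2⟩⟩
    have hA : 0 < α + β := by
      by_contra hn
      have h1 : α = 0 := by linarith
      have h2 : β = 0 := by linarith
      apply hx
      rw [e1, h1, h2]
      simp
    have hΓ : 0 < γ + δ := by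
      by_contra hn
      have h1 : γ = 0 := by linarith
      have h2 : δ = 0 := by linarith
      apply hx
      rw [e2, h1, h2]
      simp
    set A := α + β with hAd
    set Γ := γ + δ with hΓd
    have hS : 0 < A + Γ := by linarith
    let L : ℝ := 1 / (A + Γ)
    have hL1 : A * L = A / (A + Γ) := by
      simp only [L]
      ring
    have hL2 : 1 - A * L = Γ * L := by
      simp only [L]
      field_simp
      ring
    refine ⟨((⟨β / A, by positivity, ?_⟩, ⟨δ / Γ, by positivity, ?_⟩, ⟨A * L, ?_, ?_⟩), ε), ?_, rfl⟩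
    · rw [div_le_one hA]
      linarith
    · rw [div_le_one hΓ]
      linarith
    · rw [hL1]
      positivity
    · rw [hL1, div_le_one hS]
      linarith
    · simp only [C, Set.mem_ofPred_eq]
      rw [hL2, scale_eq α β A L hAd hA.ne', scale_eq γ δ Γ L hΓd hΓ.ne', ← e1, ← e2]
  have h0 : (0 : ℝ) ∉ Prod.snd '' C := by
    rintro ⟨⟨⟨s, t, l⟩, ε⟩, hp, hε⟩
    simp only at hε
    subst hε
    simp only [C, Set.mem_ofPred_eq] at hp
    apply h
    have hp1 := hab s s.2.1 s.2.2
    have hp2 := hcd t t.2.1 t.2.2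
    have hl0 : (l : ℝ) ≠ 0 := by
      intro h5
      rw [h5, zero_smul, sub_zero, one_smul] at hp
      exact hp2 hp.symm
    refine ⟨(l : ℝ) • ((1 - (s : ℝ)) • a 0 + (s : ℝ) • b 0), smul_ne_zero hl0 hp1,
      ⟨(l : ℝ) * (1 - s), (l : ℝ) * s, mul_nonneg l.2.1 (by linarith [s.2.2]),
        mul_nonneg l.2.1 s.2.1, ?_⟩,
      ⟨(1 - (l : ℝ)) * (1 - t), (1 - (l : ℝ)) * t, mul_nonneg (by linarith [l.2.2]) (by linarith [t.2.2]),
        mul_nonneg (by linarith [l.2.2]) t.2.1, ?_⟩⟩
    · rw [smul_add, smul_smul, smul_smul]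
    · rw [hp, smul_add, smul_smul, smul_smul]
  filter_upwards [hK.isOpen_compl.mem_nhds h0] with ε hε hne
  exact hε (key ε hne)

/-- A small perturbation reaches general position without creating crossings. -/
theorem exists_perturbS {m n : ℕ} (R : Fin m → V3) (B : Fin n → V3)
    (hna : ∀ i j, NonAnti (R i) (B j)) :
    ∃ (R' : Fin m → V3) (B' : Fin n → V3),
      GP3 (Sum.elim R' B') ∧ crossingsC R' B' ≤ crossingsC R B := by
  classical
  let a : Fin m ⊕ Fin n → ℝ := Sum.elim (fun i => (i : ℕ)) (fun j => (m : ℝ) + (j : ℕ))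
  have ha : Function.Injective a := by
    rintro (i | i) (j | j) h
    · simp only [a, Sum.elim_inl, Nat.cast_inj] at h
      rw [Fin.ext h]
    · simp only [a, Sum.elim_inl, Sum.elim_inr] at h
      have h' : ((i : ℕ) : ℝ) = ((m + (j : ℕ) : ℕ) : ℝ) := by push_cast; exact h
      have := Nat.cast_inj.1 h'
      have := i.2
      omega
    · simp only [a, Sum.elim_inl, Sum.elim_inr] at h
      have h' : ((m + (i : ℕ) : ℕ) : ℝ) = ((j : ℕ) : ℝ) := by push_cast; exact h
      have := Nat.cast_inj.1 h'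
      have := j.2
      omega
    · simp only [a, Sum.elim_inr, add_right_inj, Nat.cast_inj] at h
      rw [Fin.ext h]
  let E : Fin m ⊕ Fin n → V3 := fun i => (1, a i, (a i) ^ 2)
  let X : Fin m ⊕ Fin n → V3 := Sum.elim R B
  let P : ℝ → Fin m ⊕ Fin n → V3 := fun ε i => X i + ε • E i
  have hP0 : ∀ i, P 0 i = X i := by
    intro i
    simp [P]
  have hPc : ∀ i, Continuous fun ε => P ε i := by
    intro i
    simp only [P]
    fun_prop
  have hgen : ∀ᶠ ε in 𝓝[>] (0 : ℝ), GP3 (P ε) := by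
    have key : ∀ i j k, ∀ᶠ ε in 𝓝[>] (0 : ℝ), i ≠ j → j ≠ k → i ≠ k →
        det3D (P ε i) (P ε j) (P ε k) ≠ 0 := by
      intro i j k
      by_cases hd : i ≠ j ∧ j ≠ k ∧ i ≠ k
      · obtain ⟨h1, h2, h3⟩ := hd
        have h1' : a j - a i ≠ 0 := sub_ne_zero.2 (ha.ne (Ne.symm h1))
        have h2' : a k - a i ≠ 0 := sub_ne_zero.2 (ha.ne (Ne.symm h3))
        have h3' : a k - a j ≠ 0 := sub_ne_zero.2 (ha.ne (Ne.symm h2))
        have hV := mul_ne_zero (mul_ne_zero h1' h2') h3'
        filter_upwards [ev_cubic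
          (det3D (X i) (X j) (X k))
          (det3D (E i) (X j) (X k) + det3D (X i) (E j) (X k) + det3D (X i) (X j) (E k))
          (det3D (E i) (E j) (X k) + det3D (E i) (X j) (E k) + det3D (X i) (E j) (E k))
          _ hV] with ε hε _ _ _
        have e : det3D (P ε i) (P ε j) (P ε k) =
          det3D (X i) (X j) (X k) +
          (det3D (E i) (X j) (X k) + det3D (X i) (E j) (X k) + det3D (X i) (X j) (E k)) * ε +
          (det3D (E i) (E j) (X k) + det3D (E i) (X j) (E k) + det3D (X i) (E j) (E k)) * ε ^ 2 +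
          (a j - a i) * (a k - a i) * (a k - a j) * ε ^ 3 := by
          simp only [det3D, P, E, Prod.fst_add, Prod.snd_add, Prod.smul_fst, Prod.smul_snd,
            smul_eq_mul]
          ring
        rw [e]
        exact hε
      · filter_upwards with ε h1 h2 h3
        exact absurd ⟨h1, h2, h3⟩ hd
    unfold GP3
    rw [eventually_all]
    intro i
    rw [eventually_all]
    intro j
    rw [eventually_all]
    intro k
    exact key i j k
  have hseg : ∀ q : (Fin m × Fin n) × (Fin m × Fin n), ∀ᶠ ε in 𝓝[>] (0 : ℝ),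
      ConeMeet (P ε (Sum.inl q.1.1)) (P ε (Sum.inr q.1.2)) (P ε (Sum.inl q.2.1)) (P ε (Sum.inr q.2.2)) →
      ConeMeet (R q.1.1) (B q.1.2) (R q.2.1) (B q.2.2) := by
    intro q
    by_cases hq : ConeMeet (R q.1.1) (B q.1.2) (R q.2.1) (B q.2.2)
    · filter_upwards with ε _
      exact hq
    · have := eventually_not_meet (hPc (Sum.inl q.1.1)) (hPc (Sum.inr q.1.2))
        (hPc (Sum.inl q.2.1)) (hPc (Sum.inr q.2.2))
        (by
          simp only [hP0]
          exact hna _ _)
        (by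
          simp only [hP0]
          exact hna _ _)
        (by
          simp only [hP0]
          exact hq)
      filter_upwards [nhdsWithin_le_nhds this] with ε hε hne
      exact absurd hne hε
  obtain ⟨ε, h1, h2⟩ := (hgen.and (eventually_all.2 hseg)).exists
  refine ⟨fun i => P ε (Sum.inl i), fun j => P ε (Sum.inr j), ?_, ?_⟩
  · have e : Sum.elim (fun i => P ε (Sum.inl i)) (fun j => P ε (Sum.inr j)) = P ε := by
      funext i
      cases i <;> rfl
    rw [e]
    exact h1
  · unfold crossingsC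
    apply Set.ncard_le_ncard _ (Set.toFinite _)
    rintro q ⟨q1, q2, q3⟩
    exact ⟨q1, q2, h2 q q3⟩

/-- The bound for cones, without general position. -/
theorem main_cones {m n : ℕ} (R : Fin m → V3) (B : Fin n → V3) (hna : ∀ i j, NonAnti (R i) (B j)) :
    dd m * dd n ≤ crossingsC R B := by
  obtain ⟨R', B', hgp, hle⟩ := exists_perturbS R B hna
  exact ((all_gp R' B' hgp).trans (tupleS_card_le R' B')).trans hle

/-- The squared length of a vector. -/
def normSq (x : V3) : ℝ := x.1 ^ 2 + x.2.1 ^ 2 + x.2.2 ^ 2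

/-- The geodesic arc between two vectors on the unit sphere: the unit vectors in the cone. -/
def geoArc (u v : V3) : Set V3 :=
  {x | normSq x = 1 ∧ ∃ α β : ℝ, 0 ≤ α ∧ 0 ≤ β ∧ x = α • u + β • v}

/-- Number of crossing pairs of edges of the geodesic drawing of `K_{m,n}` on the sphere. -/
noncomputable def crossingsSphere {m n : ℕ} (R : Fin m → V3) (B : Fin n → V3) : ℕ :=
  Set.ncard {q : (Fin m × Fin n) × (Fin m × Fin n) |
    q.1.1 < q.2.1 ∧ q.1.2 ≠ q.2.2 ∧ (geoArc (R q.1.1) (B q.1.2) ∩ geoArc (R q.2.1) (B q.2.2)).Nonempty}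

theorem normSq_smul (c : ℝ) (x : V3) : normSq (c • x) = c ^ 2 * normSq x := by
  simp only [normSq, smul_fst', smul_snd1, smul_snd2]
  ring

theorem normSq_pos {x : V3} (hx : x ≠ 0) : 0 < normSq x := by
  by_contra hn
  apply hx
  have h1 : normSq x ≤ 0 := not_lt.1 hn
  unfold normSq at h1
  have a1 : x.1 = 0 := by nlinarith [sq_nonneg x.1, sq_nonneg x.2.1, sq_nonneg x.2.2]
  have a2 : x.2.1 = 0 := by nlinarith [sq_nonneg x.1, sq_nonneg x.2.1, sq_nonneg x.2.2]
  have a3 : x.2.2 = 0 := by nlinarith [sq_nonneg x.1, sq_nonneg x.2.1, sq_nonneg x.2.2]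
  exact Prod.ext a1 (Prod.ext a2 a3)

theorem geoArc_iff (a b c d : V3) : (geoArc a b ∩ geoArc c d).Nonempty ↔ ConeMeet a b c d := by
  constructor
  · rintro ⟨x, ⟨h1, h2⟩, ⟨_, h3⟩⟩
    refine ⟨x, ?_, h2, h3⟩
    rintro rfl
    simp [normSq] at h1
  · rintro ⟨x, hx, ⟨α, β, hα, hβ, e1⟩, ⟨γ, δ, hγ, hδ, e2⟩⟩
    have hp := normSq_pos hx
    set r := Real.sqrt (normSq x) with hr
    have hr0 : 0 < r := Real.sqrt_pos.2 hp
    have hr2 : r ^ 2 = normSq x := Real.sq_sqrt hp.le
    have hun : normSq ((1 / r) • x) = 1 := by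
      rw [normSq_smul, ← hr2]
      field_simp
    refine ⟨(1 / r) • x, ⟨hun, 1 / r * α, 1 / r * β, by positivity, by positivity, ?_⟩,
      ⟨hun, 1 / r * γ, 1 / r * δ, by positivity, by positivity, ?_⟩⟩
    · rw [e1, smul_add, smul_smul, smul_smul]
    · rw [e2, smul_add, smul_smul, smul_smul]

theorem nonAnti_of_unit {u v : V3} (hu : normSq u = 1) (hv : normSq v = 1) (h : u ≠ -v) :
    NonAnti u v := by
  intro s _ _ hs
  apply h
  have e1 : (1 - s) • u = -(s • v) := eq_neg_of_add_eq_zero_left hs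
  have e2 := congrArg normSq e1
  have e3 : normSq (-(s • v)) = normSq (s • v) := by
    simp [normSq]
  rw [e3, normSq_smul, normSq_smul, hu, hv] at e2
  have e4 : s = 1 / 2 := by nlinarith
  rw [e4] at e1
  have e5 : (1 / 2 : ℝ) • u = (1 / 2 : ℝ) • (-v) := by
    rw [smul_neg]
    have : (1 - (1 / 2 : ℝ)) = 1 / 2 := by norm_num
    rw [this] at e1
    exact e1
  exact smul_right_injective V3 (show (1 / 2 : ℝ) ≠ 0 by norm_num) e5

/-- The main theorem on the unit sphere. -/
theorem main_sphere {m n : ℕ} (R : Fin m → V3) (B : Fin n → V3) (hR : ∀ i, normSq (R i) = 1)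
    (hB : ∀ j, normSq (B j) = 1) (hna : ∀ i j, R i ≠ -B j) :
    dd m * dd n ≤ crossingsSphere R B := by
  have h1 := main_cones R B fun i j => nonAnti_of_unit (hR i) (hB j) (hna i j)
  have h2 : crossingsSphere R B = crossingsC R B := by
    unfold crossingsSphere crossingsC
    congr 1
    ext q
    simp only [Set.mem_ofPred_eq, geoArc_iff]
  rw [h2]
  exact h1

end Vale.Agent.P040S
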