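import Mathlib

/-!
A periodic sequence of adjacent transpositions on an odd number of labelled elements and the
balanced virtual order: the combinatorial core of the decomposition of the complete graph on
an odd set of vectors into convex spherical polygons.
-/

namespace Vale.Agent.P040S

open Finset

/-- A periodic sweep: `rk τ` is the order at time `τ`, event `τ` swaps the adjacent elements
`ex τ`, `ey τ`, after `N` steps the order is reversed. -/
structure Sweep where
  m : ℕ
  k : ℕ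
  N : ℕ
  rk : ℕ → ℕ → ℕ
  ex : ℕ → ℕ
  ey : ℕ → ℕ
  lb : ℕ → Bool
  hm : m = 2 * k + 1
  hN : 0 < N
  rk_lt : ∀ τ w, w < m → rk τ w < m
  rk_inj : ∀ τ v w, v < m → w < m → rk τ v = rk τ w → v = w
  ex_lt : ∀ τ, ex τ < m
  ey_lt : ∀ τ, ey τ < m
  adj : ∀ τ, rk τ (ey τ) = rk τ (ex τ) + 1
  st_x : ∀ τ, rk (τ + 1) (ex τ) = rk τ (ey τ)
  st_y : ∀ τ, rk (τ + 1) (ey τ) = rk τ (ex τ)
  st_o : ∀ τ w, w ≠ ex τ → w ≠ ey τ → rk (τ + 1) w = rk τ w
  rv : ∀ τ w, w < m → rk (τ + N) w + rk τ w + 1 = m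
  rv_x : ∀ τ, ex (τ + N) = ey τ
  rv_y : ∀ τ, ey (τ + N) = ex τ
  uq : ∀ τ d, 0 < d → d < N → s(ex τ, ey τ) ≠ s(ex (τ + d), ey (τ + d))
  cover : ∀ a u v, u < m → v < m → u ≠ v → ∃ t, a ≤ t ∧ t < a + N ∧ s(ex t, ey t) = s(u, v)
  card_A : ((range m).filter fun z => lb z = true).card = k + 1
  card_C : ((range m).filter fun z => lb z = false).card = k

namespace Sweep

variable (S : Sweep)

theorem ex_ne_ey (τ : ℕ) : S.ex τ ≠ S.ey τ := by
  intro h
  have := S.adj τ
  rw [← h] at this
  omega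

/-- Relative order changes only for the swapped pair. -/
theorem rk_step_lt {τ w z : ℕ} (hw : w < S.m) (hz : z < S.m)
    (h : s(w, z) ≠ s(S.ex τ, S.ey τ)) :
    S.rk (τ + 1) w < S.rk (τ + 1) z ↔ S.rk τ w < S.rk τ z := by
  have hx := S.ex_lt τ
  have hy := S.ey_lt τ
  have a := S.adj τ
  have i1 : w ≠ S.ex τ → S.rk τ w ≠ S.rk τ (S.ex τ) := fun h1 h2 => h1 (S.rk_inj _ _ _ hw hx h2)
  have i2 : w ≠ S.ey τ → S.rk τ w ≠ S.rk τ (S.ey τ) := fun h1 h2 => h1 (S.rk_inj _ _ _ hw hy h2)
  have i3 : z ≠ S.ex τ → S.rk τ z ≠ S.rk τ (S.ex τ) := fun h1 h2 => h1 (S.rk_inj _ _ _ hz hx h2)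
  have i4 : z ≠ S.ey τ → S.rk τ z ≠ S.rk τ (S.ey τ) := fun h1 h2 => h1 (S.rk_inj _ _ _ hz hy h2)
  by_cases w1 : w = S.ex τ
  · subst w1
    have z2 : z ≠ S.ey τ := by
      rintro rfl
      exact h rfl
    by_cases z1 : z = S.ex τ
    · subst z1
      simp
    · rw [S.st_x, S.st_o τ z z1 z2]
      have := i3 z1
      have := i4 z2
      omega
  · by_cases w2 : w = S.ey τ
    · subst w2
      have z1 : z ≠ S.ex τ := by
        rintro rfl
        exact h Sym2.eq_swap
      by_cases z2 : z = S.ey τ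
      · subst z2
        simp
      · rw [S.st_y, S.st_o τ z z1 z2]
        have := i3 z1
        have := i4 z2
        omega
    · rw [S.st_o τ w w1 w2]
      by_cases z1 : z = S.ex τ
      · subst z1
        rw [S.st_x]
        have := i1 w1
        have := i2 w2
        omega
      · by_cases z2 : z = S.ey τ
        · subst z2
          rw [S.st_y]
          have := i1 w1
          have := i2 w2
          omega
        · rw [S.st_o τ z z1 z2]

/-- Before its event, a pair is in the order of the event. -/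
theorem order_before {t t' : ℕ} (h : t ≤ t') (hd : t' - t < S.N) :
    S.rk t (S.ex t') < S.rk t (S.ey t') := by
  obtain ⟨d, rfl⟩ := Nat.exists_eq_add_of_le h
  have hd' : d < S.N := by omega
  clear hd h
  induction d generalizing t with
  | zero =>
    have := S.adj t
    simp only [add_zero]
    omega
  | succ d ih =>
    have h1 := ih (t := t + 1) (by omega)
    have e : t + 1 + d = t + (d + 1) := by ring
    rw [e] at h1
    refine (S.rk_step_lt (S.ex_lt _) (S.ey_lt _) ?_).1 h1
    intro h2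
    exact S.uq t (d + 1) (by omega) hd' h2.symm

/-- After its event, a pair is in the reversed order. -/
theorem order_after {t t' : ℕ} (h : t < t') (hd : t' - t ≤ S.N) :
    S.rk t' (S.ey t) < S.rk t' (S.ex t) := by
  obtain ⟨d, rfl⟩ := Nat.exists_eq_add_of_le (Nat.succ_le_of_lt h)
  have hd' : d < S.N := by
    have : Nat.succ t + d - t = d + 1 := by
      simp [Nat.succ_eq_add_one]
      omega
    omega
  clear hd h
  induction d with
  | zero =>
    have a := S.adj t
    simp only [Nat.succ_eq_add_one, add_zero]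
    rw [S.st_x, S.st_y]
    omega
  | succ d ih =>
    have h1 := ih (by omega)
    have e : t.succ + (d + 1) = (t.succ + d) + 1 := by ring
    rw [e]
    refine (S.rk_step_lt (S.ey_lt _) (S.ex_lt _) ?_).2 h1
    intro h2
    have h3 : s(S.ex t, S.ey t) = s(S.ex (t + (d + 1)), S.ey (t + (d + 1))) := by
      have e2 : t.succ + d = t + (d + 1) := by
        simp [Nat.succ_eq_add_one]
        ring
      rw [e2] at h2
      rw [← h2]
      exact Sym2.eq_swap
    exact S.uq t (d + 1) (by omega) hd' h3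

/-! ### The virtual order -/

/-- Number of elements of the same label before `x`. -/
def cnt (τ x : ℕ) : ℕ :=
  ((range S.m).filter fun z => S.lb z = S.lb x ∧ S.rk τ z < S.rk τ x).card

/-- Position of `x` in the balanced alternating merge of the two label classes. -/
def V (τ x : ℕ) : ℕ := 2 * S.cnt τ x + if S.lb x = true then 0 else 1

theorem cnt_lt_cnt {τ x y : ℕ} (hx : x < S.m) (hl : S.lb x = S.lb y)
    (h : S.rk τ x < S.rk τ y) : S.cnt τ x < S.cnt τ y := by
  apply Finset.card_lt_card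
  refine ⟨?_, ?_⟩
  · intro z hz
    simp only [Finset.mem_filter, Finset.mem_range] at hz ⊢
    refine ⟨hz.1, hz.2.1.trans hl, hz.2.2.trans h⟩
  · intro hsub
    have h1 : x ∈ (range S.m).filter fun z => S.lb z = S.lb y ∧ S.rk τ z < S.rk τ y := by
      simp only [Finset.mem_filter, Finset.mem_range]
      exact ⟨hx, hl, h⟩
    have h2 := hsub h1
    simp only [Finset.mem_filter, Finset.mem_range] at h2
    exact lt_irrefl _ h2.2.2

theorem V_lt_V {τ x y : ℕ} (hx : x < S.m) (hl : S.lb x = S.lb y)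
    (h : S.rk τ x < S.rk τ y) : S.V τ x < S.V τ y := by
  have := S.cnt_lt_cnt hx hl h
  unfold V
  rw [hl]
  omega

theorem V_inj {τ x y : ℕ} (hx : x < S.m) (hy : y < S.m) (h : S.V τ x = S.V τ y) : x = y := by
  have hl : S.lb x = S.lb y := by
    unfold V at h
    cases h1 : S.lb x <;> cases h2 : S.lb y <;> simp [h1, h2] at h ⊢ <;> omega
  by_contra hne
  have hr : S.rk τ x ≠ S.rk τ y := fun h2 => hne (S.rk_inj _ _ _ hx hy h2)
  rcases lt_or_gt_of_ne hr with h1 | h1
  · have := S.V_lt_V hx hl h1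
    omega
  · have := S.V_lt_V hy hl.symm h1
    omega

theorem cnt_le {τ x : ℕ} (hx : x < S.m) :
    S.cnt τ x + 1 ≤ ((range S.m).filter fun z => S.lb z = S.lb x).card := by
  have h1 : insert x ((range S.m).filter fun z => S.lb z = S.lb x ∧ S.rk τ z < S.rk τ x) ⊆
      (range S.m).filter fun z => S.lb z = S.lb x := by
    intro z hz
    simp only [Finset.mem_insert, Finset.mem_filter, Finset.mem_range] at hz ⊢
    rcases hz with rfl | hz
    · exact ⟨hx, rfl⟩
    · exact ⟨hz.1, hz.2.1⟩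
  have h2 := Finset.card_le_card h1
  rw [Finset.card_insert_of_notMem (by simp)] at h2
  exact h2

theorem V_lt {τ x : ℕ} (hx : x < S.m) : S.V τ x < S.m := by
  have h1 := S.cnt_le (τ := τ) hx
  have h2 := S.hm
  have h3 := S.card_A
  have h4 := S.card_C
  unfold V
  cases h : S.lb x
  · rw [h, h4] at h1
    simp only [Bool.false_eq_true, if_false]
    omega
  · rw [h, h3] at h1
    simp only [if_true]
    omega

/-- Every position of the merge is taken. -/
theorem V_surj (τ : ℕ) {v : ℕ} (hv : v < S.m) : ∃ x, x < S.m ∧ S.V τ x = v := by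
  have h1 : ((range S.m).image (S.V τ)) = range S.m := by
    apply Finset.eq_of_subset_of_card_le
    · intro y hy
      obtain ⟨x, hx, rfl⟩ := Finset.mem_image.1 hy
      exact Finset.mem_range.2 (S.V_lt (Finset.mem_range.1 hx))
    · rw [Finset.card_image_of_injOn]
      intro a ha b hb hab
      exact S.V_inj (Finset.mem_range.1 ha) (Finset.mem_range.1 hb) hab
  have h2 : v ∈ (range S.m).image (S.V τ) := by
    rw [h1]
    exact Finset.mem_range.2 hv
  obtain ⟨x, hx, rfl⟩ := Finset.mem_image.1 h2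
  exact ⟨x, Finset.mem_range.1 hx, rfl⟩

/-! Effect of an event on the counts. -/

theorem cnt_ey {τ : ℕ} (hl : S.lb (S.ex τ) = S.lb (S.ey τ)) :
    S.cnt τ (S.ey τ) = S.cnt τ (S.ex τ) + 1 := by
  unfold cnt
  rw [← Finset.card_insert_of_notMem (a := S.ex τ) (by simp)]
  congr 1
  ext z
  simp only [Finset.mem_filter, Finset.mem_range, Finset.mem_insert]
  have a := S.adj τ
  constructor
  · rintro ⟨h1, h2, h3⟩
    by_cases hz : z = S.ex τ
    · exact Or.inl hz
    · right
      have : S.rk τ z ≠ S.rk τ (S.ex τ) := fun h => hz (S.rk_inj _ _ _ h1 (S.ex_lt _) h)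
      exact ⟨h1, h2.trans hl.symm, by omega⟩
  · rintro (rfl | ⟨h1, h2, h3⟩)
    · exact ⟨S.ex_lt _, hl, by omega⟩
    · exact ⟨h1, h2.trans hl, by omega⟩

/-- The count of an element is unchanged unless its partner in the event has the same label. -/
theorem cnt_succ_of {τ x : ℕ} (hx : x < S.m)
    (h : ∀ z, z < S.m → S.lb z = S.lb x → s(z, x) ≠ s(S.ex τ, S.ey τ)) :
    S.cnt (τ + 1) x = S.cnt τ x := by
  unfold cnt
  congr 1
  apply Finset.filter_congr
  intro z hz
  have hz' := Finset.mem_range.1 hz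
  refine and_congr_right fun h2 => ?_
  exact S.rk_step_lt hz' hx (h z hz' h2)

theorem cnt_succ_x {τ : ℕ} (hl : S.lb (S.ex τ) = S.lb (S.ey τ)) :
    S.cnt (τ + 1) (S.ex τ) = S.cnt τ (S.ex τ) + 1 := by
  unfold cnt
  rw [← Finset.card_insert_of_notMem (a := S.ey τ) (by
    simp only [Finset.mem_filter, not_and, not_lt]
    intro _ _
    have := S.adj τ
    omega)]
  congr 1
  ext z
  simp only [Finset.mem_filter, Finset.mem_range, Finset.mem_insert]
  have a := S.adj τ
  rw [S.st_x]
  constructor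
  · rintro ⟨h1, h2, h3⟩
    by_cases hz : z = S.ey τ
    · exact Or.inl hz
    · right
      have hz2 : z ≠ S.ex τ := by
        rintro rfl
        rw [S.st_x] at h3
        omega
      rw [S.st_o τ z hz2 hz] at h3
      have i1 : S.rk τ z ≠ S.rk τ (S.ex τ) := fun h => hz2 (S.rk_inj _ _ _ h1 (S.ex_lt _) h)
      exact ⟨h1, h2, by omega⟩
  · rintro (rfl | ⟨h1, h2, h3⟩)
    · refine ⟨S.ey_lt _, hl.symm, ?_⟩
      rw [S.st_y]
      omega
    · have hz1 : z ≠ S.ex τ := by
        rintro rfl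
        omega
      have hz2 : z ≠ S.ey τ := by
        rintro rfl
        omega
      rw [S.st_o τ z hz1 hz2]
      exact ⟨h1, h2, by omega⟩

theorem cnt_succ_y {τ : ℕ} (hl : S.lb (S.ex τ) = S.lb (S.ey τ)) :
    S.cnt (τ + 1) (S.ey τ) = S.cnt τ (S.ex τ) := by
  unfold cnt
  congr 1
  ext z
  simp only [Finset.mem_filter, Finset.mem_range]
  have a := S.adj τ
  rw [S.st_y]
  constructor
  · rintro ⟨h1, h2, h3⟩
    have hz1 : z ≠ S.ex τ := by
      rintro rfl
      rw [S.st_x] at h3
      omega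
    have hz2 : z ≠ S.ey τ := by
      rintro rfl
      rw [S.st_y] at h3
      omega
    rw [S.st_o τ z hz1 hz2] at h3
    exact ⟨h1, h2.trans hl.symm, h3⟩
  · rintro ⟨h1, h2, h3⟩
    have hz1 : z ≠ S.ex τ := by
      rintro rfl
      omega
    have hz2 : z ≠ S.ey τ := by
      rintro rfl
      omega
    rw [S.st_o τ z hz1 hz2]
    exact ⟨h1, h2.trans hl, h3⟩

/-- Virtual positions after a same label event. -/
theorem V_succ_same {τ : ℕ} (hl : S.lb (S.ex τ) = S.lb (S.ey τ)) :
    S.V τ (S.ey τ) = S.V τ (S.ex τ) + 2 ∧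
    S.V (τ + 1) (S.ex τ) = S.V τ (S.ex τ) + 2 ∧
    S.V (τ + 1) (S.ey τ) = S.V τ (S.ex τ) ∧
    ∀ z, z < S.m → z ≠ S.ex τ → z ≠ S.ey τ → S.V (τ + 1) z = S.V τ z := by
  refine ⟨?_, ?_, ?_, ?_⟩
  · unfold V
    rw [S.cnt_ey hl, hl]
    omega
  · unfold V
    rw [S.cnt_succ_x hl]
    omega
  · unfold V
    rw [S.cnt_succ_y hl, hl]
  · intro z hz h1 h2
    unfold V
    rw [S.cnt_succ_of hz]
    intro w _ _ h
    rcases Sym2.eq_iff.1 h with ⟨_, h3⟩ | ⟨_, h3⟩
    · exact h2 h3
    · exact h1 h3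

/-- Virtual positions do not change at a mixed event. -/
theorem V_succ_mixed {τ : ℕ} (hl : S.lb (S.ex τ) ≠ S.lb (S.ey τ)) {z : ℕ} (hz : z < S.m) :
    S.V (τ + 1) z = S.V τ z := by
  unfold V
  rw [S.cnt_succ_of hz]
  intro w _ h2 h
  rcases Sym2.eq_iff.1 h with ⟨h3, h4⟩ | ⟨h3, h4⟩
  · subst h3 h4
    exact hl h2
  · subst h3 h4
    exact hl h2.symm

end Sweep

end Vale.Agent.P040S
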